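import Crest.Agent.X261.Fam.MolA

/-!
# Row 261, package FAM (helper65), part Mol: Friedrichs' lemma for approximate minimisers

* `cmm` : the commutator; `split`, `norm_cmm_le`, `norm_cmm_sm`, `el_bound`;
* `mol_cs` : compactly supported data; `mol : MolStmt`.
-/

set_option autoImplicit false
set_option linter.unusedSectionVars false

open Set Filter Topology MeasureTheory Matrix Metric
open scoped ComplexConjugate InnerProductSpace ContDiff NNReal ENNReal Convolution

namespace Crest.Agent.X261.Fam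

open Crest.Agent.R275.Geo Crest.Agent.R275.EDR890 Crest.Agent.R273.Hess_333
open Crest.Agent.R271.H88 Crest.Agent.T223.Hm.Fr7

noncomputable section

namespace Mol

variable {n : ℕ} {H : Type*} [NormedAddCommGroup H] [InnerProductSpace ℂ H] [CompleteSpace H]
  {Q : Cn n → Mt n} {G : Cn n → H} {θ θ' : Cn n → Fin n → H} {r : ℝ} (hr : 0 < r) {x : Cn n}
  {K K' : Set (Cn n)}

/-- the commutator -/
def cmm (Q : Cn n → Mt n) (θ : Cn n → Fin n → H) (x : Cn n) : H :=
  ∫ y, ∑ s, wd (true, s) (rx hr x) y • ac (Q x - Q y) (θ y) s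

theorem cont_th (hG : ContDiff ℝ ∞ G) : Continuous (th G) :=
  continuous_pi fun _ => (contDiff_wd hG _).continuous

theorem cont_sqrt (h : Continuous θ) : Continuous fun y => √(sq (θ y)) := by
  unfold sq
  fun_prop

theorem trH_mo (hG : CS G) (X : Mt n) (x : Cn n) :
    trH X (Am (mo volume hr G) x) = ∫ y, rx hr x y • trH X (Am G y) := by
  have h1 : ∀ p, Am (mo volume hr G) x p = ∫ y, rx hr x y • Am G y p := fun p => by
    rw [Am, funext (wd_mo hr hG (true, p.2)), wd_mo hr (hG.wd _), mo_eq]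
    rfl
  simp only [trH, h1, Finset.smul_sum, ← integral_smul, smul_comm (rx hr x _)]
  exact (integral_finsetSum _ fun p _ => ((cs_rx hr x).int_smul
    ((hG.wd _).wd _).sm.continuous).fun_smul _).symm

theorem int_cmm (hQ : ∀ a b, Continuous fun z => Q z a b) (h : Continuous θ) (x : Cn n) :
    Integrable fun y => ∑ s, wd (true, s) (rx hr x) y • ac (Q y) (θ y) s :=
  integrable_finsetSum _ fun s _ => ((cs_rx hr x).wd _).int_smul
    (continuous_finsetSum _ fun p _ => (hQ s p).smul ((continuous_apply p).comp h))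

theorem split (hQ : ∀ a b, ContDiff ℝ ∞ fun z => Q z a b) (hG : CS G)
    (hd : ∀ y, ‖x - y‖ < r → ∀ p, ∑ r, wd (true, r) (fun w => Q w r p) y = 0) :
    trH (Q x) (Am (mo volume hr G) x) =
      (∫ y, rx hr x y • trH (Q y) (Am G y)) - cmm hr Q (th G) x := by
  rw [trH_mo hr hG, weak (Q := fun _ => Q x) (fun _ _ => contDiff_const) hG.sm (cs_rx hr x)
    (fun y _ p => by simp [wd_const]), weak hQ hG.sm (cs_rx hr x) fun y hy => hd y (rx_ne hr hy)]
  simp only [cmm, sub_ac, Pi.sub_apply, smul_sub, Finset.sum_sub_distrib]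
  rw [integral_sub (int_cmm hr (Q := fun _ => Q x) (fun _ _ => continuous_const) (cont_th hG.sm) x)
    (int_cmm hr (fun a b => (hQ a b).continuous) (cont_th hG.sm) x)]
  abel

theorem cmm_sub (hQ : ∀ a b, Continuous fun z => Q z a b) (h : Continuous θ)
    (h' : Continuous θ') (x : Cn n) :
    cmm hr Q (fun y => θ y - θ' y) x = cmm hr Q θ x - cmm hr Q θ' x := by
  have h1 : ∀ a b, Continuous fun z => (Q x - Q z) a b := fun a b => continuous_const.sub (hQ a b)
  simp only [cmm, ac_sub, Pi.sub_apply, smul_sub, Finset.sum_sub_distrib]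
  exact integral_sub (int_cmm hr h1 h x) (int_cmm hr h1 h' x)

/-- the kernel of the commutator -/
def kk (L : ℝ) (w : Cn n) : ℝ := n * n * L * (r * ‖fderiv ℝ (rho volume hr) w‖)

theorem cont_drho : Continuous (fderiv ℝ (rho (volume : Measure (Cn n)) hr)) :=
  (rho_contDiff volume hr).continuous_fderiv (by simp)

theorem cont_kk (L : ℝ) : Continuous (kk (n := n) hr L) :=
  continuous_const.mul (continuous_const.mul (cont_drho hr).norm)

theorem int_kk (L : ℝ) : Integrable (kk (n := n) hr L) :=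
  (((cont_drho hr).integrable_of_hasCompactSupport
    ((rho_cs volume hr).fderiv ℝ)).norm.const_mul r).const_mul _

theorem integral_kk (L : ℝ) : ∫ w, kk (n := n) hr L w =
    n * n * L * ∫ w, ‖fderiv ℝ (rho (volume : Measure (Cn n)) one_pos) w‖ := by
  rw [← integral_drho volume hr, ← integral_const_mul]
  rfl

theorem kk_nonneg {L : ℝ} (hL : 0 ≤ L) (w : Cn n) : 0 ≤ kk hr L w := by
  unfold kk
  positivity

theorem norm_cmm_le {L : ℝ} (hL0 : 0 ≤ L) (hL : ∀ x y a b, ‖Q x a b - Q y a b‖ ≤ L * ‖x - y‖)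
    (h : Continuous θ) (hK' : IsCompact K') (hx : closedBall x r ⊆ K') :
    ‖cmm hr Q θ x‖ ≤ ∫ y in K', kk hr L (x - y) * √(sq (θ y)) := by
  refine norm_mo_le hK' hx (cont_kk hr L) (cont_sqrt h) (fun y hy => ?_) (fun y hy => ?_)
    (kk_nonneg hr hL0) fun _ => Real.sqrt_nonneg _
  · refine Finset.sum_eq_zero fun s _ => ?_
    have h1 := norm_wd_rx hr (true, s) x y
    rw [drho_zero volume hr hy, norm_zero, norm_le_zero_iff] at h1
    rw [h1, zero_smul]
  · refine (norm_sum_le _ _).trans ((Finset.sum_le_card_nsmul _ _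
      (‖fderiv ℝ (rho volume hr) (x - y)‖ * (n * (L * r * √(sq (θ y))))) fun s _ => ?_).trans_eq ?_)
    · rw [norm_smul]
      exact mul_le_mul (norm_wd_rx hr _ x y) (norm_ac_le (fun a b => (hL x y a b).trans
        (mul_le_mul_of_nonneg_left hy hL0)) (norm_le_sqrt _) s) (norm_nonneg _) (norm_nonneg _)
    · simp only [kk, Finset.card_univ, Fintype.card_fin, nsmul_eq_mul]
      ring

theorem norm_cmm_sm {L M : ℝ} (hL0 : 0 ≤ L) (hL : ∀ x y a b, ‖Q x a b - Q y a b‖ ≤ L * ‖x - y‖)
    (hQ : ∀ a b, ContDiff ℝ ∞ fun z => Q z a b) (hG : CS G) (hM : ∀ y p, ‖Am G y p‖ ≤ M)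
    (hd : ∀ y, ‖x - y‖ < r → ∀ p, ∑ r, wd (true, r) (fun w => Q w r p) y = 0) :
    ‖cmm hr Q (th G) x‖ ≤ n * n * (L * r * M) := by
  have h1 := split hr hQ hG hd
  rw [trH_mo hr hG, eq_sub_iff_add_eq, ← eq_sub_iff_add_eq', ← integral_sub
    ((cs_rx hr x).int_smul (sm_trH hQ hG.sm).continuous) ((cs_rx hr x).int_smul
      (sm_trH (Q := fun _ => Q x) (fun _ _ => contDiff_const) hG.sm).continuous)] at h1
  have h2 : ∀ y, trH (Q y) (Am G y) - trH (Q x) (Am G y) = trH (Q y - Q x) (Am G y) := fun y => by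
    simp [trH, sub_smul, Finset.sum_sub_distrib]
  simp only [← smul_sub, h2] at h1
  rw [h1]
  exact norm_int_rx hr fun y hy => norm_trH_le (fun a b => (hL y x a b).trans
    (mul_le_mul_of_nonneg_left (by rw [norm_sub_rev]; exact hy.le) hL0)) (hM y)

theorem conj_rx (x y : Cn n) : conj (rx hr x y) = rx hr x y := Complex.conj_ofReal _

theorem el_bound (cj : Cj H) (hQ : ∀ a b, ContDiff ℝ ∞ fun z => Q z a b) (hG : ContDiff ℝ ∞ G)
    (hJ : ∀ z, cj.J (G z) = G z) (hx : closedBall x r ⊆ K')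
    (hH : ∀ y, ‖x - y‖ < r → (Q y).IsHermitian)
    (hd : ∀ y, ‖x - y‖ < r → ∀ p, ∑ r, wd (true, r) (fun w => Q w r p) y = 0) {δ : ℝ}
    (hδ : 0 ≤ δ) (el : ∀ u : Cn n → H, ContDiff ℝ ∞ u → tsupport u ⊆ K' →
      (∀ z, cj.J (u z) = u z) →
      |∫ z, (ip (Q z) (th u z) (th G z)).re| ≤ δ * √(∫ z, sq (th u z))) :
    ‖∫ y, rx hr x y • trH (Q y) (Am G y)‖ ≤
      δ * √(n * ∫ w, ‖fderiv ℝ (rho (volume : Measure (Cn n)) hr) w‖ ^ 2) := by
  have hw := weak hQ hG (cs_rx hr x) fun y hy => hd y (rx_ne hr hy)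
  set ξ := ∫ y, rx hr x y • trH (Q y) (Am G y) with hξ
  set c := n * ∫ w, ‖fderiv ℝ (rho (volume : Measure (Cn n)) hr) w‖ ^ 2 with hc
  have h1 : cj.J ξ = ξ := by
    rw [hξ, ← cj.J.integral_comp_comm ((cs_rx hr x).int_smul (sm_trH hQ hG).continuous)]
    refine integral_congr_ae (Eventually.of_forall fun y => ?_)
    by_cases hy : rx hr x y = 0
    · simp [hy]
    · simp only [cj.smul, conj_rx, J_trH cj hG hJ (hH y (rx_ne hr hy))]
  have h2 : ∀ y b, th (fun y => rx hr x y • ξ) y b = wd (false, b) (rx hr x) y • ξ := fun y b => by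
    rw [th, wd_smul (dAt (cs_rx hr x).sm y) (differentiableAt_const ξ), wd_const, smul_zero,
      add_zero]
  have h3 := el (fun y => rx hr x y • ξ) ((cs_rx hr x).sm.smul contDiff_const)
    ((tsupport_smul_subset_left _ _).trans ((tsupport_rx hr x).trans hx))
    fun z => by rw [cj.smul, conj_rx, h1]
  have h4 : ∀ y, ip (Q y) (th (fun y => rx hr x y • ξ) y) (th G y) =
      ⟪ξ, ∑ s, wd (true, s) (rx hr x) y • ac (Q y) (th G y) s⟫_ℂ := fun y => by
    simp only [ip, dt, h2, inner_sum, inner_smul_left, inner_smul_right]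
    refine Finset.sum_congr rfl fun s _ => ?_
    rw [rx, conj_wd_real _ ((sm_rho hr x).differentiable (by simp) y)]
    rfl
  have h5 := int_cmm hr (fun a b => (hQ a b).continuous) (cont_th hG) x
  have h6 : ∫ y, (ip (Q y) (th (fun y => rx hr x y • ξ) y) (th G y)).re = -‖ξ‖ ^ 2 := by
    simp only [h4]
    refine (integral_re (h5.const_inner (𝕜 := ℂ) ξ)).trans ?_
    rw [integral_inner h5, neg_eq_iff_eq_neg.1 hw.symm, inner_neg_right, inner_self_c]
    simp [-Complex.ofReal_pow]
  have h7 : ∫ y, sq (th (fun y => rx hr x y • ξ) y) ≤ ‖ξ‖ ^ 2 * c := by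
    have h8 : Integrable fun w => ‖fderiv ℝ (rho (volume : Measure (Cn n)) hr) w‖ ^ 2 :=
      ((cont_drho hr).norm.fun_pow 2).integrable_of_hasCompactSupport
        (((rho_cs volume hr).fderiv ℝ).comp_left (g := fun A => ‖A‖ ^ 2) (by simp))
    rw [hc, ← integral_sub_left_eq_self (fun w => ‖fderiv ℝ (rho volume hr) w‖ ^ 2) volume x,
      ← integral_const_mul, ← integral_const_mul]
    refine integral_mono_of_nonneg (Eventually.of_forall fun y => sq_nonneg' _)
      (((h8.comp_sub_left x).const_mul _).const_mul _) (Eventually.of_forall fun y => ?_)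
    refine (sq_le_of (c := ‖fderiv ℝ (rho volume hr) (x - y)‖ * ‖ξ‖) fun p => ?_).trans_eq
      (by ring)
    rw [h2, norm_smul]
    exact mul_le_mul_of_nonneg_right (norm_wd_rx hr _ x y) (norm_nonneg _)
  rw [h6, abs_neg, abs_of_nonneg (sq_nonneg _)] at h3
  have h9 := h3.trans (mul_le_mul_of_nonneg_left (Real.sqrt_le_sqrt h7) hδ)
  rw [Real.sqrt_mul (sq_nonneg _), Real.sqrt_sq (norm_nonneg _)] at h9
  rcases (norm_nonneg ξ).eq_or_lt with h0 | h0
  · rw [← h0]
    positivity
  · exact le_of_mul_le_mul_left (by nlinarith) h0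

theorem small {a b : ℝ} (ha : 0 ≤ a) (hb : 0 < b) : ∃ t, 0 < t ∧ ∀ s, s ≤ t → a * s ≤ b := by
  refine ⟨b / (a + 1), by positivity, fun s hs => (mul_le_mul_of_nonneg_left hs ha).trans ?_⟩
  rw [← mul_div_assoc, div_le_iff₀ (by positivity)]
  nlinarith

theorem exists_lip {W ι : Type*} [NormedAddCommGroup W] [NormedSpace ℂ W] [Finite ι]
    {f : ι → Cn n → W} (h : ∀ i, CS (f i)) : ∃ L : ℝ, 0 ≤ L ∧
      (∀ i x y, ‖f i x - f i y‖ ≤ L * ‖x - y‖) ∧ ∀ i x, ‖f i x‖ ≤ L := by
  choose C hC using fun i => (h i).sm.lipschitzWith_of_hasCompactSupport (h i).cs (by simp)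
  choose D hD using fun i => (h i).cs.exists_bound_of_continuous (h i).sm.continuous
  obtain ⟨A, hA⟩ := (Set.finite_range fun i => max (C i : ℝ) (D i)).bddAbove
  refine ⟨max A 0, le_max_right _ _, fun i x y => ((hC i).norm_sub_le x y).trans
    (mul_le_mul_of_nonneg_right ?_ (norm_nonneg _)), fun i x => (hD i x).trans ?_⟩
  · exact (le_max_left _ _).trans ((hA ⟨i, rfl⟩).trans (le_max_left _ _))
  · exact (le_max_right _ _).trans ((hA ⟨i, rfl⟩).trans (le_max_left _ _))

/-- Friedrichs' lemma for compactly supported data -/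
theorem mol_cs (cj : Cj H) {F : ℕ → Cn n → H} (hQ : ∀ a b, CS fun z => Q z a b)
    (hH : ∀ z ∈ K', (Q z).IsHermitian)
    (hd : ∀ z ∈ K', ∀ p, ∑ r, wd (true, r) (fun w => Q w r p) z = 0) (hK : IsCompact K)
    (hK' : IsCompact K') (hKK : K ⊆ interior K') (hF : ∀ i, CS (F i)) (h : Sq cj univ Q K' F)
    {η : ℝ} (hη : 0 < η) : ∀ᶠ i in atTop, ∃ F' : Cn n → H, ContDiff ℝ ∞ F' ∧
      (∀ z, cj.J (F' z) = F' z) ∧ ∫ z in K, sq (th F' z - th (F i) z) ≤ η ∧
      ∫ z in K, ‖trH (Q z) (Am F' z)‖ ^ 2 ≤ η := by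
  have hQ' := fun a b => (hQ a b).sm
  have hQc := fun a b => (hQ a b).sm.continuous
  obtain ⟨L, hL0, hL, -⟩ := exists_lip (f := fun (p : Fin n × Fin n) z => Q z p.1 p.2)
    fun p => hQ p.1 p.2
  replace hL : ∀ x y a b, ‖Q x a b - Q y a b‖ ≤ L * ‖x - y‖ := fun x y a b => hL (a, b) x y
  set A := n * n * L * ∫ w, ‖fderiv ℝ (rho (volume : Measure (Cn n)) one_pos) w‖
  have hV : 0 ≤ volume.real K := measureReal_nonneg
  obtain ⟨e, he, he'⟩ := small (a := 3 * n * (1 ^ 2 + 1) + 3 * 1 * (A ^ 2 + 1)) (by positivity)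
    (half_pos hη)
  obtain ⟨c2, hc2, hc'⟩ := small (a := 3 * n * volume.real K + 3 * 1 * volume.real K)
    (by positivity) (half_pos hη)
  set c := √c2
  have hc : 0 < c := Real.sqrt_pos.2 hc2
  have hcc : c ^ 2 = c2 := Real.sq_sqrt hc2.le
  obtain ⟨N, hN⟩ := h.cau e he
  obtain ⟨M, hM0, hM, -⟩ := exists_lip (f := fun b => wd (false, b) (F N)) fun b => (hF N).wd _
  obtain ⟨M', hM0', -, hM'⟩ := exists_lip (f := fun (p : Fin n × Fin n) z => Am (F N) z p)
    fun p => ((hF N).wd _).wd _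
  obtain ⟨r0, hr0, h0⟩ := hK.exists_cthickening_subset_open isOpen_interior hKK
  obtain ⟨r1, hr1, h1⟩ := small hM0 hc
  obtain ⟨r2, hr2, h2⟩ := small (a := n * n * (L * M')) (by positivity) (half_pos hc)
  set r := min r0 (min r1 r2)
  have hr : 0 < r := lt_min hr0 (lt_min hr1 hr2)
  have hb : ∀ x ∈ K, closedBall x r ⊆ K' := fun x hx =>
    (closedBall_subset_closedBall (min_le_left _ _)).trans
      ((closedBall_subset_cthickening hx r0).trans (h0.trans interior_subset))
  have hb' : ∀ x ∈ K, ∀ y, ‖x - y‖ < r → y ∈ K' := fun x hx y hy =>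
    hb x hx (mem_closedBall'.2 (by rw [dist_eq_norm]; exact hy.le))
  obtain ⟨δ, hδ, h3⟩ := small (a := √(n * ∫ w,
    ‖fderiv ℝ (rho (volume : Measure (Cn n)) hr) w‖ ^ 2)) (Real.sqrt_nonneg _) (half_pos hc)
  filter_upwards [h.el δ hδ, eventually_ge_atTop N] with i hel hi
  have hθ : Continuous fun y => th (F i) y - th (F N) y :=
    (cont_th (hF i).sm).sub (cont_th (hF N).sm)
  have hg := cont_sqrt hθ
  have hg0 := fun y => Real.sqrt_nonneg (sq (th (F i) y - th (F N) y))
  have hI : ∫ y in K', √(sq (th (F i) y - th (F N) y)) ^ 2 ≤ e := by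
    simp only [Real.sq_sqrt (sq_nonneg' _)]
    exact hN i hi N le_rfl
  have hI0 : 0 ≤ ∫ y in K', √(sq (th (F i) y - th (F N) y)) ^ 2 :=
    integral_nonneg fun _ => sq_nonneg _
  have e1 := he' _ hI
  have e2 := hc' _ hcc.le
  refine ⟨mo volume hr (F i), contDiff_mo hr (hF i), fun z => ?_, ?_, ?_⟩
  · rw [mo_eq, ← cj.J.integral_comp_comm ((cs_rx hr z).int_smul (hF i).sm.continuous)]
    simp only [cj.smul, conj_rx, h.real i _ (mem_univ _)]
  · refine (l2_bound hK hK' (hKK.trans interior_subset) (c := c)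
      (rho_contDiff volume hr).continuous (rho_integrable volume hr) hg (rho_nonneg volume hr) hg0
      n.cast_nonneg (fun _ => sq_nonneg' _) fun x hx => sq_le_of fun b => ?_).trans ?_
    · have h4 : (th (mo volume hr (F i)) x - th (F i) x) b =
          (∫ y, rx hr x y • (th (F i) y - th (F N) y) b) - (th (F i) x - th (F N) x) b +
            ∫ y, rx hr x y • (th (F N) y b - th (F N) x b) := by
        have i1 : ∀ j, Integrable fun y => rx hr x y • th (F j) y b := fun j =>
          (cs_rx hr x).int_smul ((hF j).wd (false, b)).sm.continuous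
        have i3 : th (mo volume hr (F i)) x b = ∫ y, rx hr x y • th (F i) y b :=
          (wd_mo hr (hF i) _ x).trans (mo_eq hr _ x)
        have i2 : ∫ y, rx hr x y • th (F N) x b = th (F N) x b := by
          rw [integral_smul_const, show ∫ y, rx hr x y = ((∫ y, rho volume hr (x - y) : ℝ) : ℂ) from
            integral_ofReal, int_rho, Complex.ofReal_one, one_smul]
        simp only [Pi.sub_apply, smul_sub]
        rw [integral_sub (i1 i) (i1 N), integral_sub (i1 N)
          ((cs_rx hr x).int_smul continuous_const), i2, i3]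
        abel
      rw [h4]
      refine norm_add_le_of_le (norm_sub_le_of_le ?_ (norm_le_sqrt _ b))
        (norm_int_rx hr fun y hy => (hM b y x).trans (h1 _ ?_))
      · refine norm_mo_le hK' (hb x hx) (rho_contDiff volume hr).continuous hg (fun y hy => ?_)
          (fun y _ => ?_) (rho_nonneg volume hr) hg0
        · by_contra h5
          exact hy.not_gt (rx_ne hr (left_ne_zero_of_smul h5))
        · rw [norm_smul, norm_rx]
          exact mul_le_mul_of_nonneg_left (norm_le_sqrt _ b) (rho_nonneg volume hr _)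
      · rw [norm_sub_rev]
        exact hy.le.trans ((min_le_right _ _).trans (min_le_left _ _))
    · rw [rho_integral]
      nlinarith [mul_nonneg (sq_nonneg A) hI0, mul_nonneg hV (sq_nonneg c)]
  · refine (l2_bound hK hK' (hKK.trans interior_subset) (c := c) (m := 1) (cont_kk hr L)
      (int_kk hr L) hg (kk_nonneg hr hL0) hg0 zero_le_one (fun _ => sq_nonneg _)
      fun x hx => ?_).trans ?_
    · have hdx := fun y hy => hd y (hb' x hx y hy)
      have h4 := el_bound hr cj hQ' (hF i).sm (fun z => h.real i z (mem_univ _)) (hb x hx)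
        (fun y hy => hH y (hb' x hx y hy)) hdx hδ.le hel
      have h5 := norm_cmm_le hr hL0 hL hθ hK' (hb x hx)
      have h6 := norm_cmm_sm hr hL0 hL hQ' (hF N) (fun y p => hM' p y) hdx
      have h7 := h2 r ((min_le_right _ _).trans (min_le_right _ _))
      have h8 := h3 δ le_rfl
      rw [one_mul, split hr hQ' (hF i) hdx, ← sub_add_cancel (cmm hr Q (th (F i)) x)
        (cmm hr Q (th (F N)) x), ← cmm_sub hr hQc (cont_th (hF i).sm) (cont_th (hF N).sm)]
      refine pow_le_pow_left₀ (norm_nonneg _) ((norm_sub_le_of_le h4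
        (norm_add_le_of_le h5 h6)).trans ?_) 2
      nlinarith [hg0 x]
    · rw [integral_kk]
      nlinarith [mul_nonneg (n.cast_nonneg (α := ℝ)) hI0,
        mul_nonneg (n.cast_nonneg (α := ℝ)) (mul_nonneg hV (sq_nonneg c))]

theorem cs_cut {W : Type*} [NormedAddCommGroup W] [NormedSpace ℂ W] {U : Set (Cn n)}
    (hU : IsOpen U) {χ : Cn n → ℝ} (hχ : ContDiff ℝ ∞ χ) (hc : HasCompactSupport χ)
    (hs : tsupport χ ⊆ U) {f : Cn n → W} (hf : ContDiffOn ℝ ∞ f U) : CS fun z => χ z • f z := by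
  refine ⟨contDiff_iff_contDiffAt.2 fun z => ?_, hc.smul_right⟩
  by_cases hz : z ∈ tsupport χ
  · exact hχ.contDiffAt.smul (hf.contDiffAt (hU.mem_nhds (hs hz)))
  · refine (contDiffAt_const (c := 0)).congr_of_eventuallyEq ?_
    filter_upwards [notMem_tsupport_iff_eventuallyEq.1 hz] with w hw
    simp [hw]

end Mol

open Mol in
/-- **MOL** -/
theorem mol : MolStmt := by
  intro n H _ _ _ cj U Q K K' F hU hQ hH hd hK hK' hKK hKU h η hη
  obtain ⟨L, hL, h1, h2⟩ := exists_compact_between hK' hU hKU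
  obtain ⟨χ, a1, a2, -⟩ := exists_contMDiffMap_one_nhds_of_subset_interior (n := ⊤)
    (modelWithCornersSelf ℝ (Cn n)) hK'.isClosed h1
  have hχ : ContDiff ℝ ∞ χ := χ.contMDiff.contDiff
  have hs : tsupport χ ⊆ L := closure_minimal (fun z hz => by_contra fun h => hz (a2 z h))
    hL.isClosed
  have hc : HasCompactSupport χ := hL.of_isClosed_subset (isClosed_tsupport _) hs
  have h3 : ∀ {W : Type} [NormedAddCommGroup W] [NormedSpace ℂ W] (f : Cn n → W), ∀ z ∈ K',
      (fun z => χ z • f z) =ᶠ[𝓝 z] f := fun f z hz => by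
    filter_upwards [a1.filter_mono (nhds_le_nhdsSet hz)] with w hw
    simp [hw]
  have h4 : ∀ i, ∀ z ∈ K', th (fun z => χ z • F i z) z = th (F i) z := fun i z hz =>
    funext fun b => wd_congr (h3 _ z hz) _
  have h5 : ∀ z ∈ K', χ z • Q z = Q z := fun z hz => by
    rw [(a1.filter_mono (nhds_le_nhdsSet hz)).self_of_nhds, one_smul]
  have h6 := mol_cs cj (Q := fun z => χ z • Q z) (F := fun i z => χ z • F i z)
    (fun a b => cs_cut hU hχ hc (hs.trans h2) (hQ a b))
    (fun z hz => by rw [h5 z hz]; exact hH z (hKU hz))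
    (fun z hz p => (Finset.sum_congr rfl fun r _ =>
      wd_congr (h3 (fun w => Q w r p) z hz) _).trans (hd z (hKU hz) p)) hK hK' hKK
    (fun i => cs_cut hU hχ hc (hs.trans h2) (h.sm i))
    ⟨fun i => (cs_cut hU hχ hc (hs.trans h2) (h.sm i)).sm.contDiffOn, fun i z _ => by
      by_cases hz : z ∈ L
      · rw [map_smul, h.real i z (h2 hz)]
      · simp [a2 z hz], fun e he => by
      obtain ⟨N, hN⟩ := h.cau e he
      refine ⟨N, fun i hi j hj => (setIntegral_congr_fun hK'.measurableSet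
        fun z hz => ?_).trans_le (hN i hi j hj)⟩
      simp only [h4 _ z hz], fun δ hδ => by
      filter_upwards [h.el δ hδ] with i hi u hu hu' hJ
      refine le_of_eq_of_le (congrArg _ (integral_congr_ae (Eventually.of_forall fun z => ?_)))
        (hi u hu hu' hJ)
      by_cases hz : z ∈ K'
      · simp only [h4 _ z hz, h5 z hz]
      · simp [ip, dt, th, wd_zero fun h => hz (hu' h)]⟩ hη
  filter_upwards [h6] with i ⟨F', b1, b2, b3, b4⟩
  have hKK' := hKK.trans interior_subset
  refine ⟨F', b1, b2, (setIntegral_congr_fun hK.measurableSet fun z hz => ?_).trans_le b3,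
    (setIntegral_congr_fun hK.measurableSet fun z hz => ?_).trans_le b4⟩
  · simp only [h4 _ z (hKK' hz)]
  · simp only [h5 z (hKK' hz)]

end

end Crest.Agent.X261.Fam
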