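import Crest.Agent.X261.Fam.FsC
import Crest.Agent.X261.Fam.Mol

/-!
# Row 261, package FAM, part FsD (helper94): transfer to approximate minimisers

* `ip_close`, `sl_close` : `L²` continuity of the quadratic and linear functionals;
* `key` : smooth approximation with small tension;
* `fs : FsStmt`.
-/

set_option autoImplicit false
set_option linter.unusedSectionVars false

open Set Filter Topology MeasureTheory Matrix
open scoped ComplexConjugate ComplexOrder InnerProductSpace ContDiff NNReal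

namespace Crest.Agent.X261.Fam.Fs

open Crest.Agent.R275.Geo Crest.Agent.R275.EDR890 Crest.Agent.R273.Hess_333
open Crest.Agent.R273.Fock_243

noncomputable section

variable {n q : ℕ} {H : Type*} [NormedAddCommGroup H] [InnerProductSpace ℂ H]
variable {U K : Set (Cn n)} {G : Cn n → Mt n} {a : Cn n → Cn q} {ε : ℝ} {φ : Cn n → ℝ}

/-- smooth columns on `U` -/
def SC (U : Set (Cn n)) (θ : Cn n → Fin n → H) : Prop :=
  ∀ z ∈ U, ∀ b, ContDiffAt ℝ ∞ (fun w => θ w b) z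

theorem sc_th (hU : IsOpen U) {F : Cn n → H} (hF : ContDiffOn ℝ ∞ F U) : SC U (th F) :=
  fun _ hz _ => contDiffAt_wd (hF.contDiffAt (hU.mem_nhds hz)) _

theorem SC.sub {θ θ' : Cn n → Fin n → H} (h : SC U θ) (h' : SC U θ') :
    SC U fun z => θ z - θ' z := fun z hz b => (h z hz b).sub (h' z hz b)

theorem SC.int (hK : IsCompact K) (hKU : K ⊆ U) {θ : Cn n → Fin n → H} (h : SC U θ) :
    IntegrableOn (fun z => sq (θ z)) K :=
  ContinuousOn.integrableOn_compact hK fun z hz => (ContDiffAt.sum (s := Finset.univ)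
    (f := fun b w => ‖θ w b‖ ^ 2) fun b _ =>
      (h z (hKU hz) b).norm_sq ℂ).continuousAt.continuousWithinAt

theorem norm_ip_le2 {X : Mt n} {m : ℝ} (hm : ∀ r p, ‖X r p‖ ≤ m) (B A : Fin n → H) {s : ℝ}
    (hs : 0 < s) : ‖ip X B A‖ ≤ m * n * (s / 2 * sq B + 1 / (2 * s) * sq A) := by
  rw [ip_eq]
  have h1 : ‖∑ r, ∑ p, X r p * ⟪B r, A p⟫_ℂ‖ ≤
      ∑ r, ∑ p, m * (s / 2 * ‖B r‖ ^ 2 + 1 / (2 * s) * ‖A p‖ ^ 2) := by
    refine (norm_sum_le _ _).trans (Finset.sum_le_sum fun r _ => ?_)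
    refine (norm_sum_le _ _).trans (Finset.sum_le_sum fun p _ => ?_)
    rw [norm_mul]
    exact mul_le_mul (hm r p) ((norm_inner_le_norm _ _).trans (amgm _ _ s hs)) (norm_nonneg _)
      ((norm_nonneg _).trans (hm r p))
  refine h1.trans (le_of_eq ?_)
  simp only [← Finset.mul_sum, Finset.sum_add_distrib, Finset.sum_const, Finset.card_univ,
    nsmul_eq_mul, sq, Fintype.card_fin]
  ring

theorem intg_ip (hK : IsCompact K) (hKU : K ⊆ U) {X : Cn n → Mt n} (hX : ∀ z ∈ U, SM X z)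
    (h0 : ∀ z ∉ K, X z = 0) {θ : Cn n → Fin n → H} (hθ : SC U θ) :
    Integrable fun z => ip (X z) (θ z) (θ z) :=
  intg hK hKU (fun z hz => cd_ip (hX z hz) (hθ z hz) (hθ z hz)) fun z hz => by
    simp [h0 z hz, ip_eq]

/-- `L²` continuity of a quadratic functional -/
theorem ip_close (hK : IsCompact K) (hKU : K ⊆ U) {X : Cn n → Mt n} (hX : ∀ z ∈ U, SM X z)
    (h0 : ∀ z ∉ K, X z = 0) {B : ℝ} (hB : 0 ≤ B) {η : ℝ} (hη : 0 < η) : ∃ δ : ℝ, 0 < δ ∧
      ∀ θ θ' : Cn n → Fin n → H, SC U θ → SC U θ' → ∫ z in K, sq (θ z) ≤ B →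
        ∫ z in K, sq (θ' z - θ z) ≤ δ →
        ‖(∫ z, ip (X z) (θ' z) (θ' z)) - ∫ z, ip (X z) (θ z) (θ z)‖ ≤ η := by
  obtain ⟨m, hm0, hm⟩ := bdd hK (f := fun z => ∑ r : Fin n × Fin n, ‖X z r.1 r.2‖) fun z hz =>
    tendsto_finsetSum _ fun r _ => (hX z (hKU hz) r.1 r.2).continuousAt.norm
  have hm' : ∀ z ∈ K, ∀ r p, ‖X z r p‖ ≤ m := fun z hz r p =>
    (Finset.single_le_sum (f := fun r : Fin n × Fin n => ‖X z r.1 r.2‖)
      (fun _ _ => norm_nonneg _) (Finset.mem_univ (r, p))).trans (hm z hz)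
  set M : ℝ := m * n with hM
  have hM0 : 0 ≤ M := by positivity
  set s : ℝ := η / (2 * (M * B + 1)) with hs
  have hs0 : 0 < s := by positivity
  refine ⟨η / (2 * (M * (1 / s + 1) + 1)), by positivity, fun θ θ' hθ hθ' h1 h2 => ?_⟩
  have i1 := (hθ.int hK hKU).const_mul (M * s)
  have i2 := ((hθ'.sub hθ).int hK hKU).const_mul (M * (1 / s + 1))
  rw [← integral_sub (intg_ip hK hKU hX h0 hθ') (intg_ip hK hKU hX h0 hθ),
    ← setIntegral_eq_integral_of_forall_compl_eq_zero (s := K) fun z hz => by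
      simp [h0 z hz, ip_eq]]
  refine (norm_integral_le_of_norm_le (i1.fun_add i2) ?_).trans ?_
  · filter_upwards [ae_restrict_mem hK.measurableSet] with z hz
    set δ := θ' z - θ z with hδ
    have e : ip (X z) (θ' z) (θ' z) - ip (X z) (θ z) (θ z) =
        ip (X z) (θ z) δ + ip (X z) δ (θ z) + ip (X z) δ δ := by
      simp only [hδ, ip_sub_left, ip_sub_right]; ring
    have h3 := norm_ip_le2 (hm' z hz) (θ z) δ hs0
    have h4 := norm_ip_le2 (hm' z hz) δ (θ z) (one_div_pos.2 hs0)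
    have h5 := norm_ip_le2 (hm' z hz) δ δ one_pos
    have e1 : 1 / (2 * (1 / s)) = s / 2 := by field_simp
    have e2 : 1 / (2 * s) = 1 / s / 2 := by field_simp
    rw [e1] at h4
    rw [e2] at h3
    rw [e]
    refine norm_add₃_le.trans ?_
    rw [← hM] at h3 h4 h5
    linarith
  · rw [integral_add i1 i2, integral_const_mul, integral_const_mul]
    have h3 : M * s * ∫ z in K, sq (θ z) ≤ η / 2 := by
      refine (mul_le_mul_of_nonneg_left h1 (by positivity)).trans ?_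
      rw [hs, mul_div_assoc', div_mul_eq_mul_div, div_le_div_iff₀ (by positivity) two_pos]
      nlinarith
    have h4 : M * (1 / s + 1) * ∫ z in K, sq (θ' z - θ z) ≤ η / 2 := by
      refine (mul_le_mul_of_nonneg_left h2 (by positivity)).trans ?_
      rw [mul_div_assoc', div_le_div_iff₀ (by positivity) two_pos]
      nlinarith
    linarith

theorem cs_int {W : Type*} [NormedAddCommGroup W] [NormedSpace ℝ W] (hK : IsCompact K)
    {f : Cn n → W} {g : Cn n → ℝ} (hg : IntegrableOn g K) (h0 : ∀ z ∉ K, f z = 0)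
    (h : ∀ z ∈ K, ‖f z‖ ^ 2 ≤ g z) : ‖∫ z, f z‖ ^ 2 ≤ (volume.real K + 1) * ∫ z in K, g z := by
  refine sq_le_of_forall (norm_nonneg _) measureReal_nonneg
    (setIntegral_nonneg hK.measurableSet fun z hz => (sq_nonneg _).trans (h z hz)) fun t ht => ?_
  have i1 : IntegrableOn (fun _ : Cn n => t / 2) K := integrableOn_const hK.measure_lt_top.ne
  have e : t / 2 * volume.real K = ∫ _ in K, t / 2 := by
    rw [setIntegral_const, smul_eq_mul, mul_comm]
  rw [e, ← integral_const_mul, ← integral_add i1 (hg.const_mul _),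
    ← setIntegral_eq_integral_of_forall_compl_eq_zero h0]
  refine norm_integral_le_of_norm_le (i1.fun_add (hg.const_mul _)) ?_
  filter_upwards [ae_restrict_mem hK.measurableSet] with z hz
  have h7 := amgm 1 ‖f z‖ t ht
  have h8 := mul_le_mul_of_nonneg_left (h z hz) (show 0 ≤ 1 / (2 * t) by positivity)
  linarith

/-- `L²` continuity of the linear functionals -/
theorem sl_close (hK : IsCompact K) (hKU : K ⊆ U) (hU : IsOpen U) (ha : DifferentiableOn ℂ a U)
    {χ : Cn n → ℝ} (hχ : ContDiff ℝ ∞ χ) (hs : tsupport χ ⊆ K) : ∃ M : ℝ, 0 ≤ M ∧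
      ∀ F F' : Cn n → H, SC U (th F) → SC U (th F') → ∀ (b : Fin n) (I : FI n),
        ‖(∫ z, wd (true, b) (cu χ) z • Sl a F' z I) - ∫ z, wd (true, b) (cu χ) z • Sl a F z I‖ ^ 2
          ≤ M * ∫ z in K, sq (th F' z - th F z) := by
  have hψ : ∀ z b, ContDiffAt ℝ ∞ (wd (true, b) (cu χ)) z := fun z b =>
    contDiffAt_wd (contDiffAt_cu hχ.contDiffAt) _
  have h0 : ∀ b, ∀ z ∉ K, wd (true, b) (cu χ) z = 0 := fun b z hz =>
    wd_zero_of (ev_zero hK (fun w hw => by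
      simp [cu, image_eq_zero_of_notMem_tsupport fun h => hw (hs h)]) hz) _
  have hb : ∀ r : Fin n × FI n, ∃ m, 0 ≤ m ∧ ∀ z ∈ K, ‖wd (true, r.1) (cu χ) z‖ ^ 2 *
      ((vI (Cf a z) * (vI (Cf a z))ᴴ) r.2 r.2).re ≤ m := fun r =>
    bdd hK fun z hz => ((hψ z r.1).continuousAt.norm.pow 2).mul
      (cd_re ((vI_sm hU ha (hKU hz)).mul (vI_sm hU ha (hKU hz)).ct _ _)).continuousAt
  choose m hm0 hm using hb
  have hM : 0 ≤ ∑ r, m r := Finset.sum_nonneg fun r _ => hm0 r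
  refine ⟨(volume.real K + 1) * ∑ r, m r, by positivity, fun F F' hF hF' b I => ?_⟩
  have i : ∀ F : Cn n → H, SC U (th F) →
      Integrable fun z => wd (true, b) (cu χ) z • Sl a F z I := fun F hF =>
    intg hK hKU (fun z hz => (hψ z b).smul (ContDiffAt.sum (s := Finset.univ)
      (f := fun c w => vI (Cf a w) I c • th F w c) fun c _ =>
        (vI_sm hU ha hz I c).smul (hF z hz c))) fun z hz => by rw [h0 b z hz, zero_smul]
  rw [← integral_sub (i F' hF') (i F hF), mul_assoc, ← integral_const_mul]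
  refine cs_int hK (((hF'.sub hF).int hK hKU).const_mul _) (fun z hz => by simp [h0 b z hz])
    fun z hz => ?_
  have e : wd (true, b) (cu χ) z • Sl a F' z I - wd (true, b) (cu χ) z • Sl a F z I =
      wd (true, b) (cu χ) z • ac (vI (Cf a z)) (th F' z - th F z) I := by
    rw [ac_sub, ← smul_sub]; rfl
  rw [e, norm_smul, mul_pow]
  refine (mul_le_mul_of_nonneg_left (norm_ac_sq_le _ _ I) (sq_nonneg _)).trans ?_
  rw [← mul_assoc]
  exact mul_le_mul_of_nonneg_right ((hm (b, I) z hz).trans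
    (Finset.single_le_sum (fun r _ => hm0 r) (Finset.mem_univ (b, I)))) (sq_nonneg' _)

theorem sq_le_two (θ θ' : Fin n → H) : sq θ ≤ 2 * sq (θ - θ') + 2 * sq θ' := by
  simp only [sq, Finset.mul_sum, ← Finset.sum_add_distrib]
  refine Finset.sum_le_sum fun r _ => ?_
  have h1 : ‖θ r‖ ≤ ‖(θ - θ') r‖ + ‖θ' r‖ := by
    simpa using norm_add_le (θ r - θ' r) (θ' r)
  nlinarith [norm_nonneg (θ r), sq_nonneg (‖(θ - θ') r‖ - ‖θ' r‖)]

theorem bd_sq {cj : Cj H} {Q : Cn n → Mt n} {K' : Set (Cn n)} {F : ℕ → Cn n → H}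
    (hF : Sq cj U Q K' F) (hU : IsOpen U) (hK' : IsCompact K') (hKU : K' ⊆ U) (hKK : K ⊆ K') :
    ∃ B : ℝ, 0 ≤ B ∧ ∀ᶠ i in atTop, ∫ z in K, sq (th (F i) z) ≤ B := by
  obtain ⟨N, hN⟩ := hF.cau 1 one_pos
  have hs : ∀ i, SC U (th (F i)) := fun i => sc_th hU (hF.sm i)
  refine ⟨2 * 1 + 2 * ∫ z in K', sq (th (F N) z), add_nonneg (by norm_num) (mul_nonneg two_pos.le
    (integral_nonneg fun z => sq_nonneg' _)), ?_⟩
  filter_upwards [eventually_ge_atTop N] with i hi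
  have i1 := (((hs i).sub (hs N)).int hK' hKU).const_mul 2
  have i2 := ((hs N).int hK' hKU).const_mul 2
  refine (setIntegral_mono_set ((hs i).int hK' hKU) (Eventually.of_forall fun z => sq_nonneg' _)
    hKK.eventuallyLE).trans ((integral_mono ((hs i).int hK' hKU) (i1.fun_add i2)
      fun z => sq_le_two _ _).trans ?_)
  rw [integral_add i1 i2, integral_const_mul, integral_const_mul]
  linarith [hN i hi N le_rfl]

theorem small {η c : ℝ} (hη : 0 < η) (hc : 0 ≤ c) : ∃ δ : ℝ, 0 < δ ∧ c * δ ≤ η :=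
  ⟨η / (c + 1), by positivity, by
    rw [mul_div_assoc', div_le_iff₀ (by positivity)]; nlinarith⟩

theorem hess_zero (hc : HasCompactSupport φ) {z : Cn n} (hz : z ∉ tsupport φ) : hess φ z = 0 := by
  have h0 : ∀ z ∉ tsupport φ, cu φ z = 0 := fun z hz => by
    simp [cu, image_eq_zero_of_notMem_tsupport hz]
  ext b c
  exact wd_zero_of (ev_zero hc (fun w hw => wd_zero_of (ev_zero hc h0 hw) _) hz) _

/-- smooth approximation of approximate minimisers -/
theorem key {H : Type} [NormedAddCommGroup H] [InnerProductSpace ℂ H] [CompleteSpace H]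
    {cj : Cj H} {K' : Set (Cn n)} {F : ℕ → Cn n → H} (hG : KF U G)
    (ha : DifferentiableOn ℂ a U) (hφ : ContDiff ℝ ∞ φ) (hK' : IsCompact K')
    (hs : tsupport φ ⊆ interior K') (hKU : K' ⊆ U) (hε : 0 < ε)
    (hF : Sq cj U (fun z => Qe (G z) (Cf a z) ε) K' F) : ∃ B : ℝ, 0 ≤ B ∧ ∀ δ : ℝ, 0 < δ →
      ∀ᶠ i in atTop, ∫ z in tsupport φ, sq (th (F i) z) ≤ B ∧ ∃ F' : Cn n → H, ContDiff ℝ ∞ F' ∧
        (∀ z, cj.J (F' z) = F' z) ∧ ∫ z in tsupport φ, sq (th F' z - th (F i) z) ≤ δ ∧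
        ∫ z, φ z * na (G z) (Cf a z) ε (Am F' z) ≤ Rs G a ε φ (F i) + δ := by
  have hs1 : tsupport φ ⊆ K' := hs.trans interior_subset
  have hc : HasCompactSupport φ := hK'.of_isClosed_subset (isClosed_tsupport _) hs1
  have hU := hs1.trans hKU
  obtain ⟨B, hB0, hB⟩ := bd_sq hF hG.opn hK' hKU hs1
  refine ⟨B, hB0, fun δ hδ => ?_⟩
  obtain ⟨m, hm0, hm⟩ := na_le (H := H) hG ha hφ hc hU hε
  have hp : 0 ≤ ε ^ q / ε := by positivity
  obtain ⟨η, hη, hη'⟩ := small (half_pos hδ) hp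
  obtain ⟨δ₁, hδ₁, h1⟩ := ip_close (H := H) hc hU
    (X := fun z => Wm (gE (G z) (Cf a z) ε) (hess φ z))
    (fun z hz => (gE_sm hG ha ε hz).Wm (kf_det (kf_gE hG ha hε) hz) fun b c =>
      contDiffAt_wd (contDiffAt_wd (contDiffAt_cu hφ.contDiffAt) _) _)
    (fun z hz => by rw [hess_zero hc hz, Wm_zero]) hB0 hη
  obtain ⟨δ₂, hδ₂, h2⟩ := small (half_pos hδ) hm0
  filter_upwards [hB, mol n H cj U _ _ K' F hG.opn
    (fun b c z hz => (Qe_sm hG ha ε hz b c).contDiffWithinAt)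
    (fun z hz => (Qe_posDef (hG.pos z hz) _ hε).1) (fun z hz p => div_Qe hG ha hε hz p) hc hK' hs
    hKU hF (min δ (min δ₁ δ₂)) (lt_min hδ (lt_min hδ₁ hδ₂))] with i hi ⟨F', hF', hJ, h3, h4⟩
  refine ⟨hi, F', hF', hJ, h3.trans (min_le_left _ _), (hm F' hF').trans ?_⟩
  have h5 := h1 _ _ (sc_th hG.opn (hF.sm i)) (sc_th hG.opn hF'.contDiffOn) hi
    (h3.trans ((min_le_right _ _).trans (min_le_left _ _)))
  have h6 := mul_le_mul_of_nonneg_left ((Complex.re_le_norm _).trans h5) hp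
  have h7 := mul_le_mul_of_nonneg_left (h4.trans ((min_le_right _ _).trans (min_le_right _ _))) hm0
  rw [Complex.sub_re, mul_sub] at h6
  unfold Rs
  linarith

theorem int_en (hφ : ContDiff ℝ ∞ φ) (hc : HasCompactSupport φ) (hU : tsupport φ ⊆ U)
    {Q : Cn n → Mt n} (hQ : ∀ z ∈ U, SM Q z) {B : ℝ} (hB : 0 ≤ B) {η : ℝ} (hη : 0 < η) :
    ∃ δ : ℝ, 0 < δ ∧ ∀ θ θ' : Cn n → Fin n → H, SC U θ → SC U θ' →
      ∫ z in tsupport φ, sq (θ z) ≤ B → ∫ z in tsupport φ, sq (θ' z - θ z) ≤ δ →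
        |(∫ z, φ z * en (Q z) (θ' z)) - ∫ z, φ z * en (Q z) (θ z)| ≤ η := by
  have hX : ∀ z ∈ U, SM (fun w => (φ w : ℂ) • Q w) z := fun z hz b c =>
    (contDiffAt_cu hφ.contDiffAt).mul (hQ z hz b c)
  have h0 : ∀ z ∉ tsupport φ, (φ z : ℂ) • Q z = 0 := fun z hz => by
    simp [image_eq_zero_of_notMem_tsupport hz]
  obtain ⟨δ, hδ, h⟩ := ip_close (H := H) hc hU hX h0 hB hη
  refine ⟨δ, hδ, fun θ θ' hθ hθ' h1 h2 => ?_⟩
  have e : ∀ θ : Cn n → Fin n → H, SC U θ → ∫ z, φ z * en (Q z) (θ z) =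
      (∫ z, ip ((φ z : ℂ) • Q z) (θ z) (θ z)).re := fun θ hθ => by
    have h3 := integral_re (intg_ip hc hU hX h0 hθ)
    simp only [RCLike.re_to_complex] at h3
    rw [← h3]
    exact integral_congr_ae (Eventually.of_forall fun z => (en_smul _ _ _).symm)
  rw [e θ hθ, e θ' hθ', ← Complex.sub_re]
  exact (Complex.abs_re_le_norm _).trans (h θ θ' hθ hθ' h1 h2)

/-- **FS** -/
theorem fs : FsStmt := by
  intro n q H _ _ _ cj U G a φ K' hG ha hφ h0 hK' hs hKU
  have hs1 : tsupport φ ⊆ K' := hs.trans interior_subset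
  have hc : HasCompactSupport φ := hK'.of_isClosed_subset (isClosed_tsupport _) hs1
  have hU := hs1.trans hKU
  refine ⟨fun ε F hε _ hF η hη => ?_, fun χ hχ hsχ => ?_⟩
  · obtain ⟨B, hB0, hB⟩ := key hG ha hφ hK' hs hKU hε hF
    refine ⟨?_, fun c t κ hc1 ht hκ => ?_⟩
    · filter_upwards [hB η hη] with i ⟨_, F', _, _, _, h⟩
      have : 0 ≤ ∫ z, φ z * na (G z) (Cf a z) ε (Am F' z) :=
        integral_nonneg (na_int_nonneg hG h0 hU hε F')
      linarith
    · have hp : 0 ≤ ε ^ q / ε := by positivity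
      obtain ⟨η', hη', h1⟩ := small (c := ε ^ q / ε + t / 2 + (1 / (4 * t) + κ) +
        2 * (((n : ℝ) + 2) / (2 * κ))) hη (by positivity)
      obtain ⟨δ₁, hδ₁, k1⟩ := ip_close (H := H) hc hU
        (X := fun z => Wm (gE (G z) (Cf a z) ε) (d1 (Cf a z *ᵥ c) φ z))
        (fun z hz => (gE_sm hG ha ε hz).Wm (kf_det (kf_gE hG ha hε) hz) fun d b =>
          (ContDiffAt.sum (s := Finset.univ) (f := fun h w => Cf a w d h * c h) fun h _ =>
            (Cf_sm hG.opn ha hz d h).mul contDiffAt_const).mul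
            (contDiffAt_wd (contDiffAt_cu hφ.contDiffAt) _))
        (fun z hz => by
          have e : d1 (Cf a z *ᵥ c) φ z = 0 := by
            ext d b
            rw [d1, Matrix.of_apply, wd_zero_of (ev_zero hc (fun w hw => by
              simp [cu, image_eq_zero_of_notMem_tsupport hw]) hz), mul_zero, Matrix.zero_apply]
          rw [e, Wm_zero]) hB0 hη'
      obtain ⟨δ₂, hδ₂, k2⟩ := int_en (H := H) hφ hc hU (fun z hz => Qe_sm hG ha ε hz) hB0 hη'
      obtain ⟨δ₃, hδ₃, k3⟩ := int_en (H := H) hφ hc hU (fun z hz => Q0_sm hG ha hz) hB0 hη'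
      filter_upwards [hB (min (min η' δ₁) (min δ₂ δ₃)) (lt_min (lt_min hη' hδ₁) (lt_min hδ₂ hδ₃))]
        with i ⟨hi, F', hF', hJ, h3, h4⟩
      have s1 := sc_th hG.opn (hF.sm i)
      have s2 := sc_th hG.opn hF'.contDiffOn
      have l1 := k1 _ _ s1 s2 hi (h3.trans ((min_le_left _ _).trans (min_le_right _ _)))
      have l2 := abs_le.1 (k2 _ _ s1 s2 hi (h3.trans ((min_le_right _ _).trans (min_le_left _ _))))
      have l3 := abs_le.1 (k3 _ _ s1 s2 hi (h3.trans ((min_le_right _ _).trans (min_le_right _ _))))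
      have l4 := h4.trans (add_le_add_right ((min_le_left _ _).trans (min_le_left _ _)) _)
      have l5 := st1 cj hG ha hφ h0 hc hU hε hF' hJ hc1 ht hκ
      have e : ∀ θ : Cn n → Fin n → H, SC U θ →
          ∫ z, φ z * (ee (G z) (Cf a z) ε (θ z) - e0 (G z) (Cf a z) (θ z)) =
          (∫ z, φ z * ee (G z) (Cf a z) ε (θ z)) - ∫ z, φ z * e0 (G z) (Cf a z) (θ z) := by
        intro θ hθ
        simp only [mul_sub]
        exact integral_sub (intg_phi hφ hc hU fun z hz => ee_sm hG ha ε hz (hθ z hz))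
          (intg_phi hφ hc hU fun z hz => e0_sm hG ha hz (hθ z hz))
      rw [e _ s2] at l5
      rw [e _ s1]
      have l6 := mul_le_mul_of_nonneg_left ((norm_sub_norm_le _ _).trans
        ((norm_sub_rev _ _).trans_le l1)) hp
      have l7 := mul_le_mul_of_nonneg_left l2.2 (half_pos ht).le
      have l8 := mul_le_mul_of_nonneg_left l4 (show 0 ≤ 1 / (4 * t) + κ by positivity)
      have l9 := mul_le_mul_of_nonneg_left l2.2 (show 0 ≤ ((n : ℝ) + 2) / (2 * κ) by positivity)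
      have l10 := mul_le_mul_of_nonneg_left l3.1 (show 0 ≤ ((n : ℝ) + 2) / (2 * κ) by positivity)
      unfold ee e0 at l5 ⊢
      linarith
  · obtain ⟨C, hC0, hC⟩ := db1 (H := H) hG ha hφ h0 hc hU hχ hsχ
    obtain ⟨M, hM0, hM⟩ := sl_close (H := H) hc hU hG.opn ha hχ
      fun z hz => subset_tsupport _ (hsχ hz).ne'
    refine ⟨2 * C, by positivity, fun ε F hε h1 hF η hη => ?_⟩
    obtain ⟨B, -, hB⟩ := key hG ha hφ hK' hs hKU hε hF
    obtain ⟨δ, hδ, h2⟩ := small (c := 2 * C + 2 * M) hη (by positivity)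
    filter_upwards [hB δ hδ] with i ⟨_, F', hF', _, h3, h4⟩ b I
    have l1 := (hC ε hε h1 F' hF' b I).trans (mul_le_mul_of_nonneg_left h4 hC0)
    have l2 := (hM _ _ (sc_th hG.opn (hF.sm i)) (sc_th hG.opn hF'.contDiffOn) b I).trans
      (mul_le_mul_of_nonneg_left h3 hM0)
    set x := ∫ z, wd (true, b) (cu χ) z • Sl a (F i) z I
    set y := ∫ z, wd (true, b) (cu χ) z • Sl a F' z I
    have l3 : ‖x‖ ≤ ‖y‖ + ‖y - x‖ := by simpa using norm_sub_le y (y - x)
    nlinarith [norm_nonneg x, sq_nonneg (‖y‖ - ‖y - x‖)]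

end

end Crest.Agent.X261.Fam.Fs
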