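import Crest.Agent.X261.Fam.HolA

/-!
# Row 261, package FAM, part Hol (helper24) : `hol : HolStmt`
-/

set_option autoImplicit false
set_option linter.unusedSectionVars false

open Set Filter Topology MeasureTheory Metric
open scoped ComplexConjugate InnerProductSpace ContDiff NNReal

namespace Crest.Agent.X261.Fam

open Crest.Agent.R275.Geo Crest.Agent.R275.EDR890 Crest.Agent.R273.Hess_333

noncomputable section

namespace Hol

variable {n : ℕ} {H : Type} [NormedAddCommGroup H] [InnerProductSpace ℂ H] [CompleteSpace H]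

theorem norm_sq_lp {α : Type*} [MeasurableSpace α] {μ : Measure α} (F : Lp H 2 μ) :
    ‖F‖ ^ 2 = ∫ x, ‖F x‖ ^ 2 ∂μ := by
  have h := L2.inner_def (𝕜 := ℂ) F F
  simp only [inner_self_eq_norm_sq_to_K] at h
  have h2 : ∫ x, ((‖F x‖ : ℂ)) ^ 2 ∂μ = ((∫ x, ‖F x‖ ^ 2 ∂μ : ℝ) : ℂ) := by
    rw [← integral_complex_ofReal]
    simp
  have h3 : ((‖F‖ ^ 2 : ℝ) : ℂ) = ((∫ x, ‖F x‖ ^ 2 ∂μ : ℝ) : ℂ) := by
    rw [← h2]
    simpa using h
  exact_mod_cast h3

theorem memLp_cpt {K : Set (Cn n)} (hK : IsCompact K) {g : Cn n → H} (hg : ContinuousOn g K) :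
    MemLp g 2 (volume.restrict K) :=
  (memLp_two_iff_integrable_sq_norm (hg.aestronglyMeasurable hK.measurableSet)).2
    ((hg.norm.pow 2).integrableOn_compact hK)

/-- the `L²` limit -/
theorem exists_lim {α : Type*} [MeasurableSpace α] {μ : Measure α} {g : ℕ → α → H}
    (hm : ∀ k, MemLp (g k) 2 μ)
    (hc : ∀ η : ℝ, 0 < η → ∃ N, ∀ k ≥ N, ∀ l ≥ N, ∫ z, ‖g k z - g l z‖ ^ 2 ∂μ ≤ η) :
    ∃ f : α → H, MemLp f 2 μ ∧ Tendsto (fun k => ∫ z, ‖g k z - f z‖ ^ 2 ∂μ) atTop (𝓝 0) := by
  have e : ∀ F G : Lp H 2 μ, ∀ u v : α → H, F =ᵐ[μ] u → G =ᵐ[μ] v →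
      ‖F - G‖ ^ 2 = ∫ z, ‖u z - v z‖ ^ 2 ∂μ := fun F G u v h1 h2 => by
    rw [norm_sq_lp]
    refine integral_congr_ae ?_
    filter_upwards [Lp.coeFn_sub F G, h1, h2] with z h3 h4 h5
    rw [h3, Pi.sub_apply, h4, h5]
  have hC : CauchySeq fun k => (hm k).toLp (g k) := by
    refine Metric.cauchySeq_iff.2 fun ε hε => ?_
    obtain ⟨N, hN⟩ := hc ((ε / 2) ^ 2) (by positivity)
    refine ⟨N, fun k hk l hl => ?_⟩
    have h1 := hN k hk l hl
    rw [← e _ _ _ _ (hm k).coeFn_toLp (hm l).coeFn_toLp] at h1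
    rw [dist_eq_norm]
    have h2 := (pow_le_pow_iff_left₀ (norm_nonneg _) (by positivity) two_ne_zero).1 h1
    linarith
  obtain ⟨F, hF⟩ := cauchySeq_tendsto_of_complete hC
  refine ⟨F, Lp.memLp F, ?_⟩
  have h1 := (tendsto_iff_norm_sub_tendsto_zero.1 hF).pow 2
  rw [zero_pow two_ne_zero] at h1
  exact h1.congr fun k => e _ _ _ _ (hm k).coeFn_toLp EventuallyEq.rfl

/-- `L²` convergence implies `L¹` convergence -/
theorem l1_of_l2 {α : Type*} [MeasurableSpace α] {μ : Measure α} [IsFiniteMeasure μ]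
    {d : ℕ → α → H} (hm : ∀ k, MemLp (d k) 2 μ)
    (h : Tendsto (fun k => ∫ z, ‖d k z‖ ^ 2 ∂μ) atTop (𝓝 0)) :
    Tendsto (fun k => ∫ z, ‖d k z‖ ∂μ) atTop (𝓝 0) := by
  refine Metric.tendsto_atTop.2 fun ε hε => ?_
  set m := μ.real univ + 1 with hm'
  have hm0 : 0 < m := by positivity
  set t := ε / (2 * m) with ht
  have ht0 : 0 < t := by positivity
  obtain ⟨N, hN⟩ := Metric.tendsto_atTop.1 h (t * ε / 2) (by positivity)
  refine ⟨N, fun k hk => ?_⟩
  have h1 := hN k hk
  rw [Real.dist_0_eq_abs, abs_of_nonneg (integral_nonneg fun _ => by positivity)] at h1 ⊢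
  have hi := (memLp_two_iff_integrable_sq_norm (hm k).1).1 (hm k)
  have h2 : ∫ z, ‖d k z‖ ∂μ ≤ ∫ z, (t + t⁻¹ * ‖d k z‖ ^ 2) ∂μ := by
    refine integral_mono ((hm k).integrable one_le_two).norm
      ((integrable_const t).add (hi.const_mul _)) fun z => ?_
    have h3 : ‖d k z‖ * t ≤ (t + t⁻¹ * ‖d k z‖ ^ 2) * t := by
      rw [add_mul, mul_right_comm, inv_mul_cancel₀ ht0.ne']
      nlinarith [sq_nonneg (‖d k z‖ - t), norm_nonneg (d k z)]
    exact le_of_mul_le_mul_right h3 ht0
  rw [integral_add (integrable_const t) (hi.const_mul _), integral_const, integral_const_mul,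
    smul_eq_mul] at h2
  have h4 : μ.real univ * t ≤ ε / 2 := by
    have : m * t = ε / 2 := by rw [ht]; field_simp
    nlinarith
  have h5 : t⁻¹ * ∫ z, ‖d k z‖ ^ 2 ∂μ < ε / 2 := by
    rw [inv_mul_lt_iff₀ ht0]; linarith
  linarith

theorem int_sq {K : Set (Cn n)} (hK : IsCompact K) {u v : Cn n → H} (hu : ContinuousOn u K)
    (hv : ContinuousOn v K) : IntegrableOn (fun z => ‖u z - v z‖ ^ 2) K :=
  ((hu.sub hv).norm.pow 2).integrableOn_compact hK

/-- the local statement -/
theorem loc {U : Set (Cn n)} {g : ℕ → Cn n → H} (hU : IsOpen U) (hg : ∀ k, ContinuousOn (g k) U)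
    (hc : ∀ K ⊆ U, IsCompact K → ∀ η : ℝ, 0 < η → ∃ N, ∀ k ≥ N, ∀ l ≥ N,
      ∫ z in K, ‖g k z - g l z‖ ^ 2 ≤ η) {z₀ : Cn n} (hz : z₀ ∈ U) {V : Set (Cn n)}
    (hV : V ∈ 𝓝 z₀) (hw : ∀ χ : Cn n → ℝ, ContDiff ℝ ∞ χ → HasCompactSupport χ →
      tsupport χ ⊆ V → ∀ b,
        Tendsto (fun k => ∫ z, wd (true, b) (cu χ) z • g k z) atTop (𝓝 0)) :
    ∃ W, IsOpen W ∧ z₀ ∈ W ∧ W ⊆ U ∧ ∃ S : Cn n → H, DifferentiableOn ℂ S W ∧
      ∀ K ⊆ W, IsCompact K → Tendsto (fun k => ∫ z in K, ‖g k z - S z‖ ^ 2) atTop (𝓝 0) := by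
  obtain ⟨R, hR, hRU⟩ := nhds_basis_closedBall.mem_iff.1 (inter_mem (hU.mem_nhds hz) hV)
  have hK := isCompact_closedBall z₀ R
  have hKU : closedBall z₀ R ⊆ U := hRU.trans inter_subset_left
  have hm : ∀ k, MemLp (g k) 2 (volume.restrict (closedBall z₀ R)) := fun k =>
    memLp_cpt hK ((hg k).mono hKU)
  have : IsFiniteMeasure (volume.restrict (closedBall z₀ R)) :=
    isFiniteMeasure_restrict.2 hK.measure_ne_top
  obtain ⟨f, hf, hl⟩ := exists_lim hm (hc _ hKU hK)
  have hl1 := l1_of_l2 (d := fun k z => g k z - f z) (fun k => (hm k).sub hf) hl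
  have hfi : Integrable ((closedBall z₀ R).indicator f) :=
    (integrable_indicator_iff measurableSet_closedBall).2 (hf.integrable one_le_two)
  obtain ⟨W, hW, hzW, hWb, S, hS, hae⟩ := weyl_vec (W := ball z₀ R) isOpen_ball hfi
    (fun χ h1 h2 h3 b => by
      have h4 : tsupport χ ⊆ closedBall z₀ R := h3.trans ball_subset_closedBall
      have k1 := cont_wd (contDiff_cu h1) (true, b)
      have k2 : HasCompactSupport (cu χ) := by rw [HasCompactSupport, tsupport_cu]; exact h2
      obtain ⟨C, hC⟩ := k1.bounded_above_of_compact_support (cs_wd k2 (true, b))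
      have off : ∀ u : Cn n → H, ∀ z ∉ closedBall z₀ R, wd (true, b) (cu χ) z • u z = 0 :=
        fun u z hz' => by
          rw [wd_off (by rw [tsupport_cu]; exact fun h => hz' (h4 h)), zero_smul]
      have ii : ∀ u : Cn n → H, MemLp u 2 (volume.restrict (closedBall z₀ R)) →
          Integrable (fun z => wd (true, b) (cu χ) z • u z) (volume.restrict (closedBall z₀ R)) :=
        fun u hu => (hu.integrable one_le_two).bdd_smul C k1.aestronglyMeasurable
          (Eventually.of_forall hC)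
      refine tendsto_nhds_unique ?_ (hw χ h1 h2 (h4.trans (hRU.trans inter_subset_right)) b)
      rw [← setIntegral_eq_integral_of_forall_compl_eq_zero (off _),
        setIntegral_congr_fun (g := fun z => wd (true, b) (cu χ) z • f z) measurableSet_closedBall
          fun z hz' => by simp only [indicator_of_mem hz']]
      refine Tendsto.congr (fun k => setIntegral_eq_integral_of_forall_compl_eq_zero (off (g k))) ?_
      rw [tendsto_iff_norm_sub_tendsto_zero]
      have h5 := hl1.const_mul C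
      rw [mul_zero] at h5
      refine squeeze_zero (fun _ => norm_nonneg _) (fun k => ?_) h5
      rw [← integral_sub (ii _ (hm k)) (ii _ hf), ← integral_const_mul]
      refine norm_integral_le_of_norm_le
        ((((hm k).sub hf).integrable one_le_two).norm.const_mul C) (Eventually.of_forall fun z => ?_)
      rw [← smul_sub, norm_smul]
      exact mul_le_mul_of_nonneg_right (hC z) (norm_nonneg _)) (mem_ball_self hR)
  have hWK : W ⊆ closedBall z₀ R := hWb.trans ball_subset_closedBall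
  refine ⟨W, hW, hzW, hWK.trans hKU, S, hS, fun K hKW hK' => ?_⟩
  refine squeeze_zero (fun _ => integral_nonneg fun _ => by positivity) (fun k => ?_) hl
  have e : ∫ z in K, ‖g k z - S z‖ ^ 2 = ∫ z in K, ‖g k z - f z‖ ^ 2 := by
    refine setIntegral_congr_ae hK'.measurableSet ?_
    filter_upwards [hae] with z h1 h2
    rw [← h1 (hKW h2), indicator_of_mem (hWK (hKW h2))]
  rw [e]
  exact setIntegral_mono_set
    ((memLp_two_iff_integrable_sq_norm ((hm k).sub hf).1).1 ((hm k).sub hf))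
    (Eventually.of_forall fun _ => by positivity) (hKW.trans hWK).eventuallyLE

/-- uniqueness of the limit -/
theorem uniq {W : Set (Cn n)} {g : ℕ → Cn n → H} (hW : IsOpen W)
    (hg : ∀ k, ContinuousOn (g k) W) {S T : Cn n → H} (hS : ContinuousOn S W)
    (hT : ContinuousOn T W)
    (h1 : ∀ K ⊆ W, IsCompact K → Tendsto (fun k => ∫ z in K, ‖g k z - S z‖ ^ 2) atTop (𝓝 0))
    (h2 : ∀ K ⊆ W, IsCompact K → Tendsto (fun k => ∫ z in K, ‖g k z - T z‖ ^ 2) atTop (𝓝 0)) :
    EqOn S T W := by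
  intro z hz
  obtain ⟨R, hR, hRW⟩ := nhds_basis_closedBall.mem_iff.1 (hW.mem_nhds hz)
  have hK := isCompact_closedBall z R
  have i0 := int_sq hK (hS.mono hRW) (hT.mono hRW)
  have h3 := ((h1 _ hRW hK).const_mul 2).add ((h2 _ hRW hK).const_mul 2)
  rw [mul_zero, add_zero] at h3
  have h4 : ∫ w in closedBall z R, ‖S w - T w‖ ^ 2 ≤ 0 := by
    refine ge_of_tendsto' h3 fun k => ?_
    have i1 := int_sq hK ((hg k).mono hRW) (hS.mono hRW)
    have i2 := int_sq hK ((hg k).mono hRW) (hT.mono hRW)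
    rw [← integral_const_mul, ← integral_const_mul, ← integral_add (i1.const_mul 2) (i2.const_mul 2)]
    refine integral_mono i0 ((i1.const_mul 2).add (i2.const_mul 2)) fun w => ?_
    have h5 : ‖S w - T w‖ ≤ ‖g k w - S w‖ + ‖g k w - T w‖ := by
      rw [show S w - T w = -(g k w - S w) + (g k w - T w) by abel]
      exact (norm_add_le _ _).trans (by rw [norm_neg])
    have h6 := pow_le_pow_left₀ (norm_nonneg _) h5 2
    nlinarith [sq_nonneg (‖g k w - S w‖ - ‖g k w - T w‖)]
  have h5 := (setIntegral_eq_zero_iff_of_nonneg_ae (Eventually.of_forall fun _ => by positivity)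
    i0).1 (le_antisymm h4 (integral_nonneg fun _ => by positivity))
  have hb : ball z R ⊆ W := ball_subset_closedBall.trans hRW
  refine Measure.eqOn_open_of_ae_eq (μ := volume) ?_ isOpen_ball (hS.mono hb) (hT.mono hb)
    (mem_ball_self hR)
  filter_upwards [ae_restrict_of_ae_restrict_of_subset ball_subset_closedBall h5] with w hw
  simpa [sub_eq_zero] using hw

end Hol

open Hol in
/-- **HOL** -/
theorem hol : HolStmt := by
  intro n H _ _ _ U g hU hg hc hw
  choose! V hV hw using hw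
  choose! W hW hzW hWU S hS hl using fun z (hz : z ∈ U) => loc hU hg hc hz (hV z hz) (hw z hz)
  have e : ∀ z ∈ U, ∀ y ∈ W z, S y y = S z y := fun z hz y hy => by
    have hy' := hWU z hz hy
    exact uniq ((hW y hy').inter (hW z hz))
      (fun k => (hg k).mono (inter_subset_left.trans (hWU y hy')))
      ((hS y hy').continuousOn.mono inter_subset_left)
      ((hS z hz).continuousOn.mono inter_subset_right)
      (fun K h1 h2 => hl y hy' K (h1.trans inter_subset_left) h2)
      (fun K h1 h2 => hl z hz K (h1.trans inter_subset_right) h2) ⟨hzW y hy', hy⟩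
  have hd : DifferentiableOn ℂ (fun y => S y y) U := fun z hz => by
    have h1 := (hW z hz).mem_nhds (hzW z hz)
    refine (((hS z hz) z (hzW z hz)).differentiableAt h1).congr_of_eventuallyEq
      ?_ |>.differentiableWithinAt
    filter_upwards [h1] with y hy using e z hz y hy
  refine ⟨fun y => S y y, hd, fun K hKU hK => ?_⟩
  have key : ∃ t, K ⊆ t ∧ t ⊆ U ∧ IsCompact t ∧
      Tendsto (fun k => ∫ z in t, ‖g k z - S z z‖ ^ 2) atTop (𝓝 0) := by
    refine hK.induction_on (p := fun s => ∃ t, s ⊆ t ∧ t ⊆ U ∧ IsCompact t ∧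
      Tendsto (fun k => ∫ z in t, ‖g k z - S z z‖ ^ 2) atTop (𝓝 0))
      ⟨∅, Subset.rfl, empty_subset _, isCompact_empty, by simp⟩
      (fun s s' h ⟨t, h1, h2⟩ => ⟨t, h.trans h1, h2⟩) ?_ ?_
    · rintro s s' ⟨t, h1, h2, h3, h4⟩ ⟨t', h1', h2', h3', h4'⟩
      refine ⟨t ∪ t', union_subset_union h1 h1', union_subset h2 h2', h3.union h3', ?_⟩
      have h5 := h4.add h4'
      rw [add_zero] at h5
      refine squeeze_zero (fun _ => integral_nonneg fun _ => by positivity) (fun k => ?_) h5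
      have i1 := int_sq h3 ((hg k).mono h2) (hd.continuousOn.mono h2)
      have i2 := int_sq h3' ((hg k).mono h2') (hd.continuousOn.mono h2')
      rw [← integral_add_measure i1 i2]
      exact integral_mono_measure (Measure.restrict_union_le t t')
        (Eventually.of_forall fun _ => by positivity) (Integrable.add_measure i1 i2)
    · intro z hz
      have hz' := hKU hz
      obtain ⟨R, hR, hRW⟩ := nhds_basis_closedBall.mem_iff.1 ((hW z hz').mem_nhds (hzW z hz'))
      refine ⟨closedBall z R, mem_nhdsWithin_of_mem_nhds (closedBall_mem_nhds z hR), _,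
        Subset.rfl, hRW.trans (hWU z hz'), isCompact_closedBall z R, ?_⟩
      refine (hl z hz' _ hRW (isCompact_closedBall z R)).congr fun k => ?_
      exact setIntegral_congr_fun measurableSet_closedBall fun y hy => by
        simp only [e z hz' y (hRW hy)]
  obtain ⟨t, h1, h2, h3, h4⟩ := key
  refine squeeze_zero (fun _ => integral_nonneg fun _ => by positivity) (fun k => ?_) h4
  exact setIntegral_mono_set (int_sq h3 ((hg k).mono h2) (hd.continuousOn.mono h2))
    (Eventually.of_forall fun _ => by positivity) h1.eventuallyLE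

end

end Crest.Agent.X261.Fam
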