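import Crest.Agent.X261.Fam.St
import Crest.Agent.R273.Piola_5

/-!
# Row 261, package FAM, part FsA (helper94): flat calculus for the Siu-Sampson identity

* `wd_inner`, `int_wd`, `ibp` : Leibniz rule and Stokes formula for Hilbert valued maps;
* `Cf_sm`, `Cf_db`, `kf_gE` : the metric `G + ε⁻¹ C Cᴴ` is Kaehler;
* `inv_sm`, `W4_sm`, `div_adj`, `div_W4`, `div_W4'` : the tensors are smooth and divergence free.
-/

set_option autoImplicit false
set_option linter.unusedSectionVars false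

open Set Filter Topology MeasureTheory Matrix
open scoped ComplexConjugate ComplexOrder InnerProductSpace ContDiff NNReal

namespace Crest.Agent.X261.Fam.Fs

open Crest.Agent.R275.Geo Crest.Agent.R275.EDR890 Crest.Agent.R273.Hess_333
open Crest.Agent.R273.Piola_5

noncomputable section

variable {n q : ℕ} {H : Type*} [NormedAddCommGroup H] [InnerProductSpace ℂ H]

/-! ### calculus -/

theorem dif {W : Type*} [NormedAddCommGroup W] [NormedSpace ℝ W] {f : Cn n → W} {z : Cn n}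
    (hf : ContDiffAt ℝ ∞ f z) : DifferentiableAt ℝ f z := hf.differentiableAt (by simp)

theorem wd_sub {W : Type*} [NormedAddCommGroup W] [NormedSpace ℂ W] {f g : Cn n → W} {z : Cn n}
    (hf : DifferentiableAt ℝ f z) (hg : DifferentiableAt ℝ g z) (s : WI n) :
    wd s (fun w => f w - g w) z = wd s f z - wd s g z := by
  have h1 : (fun w => f w - g w) = fun w => f w + (-1 : ℂ) • g w := by
    funext w; rw [neg_one_smul, sub_eq_add_neg]
  rw [h1, wd_add (g := fun w => (-1 : ℂ) • g w) hf (hg.const_smul _), wd_const_smul _ hg,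
    neg_one_smul, sub_eq_add_neg]

theorem wd_neg {f : Cn n → ℂ} {z : Cn n} (hf : DifferentiableAt ℝ f z) (s : WI n) :
    wd s (fun w => -f w) z = -wd s f z := by
  have := wd_const_smul (-1 : ℂ) hf s
  simpa using this

theorem wd_zero_of {W : Type*} [NormedAddCommGroup W] [NormedSpace ℂ W] {f : Cn n → W} {z : Cn n}
    (h : ∀ᶠ w in 𝓝 z, f w = 0) (s : WI n) : wd s f z = 0 := by
  rw [wd_congr (g := fun _ => 0) h, wd_const]

theorem contDiff_wd {W : Type*} [NormedAddCommGroup W] [NormedSpace ℂ W] {f : Cn n → W}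
    (hf : ContDiff ℝ ∞ f) (s : WI n) : ContDiff ℝ ∞ (wd s f) :=
  contDiff_iff_contDiffAt.2 fun _ => contDiffAt_wd hf.contDiffAt s

theorem wd_inner {u v : Cn n → H} {z : Cn n} (hu : DifferentiableAt ℝ u z)
    (hv : DifferentiableAt ℝ v z) (s : Bool) (b : Fin n) :
    wd (s, b) (fun w => ⟪u w, v w⟫_ℂ) z =
      ⟪wd (!s, b) u z, v z⟫_ℂ + ⟪u z, wd (s, b) v z⟫_ℂ := by
  unfold wd wdL
  rw [fderiv_inner_apply ℂ hu hv, fderiv_inner_apply ℂ hu hv]
  cases s <;>
  simp [inner_smul_left, inner_smul_right, map_ofNat (starRingEnd ℂ) 2] <;> ring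

theorem supp_wd {W : Type*} [NormedAddCommGroup W] [NormedSpace ℂ W] {f : Cn n → W}
    (hc : HasCompactSupport f) (s : WI n) : HasCompactSupport (wd s f) :=
  (hc.fderiv ℝ).comp_left (g := wdL s) (wdL_zero s)

theorem intg_wd {W : Type*} [NormedAddCommGroup W] [NormedSpace ℂ W] {f : Cn n → W}
    (hf : ContDiff ℝ ∞ f) (hc : HasCompactSupport f) (s : WI n) : Integrable (wd s f) :=
  (contDiff_wd hf s).continuous.integrable_of_hasCompactSupport (supp_wd hc s)

/-- Stokes -/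
theorem int_wd {W : Type*} [NormedAddCommGroup W] [NormedSpace ℂ W] {f : Cn n → W}
    (hf : ContDiff ℝ ∞ f) (hc : HasCompactSupport f) (s : WI n) : ∫ z, wd s f z = 0 := by
  have h1 : ∀ v : Cn n, Integrable (fun z => fderiv ℝ f z v) := fun v =>
    ((hf.continuous_fderiv (by simp)).clm_apply continuous_const).integrable_of_hasCompactSupport
      (hc.fderiv_apply ℝ v)
  have h2 : ∀ v : Cn n, ∫ z, fderiv ℝ f z v = 0 := fun v => by
    have h3 := integral_smul_fderiv_eq_neg_fderiv_smul_of_integrable (μ := volume)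
      (f := fun _ : Cn n => (1 : ℝ)) (g := f) (v := v) (by simp) (by simpa using h1 v)
      (by simpa using hf.continuous.integrable_of_hasCompactSupport hc)
      (fun _ _ => differentiableAt_const _) fun x _ => dif hf.contDiffAt
    simpa using h3
  unfold wd wdL
  rw [integral_smul, integral_add (h1 _) (g := fun z => cI s.1 • fderiv ℝ f z _)
    ((h1 _).smul (cI s.1)), integral_smul, h2, h2]
  simp

theorem ev_zero {W : Type*} [Zero W] {K : Set (Cn n)} (hK : IsCompact K) {f : Cn n → W}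
    (h0 : ∀ z ∉ K, f z = 0) {z : Cn n} (hz : z ∉ K) : ∀ᶠ w in 𝓝 z, f w = 0 := by
  filter_upwards [hK.isClosed.isOpen_compl.mem_nhds hz] with w hw using h0 w hw

/-- extension by zero -/
theorem sm_ext {W : Type*} [NormedAddCommGroup W] [NormedSpace ℝ W] {U K : Set (Cn n)}
    (hK : IsCompact K) (hKU : K ⊆ U) {f : Cn n → W} (hf : ∀ z ∈ U, ContDiffAt ℝ ∞ f z)
    (h0 : ∀ z ∉ K, f z = 0) : ContDiff ℝ ∞ f := by
  refine contDiff_iff_contDiffAt.2 fun z => ?_
  by_cases hz : z ∈ K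
  · exact hf z (hKU hz)
  · exact (contDiffAt_const (c := (0 : W))).congr_of_eventuallyEq (ev_zero hK h0 hz)

theorem int_eq_of {f g D : Cn n → ℂ} (hD : Integrable D) (h0 : ∫ z, D z = 0)
    (h : ∀ z, f z = g z + D z) : ∫ z, f z = ∫ z, g z := by
  by_cases hg : Integrable g
  · simp only [h]
    rw [integral_add hg hD, h0, add_zero]
  · have hf : ¬ Integrable f := fun hf => hg <| by
      have : g = fun z => f z - D z := funext fun z => by rw [h z]; ring
      rw [this]
      exact hf.sub hD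
    rw [integral_undef hg, integral_undef hf]

/-- the divergence of `b ↦ ∑ i, P i b ⟪u i, v i⟫` -/
def dvg {ι : Type} [Fintype ι] (s : Bool) (P : ι → Fin n → Cn n → ℂ) (u v : ι → Cn n → H)
    (z : Cn n) : ℂ :=
  (∑ i, (∑ b, wd (s, b) (P i b) z) * ⟪u i z, v i z⟫_ℂ) +
    (∑ i, ∑ b, P i b z * ⟪wd (!s, b) (u i) z, v i z⟫_ℂ) +
    ∑ i, ∑ b, P i b z * ⟪u i z, wd (s, b) (v i) z⟫_ℂ

/-- integration by parts -/
theorem ibp {ι : Type} [Fintype ι] (s : Bool) {P : ι → Fin n → Cn n → ℂ} {u v : ι → Cn n → H}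
    (hP : ∀ i b, ContDiff ℝ ∞ (P i b)) (hc : ∀ i b, HasCompactSupport (P i b))
    (hu : ∀ i, ContDiff ℝ ∞ (u i)) (hv : ∀ i, ContDiff ℝ ∞ (v i)) :
    Integrable (dvg s P u v) ∧ ∫ z, dvg s P u v z = 0 := by
  have hI : ∀ i, ContDiff ℝ ∞ fun w => ⟪u i w, v i w⟫_ℂ := fun i => (hu i).inner ℂ (hv i)
  have e : dvg s P u v = fun z => ∑ i, ∑ b,
      wd (s, b) (fun w => P i b w * ⟪u i w, v i w⟫_ℂ) z := by
    funext z
    simp only [dvg, Finset.sum_mul, ← Finset.sum_add_distrib]
    refine Finset.sum_congr rfl fun i _ => Finset.sum_congr rfl fun b _ => ?_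
    rw [wd_mul (dif (hP i b).contDiffAt) (dif (hI i).contDiffAt),
      wd_inner (dif (hu i).contDiffAt) (dif (hv i).contDiffAt)]
    ring
  have h1 : ∀ i b, Integrable (wd (s, b) fun w => P i b w * ⟪u i w, v i w⟫_ℂ) := fun i b =>
    intg_wd ((hP i b).mul (hI i)) (hc i b).mul_right _
  rw [e]
  refine ⟨integrable_finsetSum _ fun i _ => integrable_finsetSum _ fun b _ => h1 i b, ?_⟩
  rw [integral_finsetSum _ fun i _ => integrable_finsetSum _ fun b _ => h1 i b]
  refine Finset.sum_eq_zero fun i _ => ?_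
  rw [integral_finsetSum _ fun b _ => h1 i b]
  exact Finset.sum_eq_zero fun b _ => int_wd ((hP i b).mul (hI i)) (hc i b).mul_right _

theorem dvg_zero {ι : Type} [Fintype ι] (s : Bool) {P : ι → Fin n → Cn n → ℂ}
    (u v : ι → Cn n → H) {z : Cn n} (h : ∀ i b, ∀ᶠ w in 𝓝 z, P i b w = 0) :
    dvg s P u v z = 0 := by
  simp [dvg, fun i b => wd_zero_of (h i b) (s, b), fun i b => (h i b).self_of_nhds]

theorem anti_sum {f : Fin n → Fin n → ℂ} (h : ∀ i j, f i j = -f j i) : ∑ i, ∑ j, f i j = 0 := by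
  have h1 : ∑ i, ∑ j, f i j = -∑ i, ∑ j, f i j := by
    conv_lhs => rw [Finset.sum_comm]
    simp only [← Finset.sum_neg_distrib]
    exact Finset.sum_congr rfl fun i _ => Finset.sum_congr rfl fun j _ => h j i
  exact self_eq_neg.1 h1

/-! ### smooth matrix fields -/

/-- entrywise smoothness at a point -/
def SM {ι κ : Type} (m : Cn n → Matrix ι κ ℂ) (z : Cn n) : Prop :=
  ∀ a b, ContDiffAt ℝ ∞ (fun w => m w a b) z

theorem cd_conj {f : Cn n → ℂ} {z : Cn n} (hf : ContDiffAt ℝ ∞ f z) :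
    ContDiffAt ℝ ∞ (fun w => conj (f w)) z := Complex.conjCLE.contDiff.contDiffAt.comp z hf

theorem SM.det {m : Cn n → Mt n} {z : Cn n} (hm : SM m z) :
    ContDiffAt ℝ ∞ (fun w => (m w).det) z := by
  simp only [Matrix.det_apply']
  exact ContDiffAt.sum fun σ _ => contDiffAt_const.mul (contDiffAt_prod fun i _ => hm _ _)

theorem SM.adj {m : Cn n → Mt n} {z : Cn n} (hm : SM m z) : SM (fun w => (m w).adjugate) z := by
  intro a b
  simp only [Matrix.adjugate_apply]
  refine SM.det (m := fun w => (m w).updateRow b (Pi.single a 1)) fun i j => ?_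
  by_cases hi : i = b
  · subst hi
    simp only [Matrix.updateRow_self]
    exact contDiffAt_const
  · simp only [Matrix.updateRow_ne hi]
    exact hm i j

theorem SM.inv {m : Cn n → Mt n} {z : Cn n} (hm : SM m z) (h0 : (m z).det ≠ 0) :
    SM (fun w => (m w)⁻¹) z := by
  intro a b
  simp only [Matrix.inv_def, Ring.inverse_eq_inv', Matrix.smul_apply, smul_eq_mul]
  exact (hm.det.inv h0).mul (hm.adj a b)

theorem SM.mul {ι κ σ : Type} [Fintype κ] {m : Cn n → Matrix ι κ ℂ} {m' : Cn n → Matrix κ σ ℂ}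
    {z : Cn n} (hm : SM m z) (hm' : SM m' z) : SM (fun w => m w * m' w) z := by
  intro a b
  simp only [Matrix.mul_apply]
  exact ContDiffAt.sum fun c _ => (hm a c).mul (hm' c b)

theorem SM.ct {ι κ : Type} {m : Cn n → Matrix ι κ ℂ} {z : Cn n} (hm : SM m z) :
    SM (fun w => (m w)ᴴ) z := fun a b => cd_conj (hm b a)

theorem SM.W4 {m : Cn n → Mt n} {z : Cn n} (hm : SM m z) (h0 : (m z).det ≠ 0) :
    SM (fun w => W4 (m w)) z := fun _ _ =>
  hm.det.mul (((hm.inv h0 _ _).mul (hm.inv h0 _ _)).sub ((hm.inv h0 _ _).mul (hm.inv h0 _ _)))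

theorem SM.Wm {m X : Cn n → Mt n} {z : Cn n} (hm : SM m z) (h0 : (m z).det ≠ 0) (hX : SM X z) :
    SM (fun w => Wm (m w) (X w)) z := by
  intro d c
  simp only [Wm_apply]
  exact ContDiffAt.sum fun p _ => (hm.W4 h0 _ _).mul (hX _ _)

section kf

variable {U : Set (Cn n)} {g : Cn n → Mt n}

theorem kf_sm (hg : KF U g) {z : Cn n} (hz : z ∈ U) : SM g z := fun a b =>
  (hg.sm a b).contDiffAt (hg.opn.mem_nhds hz)

theorem kf_det (hg : KF U g) {z : Cn n} (hz : z ∈ U) : (g z).det ≠ 0 := (hg.pos z hz).det_pos.ne'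

theorem kf_W4 (hg : KF U g) {z : Cn n} (hz : z ∈ U) : SM (fun w => W4 (g w)) z :=
  (kf_sm hg hz).W4 (kf_det hg hz)

/-- `∂̄ f = conj (∂ conj f)` -/
theorem wd_flip {f f' : Cn n → ℂ} {z : Cn n} (hf : DifferentiableAt ℝ f' z)
    (h : ∀ᶠ w in 𝓝 z, f w = conj (f' w)) (b : Fin n) :
    wd (true, b) f z = conj (wd (false, b) f' z) := by
  rw [conj_wd _ hf]
  exact wd_congr h _

theorem kf_of (hU : IsOpen U) (hs : ∀ z ∈ U, SM g z) (hp : ∀ z ∈ U, (g z).PosDef)
    (hc : ∀ z ∈ U, ∀ a b c,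
      wd (false, c) (fun w => g w a b) z = wd (false, a) (fun w => g w c b) z) : KF U g := by
  refine ⟨hU, fun a b z hz => (hs z hz a b).contDiffWithinAt, hp, hc, fun z hz a b c => ?_⟩
  have h : ∀ a b, ∀ᶠ w in 𝓝 z, g w a b = conj (g w b a) := fun a b => by
    filter_upwards [hU.mem_nhds hz] with w hw using ((hp w hw).1.apply a b).symm
  rw [wd_flip (dif (hs z hz b a)) (h a b), wd_flip (dif (hs z hz c a)) (h a c), hc z hz b a c]

theorem div_adj (hg : KF U g) {z : Cn n} (hz : z ∈ U) (b : Fin n) :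
    ∑ a, wd (false, a) (fun w => (g w).adjugate b a) z = 0 :=
  piola (fun i j => dif (kf_sm hg hz i j)) (hg.closed z hz) b

theorem div_adj' (hg : KF U g) {z : Cn n} (hz : z ∈ U) (p : Fin n) :
    ∑ r, wd (true, r) (fun w => (g w).adjugate r p) z = 0 := by
  have h : ∀ r, wd (true, r) (fun w => (g w).adjugate r p) z =
      conj (wd (false, r) (fun w => (g w).adjugate p r) z) := fun r => by
    refine wd_flip (dif ((kf_sm hg hz).adj p r)) ?_ r
    filter_upwards [hg.opn.mem_nhds hz] with w hw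
    exact ((hg.pos w hw).1.adjugate.apply r p).symm
  simp only [h, ← map_sum, div_adj hg hz p, map_zero]

/-- derivative of the inverse -/
theorem wd_inv (hg : KF U g) {z : Cn n} (hz : z ∈ U) (s : WI n) (d c : Fin n) :
    wd s (fun w => (g w)⁻¹ d c) z =
      -∑ e, (g z)⁻¹ d e * ∑ f, wd s (fun w => g w e f) z * (g z)⁻¹ f c := by
  set H' : Mt n := Matrix.of fun a b => wd s (fun w => (g w)⁻¹ a b) z with hH
  set G' : Mt n := Matrix.of fun a b => wd s (fun w => g w a b) z with hG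
  have hi : ∀ a b, ContDiffAt ℝ ∞ (fun w => (g w)⁻¹ a b) z := (kf_sm hg hz).inv (kf_det hg hz)
  have h1 : H' * g z + (g z)⁻¹ * G' = 0 := by
    ext a b
    have e : (fun w => ∑ e, (g w)⁻¹ a e * g w e b) =ᶠ[𝓝 z] fun _ => (1 : Mt n) a b := by
      filter_upwards [hg.opn.mem_nhds hz] with w hw
      rw [← Matrix.mul_apply, Matrix.nonsing_inv_mul _ (kf_det hg hw).isUnit]
    have h2 := wd_congr e s
    rw [wd_const, wd_sum _ fun e _ => dif ((hi a e).mul (kf_sm hg hz e b))] at h2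
    rw [Matrix.zero_apply, ← h2, Matrix.add_apply, Matrix.mul_apply, Matrix.mul_apply,
      ← Finset.sum_add_distrib]
    refine Finset.sum_congr rfl fun e _ => ?_
    rw [wd_mul (dif (hi a e)) (dif (kf_sm hg hz e b))]
    rfl
  have h3 : H' = -((g z)⁻¹ * (G' * (g z)⁻¹)) := by
    have h4 := congrArg (· * (g z)⁻¹) h1
    simp only [Matrix.add_mul, Matrix.mul_assoc, Matrix.mul_nonsing_inv _ (kf_det hg hz).isUnit,
      Matrix.mul_one, Matrix.zero_mul] at h4
    exact eq_neg_of_add_eq_zero_left h4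
  have h5 := congrFun (congrFun h3 d) c
  simpa only [hH, hG, Matrix.of_apply, Matrix.neg_apply, Matrix.mul_apply] using h5

theorem W4_anti (g : Mt n) (d c a b : Fin n) : W4 g (d, c) (a, b) = -W4 g (d, a) (c, b) := by
  simp only [W4, Matrix.of_apply]; ring

theorem W4_anti' (g : Mt n) (d c a b : Fin n) : W4 g (d, c) (a, b) = -W4 g (b, c) (a, d) := by
  simp only [W4, Matrix.of_apply]; ring

theorem W4_conj {g : Mt n} (hg : g.PosDef) (r p : Fin n × Fin n) : W4 g r p = conj (W4 g p r) := by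
  have h1 : ∀ a b, conj (g⁻¹ a b) = g⁻¹ b a := fun a b => hg.1.inv.apply b a
  have h2 : conj g.det = g.det := by rw [det_ofReal hg, Complex.conj_ofReal]
  simp only [W4, Matrix.of_apply, map_mul, map_sub, h1, h2]
  ring

theorem div_W4 (hg : KF U g) {z : Cn n} (hz : z ∈ U) (d c b : Fin n) :
    ∑ a, wd (false, a) (fun w => W4 (g w) (d, c) (a, b)) z = 0 := by
  have hi : ∀ a b, ContDiffAt ℝ ∞ (fun w => (g w)⁻¹ a b) z := (kf_sm hg hz).inv (kf_det hg hz)
  have ha : ∀ a b, ContDiffAt ℝ ∞ (fun w => (g w).adjugate a b) z := (kf_sm hg hz).adj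
  have h1 : ∀ a, wd (false, a) (fun w => W4 (g w) (d, c) (a, b)) z =
      (wd (false, a) (fun w => (g w).adjugate b a) z * (g z)⁻¹ d c -
        wd (false, a) (fun w => (g w).adjugate d a) z * (g z)⁻¹ b c) +
      (g z).det * ((g z)⁻¹ b a * wd (false, a) (fun w => (g w)⁻¹ d c) z -
        (g z)⁻¹ d a * wd (false, a) (fun w => (g w)⁻¹ b c) z) := by
    intro a
    have e : (fun w => W4 (g w) (d, c) (a, b)) =ᶠ[𝓝 z] fun w =>
        (g w).adjugate b a * (g w)⁻¹ d c - (g w).adjugate d a * (g w)⁻¹ b c := by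
      filter_upwards [hg.opn.mem_nhds hz] with w hw
      simp only [W4, Matrix.of_apply, adj_eq (hg.pos w hw), Matrix.smul_apply, smul_eq_mul]
      ring
    rw [wd_congr e, wd_sub (dif ((ha b a).mul (hi d c))) (dif ((ha d a).mul (hi b c))),
      wd_mul (dif (ha b a)) (dif (hi d c)), wd_mul (dif (ha d a)) (dif (hi b c))]
    simp only [adj_eq (hg.pos z hz), Matrix.smul_apply, smul_eq_mul]
    ring
  simp only [h1, Finset.sum_add_distrib, Finset.sum_sub_distrib, ← Finset.sum_mul,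
    ← Finset.mul_sum, div_adj hg hz, zero_mul, sub_zero, zero_add]
  refine mul_eq_zero_of_right _ (sub_eq_zero.2 ?_)
  simp only [wd_inv hg hz, mul_neg, Finset.sum_neg_distrib, Finset.mul_sum]
  congr 1
  rw [Finset.sum_comm]
  refine Finset.sum_congr rfl fun a _ => Finset.sum_congr rfl fun e _ =>
    Finset.sum_congr rfl fun f _ => ?_
  rw [hg.closed z hz e f a]
  ring

theorem div_W4' (hg : KF U g) {z : Cn n} (hz : z ∈ U) (d c a : Fin n) :
    ∑ b, wd (true, b) (fun w => W4 (g w) (d, c) (a, b)) z = 0 := by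
  have h : ∀ b, wd (true, b) (fun w => W4 (g w) (d, c) (a, b)) z =
      -conj (wd (false, b) (fun w => W4 (g w) (a, d) (b, c)) z) := fun b => by
    rw [← map_neg, ← wd_neg (dif (kf_W4 hg hz _ _))]
    refine wd_flip (dif (kf_W4 hg hz _ _).neg) ?_ b
    filter_upwards [hg.opn.mem_nhds hz] with w hw
    rw [W4_conj (hg.pos w hw), W4_anti]
  simp only [h, Finset.sum_neg_distrib, ← map_sum, div_W4 hg hz, map_zero, neg_zero]

theorem div_W4'' (hg : KF U g) {z : Cn n} (hz : z ∈ U) (d a b : Fin n) :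
    ∑ c, wd (false, c) (fun w => W4 (g w) (d, c) (a, b)) z = 0 := by
  have h : ∀ c, wd (false, c) (fun w => W4 (g w) (d, c) (a, b)) z =
      -wd (false, c) (fun w => W4 (g w) (d, a) (c, b)) z := fun c => by
    rw [← wd_neg (dif (kf_W4 hg hz _ _))]
    exact wd_congr (Eventually.of_forall fun w => W4_anti _ _ _ _ _) _
  simp only [h, Finset.sum_neg_distrib, div_W4 hg hz, neg_zero]

end kf

/-! ### the metric `gE` -/

section gE

variable {U : Set (Cn n)} {G : Cn n → Mt n} {a : Cn n → Cn q}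

theorem comp_hol (ha : DifferentiableOn ℂ a U) (h : Fin q) :
    DifferentiableOn ℂ (fun w => a w h) U :=
  (EuclideanSpace.proj h : Cn q →L[ℂ] ℂ).differentiable.comp_differentiableOn ha

theorem hol_sm (hU : IsOpen U) {f : Cn n → ℂ} (hf : DifferentiableOn ℂ f U) {z : Cn n}
    (hz : z ∈ U) : ContDiffAt ℝ ∞ f z :=
  (((Crest.Agent.R266.SCV.contDiffOn_omega_of_differentiableOn hU hf).restrict_scalars
    ℝ).of_le le_top).contDiffAt (hU.mem_nhds hz)

theorem Cf_sm (hU : IsOpen U) (ha : DifferentiableOn ℂ a U) {z : Cn n} (hz : z ∈ U) :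
    SM (Cf a) z := fun _ h => contDiffAt_wd (hol_sm hU (comp_hol ha h) hz) _

theorem Cf_db (hU : IsOpen U) (ha : DifferentiableOn ℂ a U) {z : Cn n} (hz : z ∈ U)
    (b c : Fin n) (h : Fin q) : wd (true, c) (fun w => Cf a w b h) z = 0 := by
  refine (wd_comm (hol_sm hU (comp_hol ha h) hz) (true, c) (false, b)).trans (wd_zero_of ?_ _)
  filter_upwards [hU.mem_nhds hz] with w hw
  exact Crest.Agent.R273.HessB_333.wd_hol ((comp_hol ha h).differentiableAt (hU.mem_nhds hw)) c

theorem Cf_sym (hU : IsOpen U) (ha : DifferentiableOn ℂ a U) {z : Cn n} (hz : z ∈ U)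
    (b c : Fin n) (h : Fin q) :
    wd (false, c) (fun w => Cf a w b h) z = wd (false, b) (fun w => Cf a w c h) z :=
  wd_comm (hol_sm hU (comp_hol ha h) hz) (false, c) (false, b)

theorem gE_sm (hG : KF U G) (ha : DifferentiableOn ℂ a U) (ε : ℝ) {z : Cn n} (hz : z ∈ U) :
    SM (fun w => gE (G w) (Cf a w) ε) z := fun b c =>
  (kf_sm hG hz b c).add (contDiffAt_const.mul
    ((Cf_sm hG.opn ha hz).mul (Cf_sm hG.opn ha hz).ct b c))

theorem kf_gE (hG : KF U G) (ha : DifferentiableOn ℂ a U) {ε : ℝ} (hε : 0 < ε) :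
    KF U (fun w => gE (G w) (Cf a w) ε) := by
  refine kf_of hG.opn (fun z hz => gE_sm hG ha ε hz) (fun z hz => gE_posDef (hG.pos z hz) _ hε)
    fun z hz b c d => ?_
  have hC := Cf_sm hG.opn ha hz
  have h1 : ∀ b c d, wd (false, d) (fun w => gE (G w) (Cf a w) ε b c) z =
      wd (false, d) (fun w => G w b c) z + ((ε⁻¹ : ℝ) : ℂ) *
        ∑ h, wd (false, d) (fun w => Cf a w b h) z * conj (Cf a z c h) := by
    intro b c d
    have e : (fun w => gE (G w) (Cf a w) ε b c) = fun w => G w b c + ((ε⁻¹ : ℝ) : ℂ) •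
        ∑ h, Cf a w b h * conj (Cf a w c h) := rfl
    have hd : ∀ h ∈ Finset.univ, DifferentiableAt ℝ (fun w => Cf a w b h * conj (Cf a w c h)) z :=
      fun h _ => (dif (hC b h)).mul (dif (cd_conj (hC c h)))
    rw [e, wd_add (g := fun w => ((ε⁻¹ : ℝ) : ℂ) • ∑ h, Cf a w b h * conj (Cf a w c h))
      (dif (kf_sm hG hz b c)) ((DifferentiableAt.fun_sum hd).const_smul ((ε⁻¹ : ℝ) : ℂ)),
      wd_const_smul _ (DifferentiableAt.fun_sum hd), wd_sum _ hd, smul_eq_mul]
    congr 2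
    refine Finset.sum_congr rfl fun h _ => ?_
    have h2 := conj_wd (true, d) (dif (hC c h))
    rw [Cf_db hG.opn ha hz, map_zero] at h2
    rw [wd_mul (dif (hC b h)) (dif (cd_conj (hC c h)))]
    exact (congrArg (fun t => _ + _ * t) h2.symm).trans (by rw [mul_zero, add_zero])
  rw [h1, h1, hG.closed z hz b c d]
  simp only [fun h => Cf_sym hG.opn ha hz b d h]

theorem Qe_sm (hG : KF U G) (ha : DifferentiableOn ℂ a U) (ε : ℝ) {z : Cn n} (hz : z ∈ U) :
    SM (fun w => Qe (G w) (Cf a w) ε) z := fun b c =>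
  contDiffAt_const.mul ((gE_sm hG ha ε hz).adj b c)

theorem div_Qe (hG : KF U G) (ha : DifferentiableOn ℂ a U) {ε : ℝ} (hε : 0 < ε) {z : Cn n}
    (hz : z ∈ U) (p : Fin n) : ∑ r, wd (true, r) (fun w => Qe (G w) (Cf a w) ε r p) z = 0 := by
  have h : ∀ r, wd (true, r) (fun w => Qe (G w) (Cf a w) ε r p) z = ((ε ^ q : ℝ) : ℂ) •
      wd (true, r) (fun w => (gE (G w) (Cf a w) ε).adjugate r p) z := fun r =>
    wd_const_smul _ (dif ((gE_sm hG ha ε hz).adj r p)) _
  simp only [h, ← Finset.smul_sum, div_adj' (kf_gE hG ha hε) hz p, smul_zero]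

end gE

end

end Crest.Agent.X261.Fam.Fs
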