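import Crest.Agent.X261.Fam.PW
import Crest.Agent.R273.HessB_333

/-!
# Row 261, package FAM (helper12), part St: the flat statements

* `KF U G` : Kaehler metric on an open subset of `ℂ^n`; `Cf a`, `th F`, `Am F`, `Sl a F`, `d1`;
* `Sq` : approximate minimisers of the energy of `Q` on a compact set;
* `MolStmt` (Friedrichs), `FsStmt` (Siu-Sampson and Stokes for approximate minimisers),
  `HolStmt` (weakly holomorphic limits), `LioStmt` (Liouville).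
-/

set_option autoImplicit false
set_option linter.unusedSectionVars false

open Set Filter Topology MeasureTheory Matrix
open scoped ComplexConjugate ComplexOrder InnerProductSpace ContDiff NNReal

namespace Crest.Agent.X261.Fam

open Crest.Agent.R275.Geo Crest.Agent.R275.EDR890 Crest.Agent.R273.Hess_333
open Crest.Agent.R273.Fock_243

noncomputable section

variable {n q : ℕ} {H : Type*} [NormedAddCommGroup H] [InnerProductSpace ℂ H]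

/-- a Kaehler metric on an open set -/
structure KF (U : Set (Cn n)) (G : Cn n → Mt n) : Prop where
  opn : IsOpen U
  sm : ∀ a b, ContDiffOn ℝ ∞ (fun z => G z a b) U
  pos : ∀ z ∈ U, (G z).PosDef
  closed : ∀ z ∈ U, ∀ a b c,
    wd (false, c) (fun w => G w a b) z = wd (false, a) (fun w => G w c b) z
  closed' : ∀ z ∈ U, ∀ a b c,
    wd (true, c) (fun w => G w a b) z = wd (true, b) (fun w => G w a c) z

/-- the matrix `∂ a_h / ∂ z_b` -/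
def Cf (a : Cn n → Cn q) (z : Cn n) : Mr n q :=
  Matrix.of fun b h => wd (false, b) (fun w => a w h) z

/-- `∂ F` -/
def th (F : Cn n → H) (z : Cn n) : Fin n → H := fun b => wd (false, b) F z

/-- `∂ ∂̄ F` -/
def Am (F : Cn n → H) (z : Cn n) : Fin n × Fin n → H :=
  fun r => wd (false, r.1) (wd (true, r.2) F) z

/-- `∂ F ∧ da_1 ∧ … ∧ da_q` -/
def Sl (a : Cn n → Cn q) (F : Cn n → H) (z : Cn n) : FI n → H := ac (vI (Cf a z)) (th F z)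

/-- `y ⊗ ∂̄ φ` -/
def d1 (y : Fin n → ℂ) (φ : Cn n → ℝ) (z : Cn n) : Mt n :=
  Matrix.of fun c b => y c * wd (true, b) (cu φ) z

/-- approximate minimisers: smooth real maps, `∂ F_i` Cauchy in `L²(K')`, approximate
Euler-Lagrange equation for the energy of `Q` -/
structure Sq (cj : Cj H) (U : Set (Cn n)) (Q : Cn n → Mt n) (K' : Set (Cn n))
    (F : ℕ → Cn n → H) : Prop where
  sm : ∀ i, ContDiffOn ℝ ∞ (F i) U
  real : ∀ i, ∀ z ∈ U, cj.J (F i z) = F i z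
  cau : ∀ η : ℝ, 0 < η → ∃ N, ∀ i ≥ N, ∀ j ≥ N, ∫ z in K', sq (th (F i) z - th (F j) z) ≤ η
  el : ∀ δ : ℝ, 0 < δ → ∀ᶠ i in atTop, ∀ u : Cn n → H, ContDiff ℝ ∞ u → tsupport u ⊆ K' →
    (∀ z, cj.J (u z) = u z) →
    |∫ z, (ip (Q z) (th u z) (th (F i) z)).re| ≤ δ * √(∫ z, sq (th u z))

/-- **MOL** (Friedrichs): approximate minimisers are `L²`-close to smooth maps of small tension -/
def MolStmt : Prop :=
  ∀ (n : ℕ) (H : Type) [NormedAddCommGroup H] [InnerProductSpace ℂ H] [CompleteSpace H]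
    (cj : Cj H) (U : Set (Cn n)) (Q : Cn n → Mt n) (K K' : Set (Cn n)) (F : ℕ → Cn n → H),
    IsOpen U → (∀ a b, ContDiffOn ℝ ∞ (fun z => Q z a b) U) → (∀ z ∈ U, (Q z).IsHermitian) →
    (∀ z ∈ U, ∀ p, ∑ r, wd (true, r) (fun w => Q w r p) z = 0) →
    IsCompact K → IsCompact K' → K ⊆ interior K' → K' ⊆ U → Sq cj U Q K' F →
    ∀ η : ℝ, 0 < η → ∀ᶠ i in atTop, ∃ F' : Cn n → H, ContDiff ℝ ∞ F' ∧
      (∀ z, cj.J (F' z) = F' z) ∧ ∫ z in K, sq (th F' z - th (F i) z) ≤ η ∧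
      ∫ z in K, ‖trH (Q z) (Am F' z)‖ ^ 2 ≤ η

/-- the right hand side of the Siu-Sampson identity -/
def Rs (G : Cn n → Mt n) (a : Cn n → Cn q) (ε : ℝ) (φ : Cn n → ℝ) (F : Cn n → H) : ℝ :=
  ε ^ q / ε * (∫ z, ip (Wm (gE (G z) (Cf a z) ε) (hess φ z)) (th F z) (th F z)).re

/-- **FS**: Siu-Sampson and Stokes for approximate minimisers -/
def FsStmt : Prop :=
  ∀ (n q : ℕ) (H : Type) [NormedAddCommGroup H] [InnerProductSpace ℂ H] [CompleteSpace H]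
    (cj : Cj H) (U : Set (Cn n)) (G : Cn n → Mt n) (a : Cn n → Cn q) (φ : Cn n → ℝ)
    (K' : Set (Cn n)), KF U G → DifferentiableOn ℂ a U → ContDiff ℝ ∞ φ → (∀ z, 0 ≤ φ z) →
    IsCompact K' → tsupport φ ⊆ interior K' → K' ⊆ U →
    (∀ (ε : ℝ) (F : ℕ → Cn n → H), 0 < ε → ε ≤ 1 →
      Sq cj U (fun z => Qe (G z) (Cf a z) ε) K' F → ∀ η : ℝ, 0 < η →
      (∀ᶠ i in atTop, -η ≤ Rs G a ε φ (F i)) ∧
      ∀ (c : Fin q → ℂ) (t κ : ℝ), ∑ j, ‖c j‖ ^ 2 ≤ 1 → 0 < t → 0 < κ → ∀ᶠ i in atTop,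
        ε ^ q / ε * ‖∫ z, ip (Wm (gE (G z) (Cf a z) ε) (d1 (Cf a z *ᵥ c) φ z))
            (th (F i) z) (th (F i) z)‖ ≤
          t / 2 * (∫ z, φ z * ee (G z) (Cf a z) ε (th (F i) z)) +
          (1 / (4 * t) + κ) * Rs G a ε φ (F i) + (n + 2) / (2 * κ) *
            (∫ z, φ z * (ee (G z) (Cf a z) ε (th (F i) z) - e0 (G z) (Cf a z) (th (F i) z))) + η) ∧
    ∀ χ : Cn n → ℝ, ContDiff ℝ ∞ χ → tsupport χ ⊆ {z | 0 < φ z} → ∃ C : ℝ, 0 ≤ C ∧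
      ∀ (ε : ℝ) (F : ℕ → Cn n → H), 0 < ε → ε ≤ 1 →
      Sq cj U (fun z => Qe (G z) (Cf a z) ε) K' F → ∀ η : ℝ, 0 < η → ∀ᶠ i in atTop,
        ∀ (b : Fin n) (I : FI n),
        ‖∫ z, wd (true, b) (cu χ) z • Sl a (F i) z I‖ ^ 2 ≤ C * Rs G a ε φ (F i) + η

/-- **HOL**: an `L²`-Cauchy sequence whose `∂̄` tends to zero weakly has a holomorphic limit -/
def HolStmt : Prop :=
  ∀ (n : ℕ) (H : Type) [NormedAddCommGroup H] [InnerProductSpace ℂ H] [CompleteSpace H]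
    (U : Set (Cn n)) (g : ℕ → Cn n → H), IsOpen U → (∀ k, ContinuousOn (g k) U) →
    (∀ K ⊆ U, IsCompact K → ∀ η : ℝ, 0 < η → ∃ N, ∀ k ≥ N, ∀ l ≥ N,
      ∫ z in K, ‖g k z - g l z‖ ^ 2 ≤ η) →
    (∀ z₀ ∈ U, ∃ V ∈ 𝓝 z₀, ∀ χ : Cn n → ℝ, ContDiff ℝ ∞ χ → HasCompactSupport χ →
      tsupport χ ⊆ V → ∀ b,
        Tendsto (fun k => ∫ z, wd (true, b) (cu χ) z • g k z) atTop (𝓝 0)) →
    ∃ S : Cn n → H, DifferentiableOn ℂ S U ∧ ∀ K ⊆ U, IsCompact K →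
      Tendsto (fun k => ∫ z in K, ‖g k z - S z‖ ^ 2) atTop (𝓝 0)

/-- a matrix acting on `ℂ^q` -/
def mL (L : Mt q) : Cn q →L[ℂ] Cn q := Matrix.toEuclideanCLM (𝕜 := ℂ) L

theorem mL_apply (L : Mt q) (x : Cn q) (k : Fin q) : mL L x k = ∑ k', L k k' * x k' := rfl

/-- **LIO**: a measure on `ℂ^q` with `2 |∂E|² ≤ E ∂∂̄E` in all linear coordinates is a multiple of
the Lebesgue measure -/
def LioStmt : Prop :=
  ∀ (q : ℕ) (ν : Measure (Cn q)) [IsLocallyFiniteMeasure ν],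
    (∀ L : Mt q, L.det ≠ 0 → ∀ ψ : Cn q → ℝ, ContDiff ℝ ∞ ψ → HasCompactSupport ψ →
      (∀ x, 0 ≤ ψ x) → ∀ (k : Fin q) (t : ℝ), 0 < t →
      ‖∫ x, wd (true, k) (cu ψ) (mL L x) ∂ν‖ ≤ t / 2 * ∫ x, ψ (mL L x) ∂ν +
        1 / (4 * t) * ∫ x, (hess ψ (mL L x)).trace.re ∂ν) →
    ∃ E : ℝ≥0, ν = E • (volume : Measure (Cn q))

end

end Crest.Agent.X261.Fam
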