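import Crest.Agent.X261.Fam.St
import Crest.Agent.X261.Rel.Act
import Crest.Agent.X261.Top.Defs
import Crest.Agent.X261.Cov.D

/-!
# Row 261, package FAM (helper12), part Defs: fibrewise minimal forms

* `Dat D M a` : `a : D.cov G → ℂ^q` holomorphic, `M`-invariant, proper modulo `M`;
* `Eqv D M r b f` : smooth real maps, equivariant for the affine action `x ↦ π m x + b m`;
* `rd D f i v` : the reading of `f` in the chart `i` on the sheet `v`;
* `IsMin D K M a r b S` : `S` is holomorphic, the `L²_loc` limit of `∂f_k ∧ da`, and orthogonal to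
  all `∂u ∧ da`;
* `Bd D K a S E` : the fibre energy of `S` is at most `E`;
* `FamStmt` : existence and uniqueness.
-/

set_option autoImplicit false
set_option linter.unusedSectionVars false

open Set Filter Topology MeasureTheory Matrix
open scoped ComplexConjugate ComplexOrder InnerProductSpace ContDiff

namespace Crest.Agent.X261.Fam

open Crest.Agent.R275.Geo Crest.Agent.R273.UCov_914 Crest.Agent.R273.Kah_333
open Crest.Agent.R273.Fock_243
open Crest.Agent.X261.Top (HolV)
open Crest.Agent.X261.Rel.Act (Rep Act)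

noncomputable section

variable {n q : ℕ} {X : Type} [TopologicalSpace X] {A : Atl n X} {G : Type} [Group G]
variable {H : Type*} [NormedAddCommGroup H] [InnerProductSpace ℂ H]

/-- the map `a` -/
structure Dat (D : MonD A G) (M : Subgroup G) (a : D.cov G → Cn q) : Prop where
  hol : HolV (D.atl G) univ a
  inv : ∀ m ∈ M, ∀ e, a (m • e) = a e
  prop : ∀ R : ℝ, ∃ Kc : Set (D.cov G), IsCompact Kc ∧ ∀ e, ‖a e‖ ≤ R → ∃ m ∈ M, m • e ∈ Kc

/-- smooth real equivariant maps -/
structure Eqv (D : MonD A G) (M : Subgroup G) (r : Rep M H) (b : M → H) (f : D.cov G → H) :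
    Prop where
  sm : (D.atl G).Sm f
  real : ∀ e, r.J (f e) = f e
  eqv : ∀ (m : M) (e : D.cov G), f ((m : G) • e) = r.π m (f e) + b m

/-- reading in the chart `i` on the sheet `v` -/
def rd (D : MonD A G) {W : Type*} (f : D.cov G → W) (i : A.ι) (v : G) (z : Cn n) : W :=
  f (D.pt i v ((A.e i).symm z))

/-- the pairing of two forms, as a density -/
def p2 (g : Mt n) (S S' : FI n → H) : ℂ := g.det * ip (Gam g⁻¹) S S'

/-- the squared norm of a form, as a density -/
def n2 (g : Mt n) (S : FI n → H) : ℝ := (p2 g S S).re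

/-- `∂ f_k ∧ da → S` in `L²_loc` -/
def Lm (D : MonD A G) (a : D.cov G → Cn q) (f : ℕ → D.cov G → H)
    (S : A.ι → G → X → FI n → H) : Prop :=
  ∀ i v, ∀ Kc ⊆ (A.e i).target, IsCompact Kc → ∀ I, Tendsto (fun k => ∫ z in Kc,
    ‖Sl (rd D a i v) (rd D (f k) i v) z I - S i v ((A.e i).symm z) I‖ ^ 2) atTop (𝓝 0)

/-- the fibrewise minimal form -/
structure IsMin (D : MonD A G) (K : Kah A) (M : Subgroup G) (a : D.cov G → Cn q) (r : Rep M H)
    (b : M → H) (S : A.ι → G → X → FI n → H) : Prop where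
  hol : ∀ i v I, DifferentiableOn ℂ (fun z => S i v ((A.e i).symm z) I) (A.e i).target
  lim : ∃ f : ℕ → D.cov G → H, (∀ k, Eqv D M r b (f k)) ∧ Lm D a f S
  orth : ∀ i v (u : Cn n → H), ContDiff ℝ ∞ u → HasCompactSupport u →
    tsupport u ⊆ (A.e i).target → (∀ z, r.J (u z) = u z) →
    ∫ z, (p2 (K.g i ((A.e i).symm z)) (Sl (rd D a i v) u z) (S i v ((A.e i).symm z))).re = 0

/-- the fibre energy is at most `E` -/
def Bd (D : MonD A G) (K : Kah A) (a : D.cov G → Cn q) (S : A.ι → G → X → FI n → H) (E : ℝ) :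
    Prop :=
  ∀ i v, ∀ Kc ⊆ (A.e i).target, IsCompact Kc →
    ∫ z in Kc, n2 (K.g i ((A.e i).symm z)) (S i v ((A.e i).symm z)) ≤
      E * (volume (rd D a i v '' Kc)).toReal

/-- **FAM**: existence and uniqueness -/
def FamStmt : Prop :=
  ∀ (n q : ℕ) (X : Type) [TopologicalSpace X] [T2Space X] [CompactSpace X] (A : Atl n X)
    [Finite A.ι], Part A → ∀ (K : Kah A) (G : Type) [Group G] [Countable G] (D : MonD A G)
    (M : Subgroup G) (a : D.cov G → Cn q), Dat D M a →
    ∀ (H : Type) [NormedAddCommGroup H] [InnerProductSpace ℂ H] [CompleteSpace H],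
      (∀ α : Act M H, ∃ (S : A.ι → G → X → FI n → H) (E : ℝ), 0 ≤ E ∧
        IsMin D K M a α.toRep α.b S ∧ Bd D K a S E) ∧
      ∀ (r : Rep M H) (b : M → H) (S S' : A.ι → G → X → FI n → H), IsMin D K M a r b S →
        IsMin D K M a r b S' → ∀ i v, ∀ x ∈ (A.e i).source, S i v x = S' i v x

/-- the conjugation of a representation -/
def cjR {M : Type*} [Group M] (r : Rep M H) : Cj H where
  J := (⟨⟨⟨r.J, map_add r.J⟩, fun c x => by
    have := r.J_real_smul c x
    simpa using this⟩, r.J.continuous⟩ : H →L[ℝ] H)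
  JJ := r.JJ
  smul c x := map_smulₛₗ r.J c x
  inner := r.inner_J

@[simp] theorem cjR_J {M : Type*} [Group M] (r : Rep M H) (x : H) : (cjR r).J x = r.J x := rfl

end

end Crest.Agent.X261.Fam
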