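import Crest.Agent.X261.Fam.St
import Crest.Agent.R266.Osgood

/-!
# Row 261, package FAM (helper12), part Cal: flat calculus

Chain rules for holomorphic maps in terms of `Cf`, linearity of `th`, continuity of the tensors.
-/

set_option autoImplicit false
set_option linter.unusedSectionVars false

open Set Filter Topology MeasureTheory Matrix
open scoped ComplexConjugate ComplexOrder InnerProductSpace ContDiff

namespace Crest.Agent.X261.Fam

open Crest.Agent.R275.Geo Crest.Agent.R275.EDR890 Crest.Agent.R273.Hess_333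
open Crest.Agent.R273.HessB_333 Crest.Agent.R273.Fock_243 Crest.Agent.R273.GamR_155

noncomputable section

variable {n m q : ℕ} {H : Type*} [NormedAddCommGroup H] [InnerProductSpace ℂ H]
variable {W : Type*} [NormedAddCommGroup W] [NormedSpace ℂ W]

theorem diff_co {T : Cn n → Cn m} {z : Cn n} (hT : DifferentiableAt ℂ T z) (h : Fin m) :
    DifferentiableAt ℂ (fun w => T w h) z :=
  (EuclideanSpace.proj h : Cn m →L[ℂ] ℂ).differentiableAt.comp z hT

theorem Cf_eq {T : Cn n → Cn m} {z : Cn n} (hT : DifferentiableAt ℂ T z) (b : Fin n) (h : Fin m) :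
    Cf T z b h = (fderiv ℂ T z (EuclideanSpace.single b 1)) h := by
  rw [Cf, Matrix.of_apply, wd_hol' (diff_co hT h)]
  have h1 : fderiv ℂ (fun w => T w h) z =
      (EuclideanSpace.proj h : Cn m →L[ℂ] ℂ).comp (fderiv ℂ T z) :=
    ((EuclideanSpace.proj h : Cn m →L[ℂ] ℂ).hasFDerivAt.comp z hT.hasFDerivAt).fderiv
  rw [h1]
  rfl

theorem Cf_congr {T T' : Cn n → Cn m} {z : Cn n} (h : T =ᶠ[𝓝 z] T') : Cf T z = Cf T' z := by
  ext b k
  exact wd_congr (h.mono fun w hw => by rw [hw]) _

theorem th_congr {F F' : Cn n → H} {z : Cn n} (h : F =ᶠ[𝓝 z] F') : th F z = th F' z :=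
  funext fun _ => wd_congr h _

/-- chain rule -/
theorem wd_cmp {f : Cn m → W} {T : Cn n → Cn m} {z : Cn n} (hf : DifferentiableAt ℝ f (T z))
    (hT : DifferentiableAt ℂ T z) (s : Bool) (a : Fin n) :
    wd (s, a) (fun w => f (T w)) z = ∑ b, cj s (Cf T z a b) • wd (s, b) f (T z) := by
  have h' : fderiv ℝ (fun w => f (T w)) z =
      (fderiv ℝ f (T z)).comp ((fderiv ℂ T z).restrictScalars ℝ) :=
    (hf.hasFDerivAt.comp z (hT.hasFDerivAt.restrictScalars ℝ)).fderiv
  have hI : (EuclideanSpace.single a Complex.I : Cn n) =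
      Complex.I • EuclideanSpace.single a (1 : ℂ) := by
    ext c
    simp [PiLp.single_apply]
  simp only [Cf_eq hT]
  rw [wd, h']
  unfold wdL
  simp only [ContinuousLinearMap.comp_apply, ContinuousLinearMap.coe_restrictScalars']
  rw [hI, map_smul]
  exact wdL_vec s _ _

theorem th_cmp {F : Cn m → H} {T : Cn n → Cn m} {z : Cn n} (hF : DifferentiableAt ℝ F (T z))
    (hT : DifferentiableAt ℂ T z) : th (fun w => F (T w)) z = ac (Cf T z) (th F (T z)) :=
  funext fun a => wd_cmp hF hT false a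

theorem Cf_cmp {a : Cn m → Cn q} {T : Cn n → Cn m} {z : Cn n} (ha : DifferentiableAt ℂ a (T z))
    (hT : DifferentiableAt ℂ T z) : Cf (fun w => a (T w)) z = Cf T z * Cf a (T z) := by
  ext b h
  exact wd_cmp (f := fun w => a w h) ((diff_co ha h).restrictScalars ℝ) hT false b

theorem diff_cu {u : Cn n → ℝ} {z : Cn n} (hu : DifferentiableAt ℝ u z) :
    DifferentiableAt ℝ (cu u) z := Complex.ofRealCLM.differentiableAt.comp z hu

theorem d1_cmp {u : Cn m → ℝ} {T : Cn n → Cn m} {z : Cn n} (hu : DifferentiableAt ℝ u (T z))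
    (hT : DifferentiableAt ℂ T z) (y : Fin m → ℂ) :
    d1 (Cf T z *ᵥ y) (fun w => u (T w)) z = Cf T z * d1 y u (T z) * (Cf T z)ᴴ := by
  ext c b
  have h1 : wd (true, b) (cu fun w => u (T w)) z = _ := wd_cmp (f := cu u) (diff_cu hu) hT true b
  simp only [d1, Matrix.of_apply, h1, Matrix.mul_apply, Matrix.mulVec, dotProduct, cj_true,
    smul_eq_mul, Matrix.conjTranspose_apply, RCLike.star_def, Finset.sum_mul, Finset.mul_sum]
  rw [Finset.sum_comm]
  exact Finset.sum_congr rfl fun _ _ => Finset.sum_congr rfl fun _ _ => by ring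

theorem hol_Cf {T : Cn n → Cn m} {U : Set (Cn n)} (hU : IsOpen U) (hT : DifferentiableOn ℂ T U)
    (b : Fin n) (h : Fin m) : DifferentiableOn ℂ (fun w => Cf T w b h) U := by
  have h3 : AnalyticOnNhd ℂ (fderiv ℂ T) U :=
    (R266.SCV.analyticOnNhd_of_differentiableOn hU hT).fderiv
  have h5 : DifferentiableOn ℂ (fun w => (fderiv ℂ T w (EuclideanSpace.single b 1))) U :=
    h3.differentiableOn.clm_apply (differentiableOn_const _)
  exact (((EuclideanSpace.proj h : Cn m →L[ℂ] ℂ).differentiable).comp_differentiableOn h5).congr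
    fun w hw => Cf_eq (hT.differentiableAt (hU.mem_nhds hw)) b h

theorem sm_of_hol {V : Type*} [NormedAddCommGroup V] [NormedSpace ℂ V] [CompleteSpace V]
    {T : Cn n → V} {U : Set (Cn n)} (hU : IsOpen U) (hT : DifferentiableOn ℂ T U) :
    ContDiffOn ℝ ∞ T U :=
  ((R266.SCV.contDiffOn_omega_of_differentiableOn hU hT).restrict_scalars ℝ).of_le le_top

theorem contOn_Cf {T : Cn n → Cn m} {U : Set (Cn n)} (hU : IsOpen U)
    (hT : DifferentiableOn ℂ T U) : ContinuousOn (Cf T) U :=
  continuousOn_pi.2 fun b => continuousOn_pi.2 fun h => (hol_Cf hU hT b h).continuousOn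

theorem hess_cmp {u : Cn m → ℝ} {T : Cn n → Cn m} {U : Set (Cn n)} {z : Cn n} (hU : IsOpen U)
    (hT : DifferentiableOn ℂ T U) (hz : z ∈ U) (hu : ContDiffAt ℝ ∞ u (T z)) :
    hess (fun w => u (T w)) z = Cf T z * hess u (T z) * (Cf T z)ᴴ := by
  ext a b
  have hTz := hT.differentiableAt (hU.mem_nhds hz)
  have h1 : wd (true, b) (cu fun w => u (T w)) =ᶠ[𝓝 z] fun w => ∑ d,
      conj (Cf T w b d) * wd (true, d) (cu u) (T w) := by
    filter_upwards [hU.mem_nhds hz, hTz.continuousAt.eventually (eventually_diff hu)] with w hw hw'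
    exact wd_cmp (f := cu u) hw' (hT.differentiableAt (hU.mem_nhds hw)) true b
  have hC : ∀ d, DifferentiableAt ℂ (fun w => Cf T w b d) z := fun d =>
    (hol_Cf hU hT b d).differentiableAt (hU.mem_nhds hz)
  have hCc : ∀ d, DifferentiableAt ℝ (fun w => conj (Cf T w b d)) z := fun d =>
    Complex.conjCLE.differentiableAt.comp z ((hC d).restrictScalars ℝ)
  have hw : ∀ d, DifferentiableAt ℝ (wd (true, d) (cu u)) (T z) := fun d =>
    (contDiffAt_wd (contDiffAt_cu hu) _).differentiableAt (by simp)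
  have hwT : ∀ d, DifferentiableAt ℝ (fun w => wd (true, d) (cu u) (T w)) z := fun d =>
    (hw d).comp z (hTz.restrictScalars ℝ)
  have h0 : ∀ d, wd (false, a) (fun w => conj (Cf T w b d)) z = 0 := fun d => by
    have := conj_wd (true, a) ((hC d).restrictScalars ℝ)
    rw [wd_hol (hC d), map_zero] at this
    exact this.symm
  rw [hess_apply, wd_congr h1, wd_sum _ fun d _ => (hCc d).fun_mul (hwT d)]
  simp only [wd_mul (hCc _) (hwT _), h0, zero_mul, zero_add, wd_cmp (hw _) hTz, cj_false,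
    smul_eq_mul, Matrix.mul_apply, Matrix.conjTranspose_apply, RCLike.star_def, hess_apply]
  exact Finset.sum_congr rfl fun _ _ => by ring

/-! ### linearity -/

theorem th_add {F F' : Cn n → H} {z : Cn n} (h : DifferentiableAt ℝ F z)
    (h' : DifferentiableAt ℝ F' z) : th (fun w => F w + F' w) z = th F z + th F' z :=
  funext fun _ => wd_add h h' _

theorem th_smul {F : Cn n → H} {z : Cn n} (c : ℂ) (h : DifferentiableAt ℝ F z) :
    th (fun w => c • F w) z = c • th F z := funext fun _ => wd_const_smul c h _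

theorem th_sub {F F' : Cn n → H} {z : Cn n} (h : DifferentiableAt ℝ F z)
    (h' : DifferentiableAt ℝ F' z) : th (fun w => F w - F' w) z = th F z - th F' z := by
  have h1 : (fun w => F w - F' w) = fun w => F w + (-1 : ℂ) • F' w := by
    funext w; rw [neg_one_smul, sub_eq_add_neg]
  rw [h1, th_add h (h'.fun_const_smul _), th_smul _ h', neg_one_smul, sub_eq_add_neg]

theorem th_aff {F : Cn n → H} {z : Cn n} (L : H ≃ₗᵢ[ℂ] H) (c : H) (h : DifferentiableAt ℝ F z) :
    th (fun w => L (F w) + c) z = fun b => L (th F z b) := by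
  funext b
  have h1 : DifferentiableAt ℝ (fun w => L (F w)) z :=
    ((L.toContinuousLinearEquiv : H →L[ℂ] H).restrictScalars ℝ).differentiableAt.comp z h
  rw [th, wd_add h1 (differentiableAt_const c), wd_const, add_zero]
  exact wd_clm h (L.toContinuousLinearEquiv : H →L[ℂ] H) _

theorem th_zero_of {F : Cn n → H} {z : Cn n} (h : z ∉ tsupport F) : th F z = 0 := by
  rw [th_congr (notMem_tsupport_iff_eventuallyEq.1 h)]
  funext b
  exact wd_const 0 z _

/-- `∂ (φ(a) F) = φ(a) ∂ F + C (∂φ ⊗ F)` -/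
theorem th_mul_a {F : Cn n → H} {a : Cn n → Cn q} {φ : Cn q → ℝ} {z : Cn n}
    (h : DifferentiableAt ℝ F z) (ha : DifferentiableAt ℂ a z)
    (hφ : DifferentiableAt ℝ φ (a z)) : th (fun w => φ (a w) • F w) z =
      (φ (a z) : ℂ) • th F z + ac (Cf a z) fun k => wd (false, k) (cu φ) (a z) • F z := by
  funext b
  have h1 : DifferentiableAt ℝ (fun w => cu φ (a w)) z :=
    (diff_cu hφ).comp z (ha.restrictScalars ℝ)
  have h2 : th (fun w => φ (a w) • F w) z b = wd (false, b) (fun w => cu φ (a w) • F w) z := rfl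
  rw [h2, wd_smul h1 h, wd_cmp (diff_cu hφ) ha, add_comm]
  simp only [cj_false, smul_eq_mul, Finset.sum_smul, Pi.add_apply, Pi.smul_apply, ac, smul_smul]
  rfl

theorem contOn_th {F : Cn n → H} {U : Set (Cn n)} (hU : IsOpen U) (h : ContDiffOn ℝ ∞ F U) :
    ContinuousOn (th F) U :=
  continuousOn_pi.2 fun _ => (contDiffOn_wd hU h _).continuousOn

theorem d1_add {u u' : Cn n → ℝ} {z : Cn n} (y : Fin n → ℂ) (h : DifferentiableAt ℝ u z)
    (h' : DifferentiableAt ℝ u' z) : d1 y (fun w => u w + u' w) z = d1 y u z + d1 y u' z := by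
  ext c b
  have h1 : cu (fun w => u w + u' w) = fun w => cu u w + cu u' w := by
    funext w; simp [cu]
  simp only [d1, Matrix.of_apply, Matrix.add_apply, h1, wd_add (diff_cu h) (diff_cu h'), mul_add]

theorem d1_congr {u u' : Cn n → ℝ} {z : Cn n} (y : Fin n → ℂ) (h : u =ᶠ[𝓝 z] u') :
    d1 y u z = d1 y u' z := by
  ext c b
  simp only [d1, Matrix.of_apply]
  rw [wd_congr (f := cu u) (g := cu u') (h.mono fun w hw => by simp only [cu, hw])]

theorem wd_cu_zero (s : WI n) : wd s (cu fun _ : Cn n => (0 : ℝ)) = fun _ => 0 := by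
  funext z
  exact wd_const ((0 : ℝ) : ℂ) z s

theorem d1_zero (y : Fin n → ℂ) (z : Cn n) : d1 y (fun _ => 0) z = 0 := by
  ext c b
  simp [d1, wd_cu_zero]

theorem hess_zero (z : Cn n) : hess (fun _ => 0) z = 0 := by
  ext a b
  rw [hess_apply, wd_cu_zero]
  exact wd_const 0 z _

theorem d1_sum {κ : Type*} (s : Finset κ) {u : κ → Cn n → ℝ} {z : Cn n} (y : Fin n → ℂ)
    (h : ∀ k, DifferentiableAt ℝ (u k) z) :
    d1 y (fun w => ∑ k ∈ s, u k w) z = ∑ k ∈ s, d1 y (u k) z := by
  classical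
  induction s using Finset.induction_on with
  | empty => simpa using d1_zero y z
  | insert k s hk ih =>
    simp only [Finset.sum_insert hk]
    rw [d1_add y (h k) (DifferentiableAt.fun_sum fun l _ => h l), ih]

theorem hess_sum {κ : Type*} (s : Finset κ) {u : κ → Cn n → ℝ} {z : Cn n}
    (h : ∀ k, ContDiffAt ℝ ∞ (u k) z) :
    hess (fun w => ∑ k ∈ s, u k w) z = ∑ k ∈ s, hess (u k) z := by
  classical
  induction s using Finset.induction_on with
  | empty => simpa using hess_zero z
  | insert k s hk ih =>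
    simp only [Finset.sum_insert hk]
    rw [hess_add (h k) (ContDiffAt.sum fun l _ => h l), ih]

/-! ### continuity of the tensors -/

section cont

variable {Y : Type*} [TopologicalSpace Y] {U : Set Y}

theorem cont_Gam : Continuous (Gam : Mt n → Matrix (FI n) (FI n) ℂ) := by
  refine continuous_pi fun S => continuous_pi fun T => ?_
  unfold Gam
  split_ifs
  · exact (continuous_id.matrix_submatrix _ _).matrix_det
  · exact continuous_const

theorem cont_vI : Continuous (vI : Mr n q → Matrix (FI n) (Fin n) ℂ) := by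
  have h1 : Continuous (GamR : Mr n q → Matrix (FI n) (FI q) ℂ) := by
    refine continuous_pi fun S => continuous_pi fun T => ?_
    unfold GamR
    split_ifs
    · exact (continuous_id.matrix_submatrix _ _).matrix_det
    · exact continuous_const
  have h2 : Continuous (tau : Mr n q → FI n → ℂ) := h1.matrix_mulVec continuous_const
  exact continuous_pi fun I => continuous_pi fun a =>
    (continuous_apply I).comp (continuous_const.matrix_mulVec h2)

theorem contOn_inv {g : Y → Mt n} (hg : ContinuousOn g U) (hp : ∀ y ∈ U, (g y).PosDef) :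
    ContinuousOn (fun y => (g y)⁻¹) U := by
  rw [continuousOn_iff_continuous_domRestrict] at hg ⊢
  have h1 : Continuous fun y : U => ((g y).det)⁻¹ • (g y).adjugate :=
    (hg.matrix_det.inv₀ fun y => (hp y y.2).det_pos.ne').smul hg.matrix_adjugate
  refine h1.congr fun y => ?_
  change _ = (g y)⁻¹
  rw [adj_eq (hp y y.2), smul_smul, inv_mul_cancel₀ (hp y y.2).det_pos.ne', one_smul]

theorem contOn_gE {g : Y → Mt n} {C : Y → Mr n q} (hg : ContinuousOn g U) (hC : ContinuousOn C U)
    (ε : ℝ) : ContinuousOn (fun y => gE (g y) (C y) ε) U := by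
  rw [continuousOn_iff_continuous_domRestrict] at hg hC ⊢
  exact hg.add ((hC.matrix_mul hC.matrix_conjTranspose).const_smul ((ε⁻¹ : ℝ) : ℂ))

theorem contOn_Qe {g : Y → Mt n} {C : Y → Mr n q} (hg : ContinuousOn g U) (hC : ContinuousOn C U)
    (ε : ℝ) : ContinuousOn (fun y => Qe (g y) (C y) ε) U := by
  have h := contOn_gE hg hC ε
  rw [continuousOn_iff_continuous_domRestrict] at h ⊢
  exact h.matrix_adjugate.const_smul ((ε ^ q : ℝ) : ℂ)

theorem contOn_Q0 {g : Y → Mt n} {C : Y → Mr n q} (hg : ContinuousOn g U) (hC : ContinuousOn C U)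
    (hp : ∀ y ∈ U, (g y).PosDef) : ContinuousOn (fun y => Q0 (g y) (C y)) U := by
  have h := contOn_inv hg hp
  rw [continuousOn_iff_continuous_domRestrict] at h hg hC ⊢
  have h1 := cont_vI.comp hC
  exact hg.matrix_det.smul
    ((h1.matrix_conjTranspose.matrix_mul (cont_Gam.comp h)).matrix_mul h1)

theorem contOn_Wm {g Z : Y → Mt n} (hg : ContinuousOn g U) (hZ : ContinuousOn Z U)
    (hp : ∀ y ∈ U, (g y).PosDef) : ContinuousOn (fun y => Wm (g y) (Z y)) U := by
  have h := contOn_inv hg hp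
  rw [continuousOn_iff_continuous_domRestrict] at h hg hZ ⊢
  exact hg.matrix_det.smul
    (((h.matrix_mul hZ).matrix_trace.smul h).sub ((h.matrix_mul hZ).matrix_mul h))

theorem contOn_Dm {g : Y → Mt n} {C : Y → Mr n q} (hg : ContinuousOn g U) (hC : ContinuousOn C U)
    (hp : ∀ y ∈ U, (g y).PosDef) (ε : ℝ) : ContinuousOn (fun y => Dm (g y) (C y) ε) U := by
  have h := contOn_inv hg hp
  rw [continuousOn_iff_continuous_domRestrict] at h hg hC ⊢
  exact Complex.continuous_re.comp (continuous_const.add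
    ((hC.matrix_conjTranspose.matrix_mul h).matrix_mul hC)).matrix_det

theorem contOn_ac {ι κ : Type*} [Fintype ι] [Fintype κ] {N : Y → Matrix ι κ ℂ} {θ : Y → κ → H}
    (hN : ContinuousOn N U) (hθ : ContinuousOn θ U) : ContinuousOn (fun y => ac (N y) (θ y)) U :=
  continuousOn_pi.2 fun k => continuousOn_finsetSum _ fun p _ =>
    (continuousOn_pi.1 (continuousOn_pi.1 hN k) p).smul (continuousOn_pi.1 hθ p)

theorem contOn_ip {ι : Type*} [Fintype ι] {Q : Y → Matrix ι ι ℂ} {θ θ' : Y → ι → H}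
    (hQ : ContinuousOn Q U) (hθ : ContinuousOn θ U) (hθ' : ContinuousOn θ' U) :
    ContinuousOn (fun y => ip (Q y) (θ y) (θ' y)) U :=
  continuousOn_finsetSum _ fun r _ => ContinuousOn.inner (𝕜 := ℂ) (continuousOn_pi.1 hθ r)
    (continuousOn_pi.1 (contOn_ac hQ hθ') r)

theorem contOn_sq {ι : Type*} [Fintype ι] {θ : Y → ι → H} (hθ : ContinuousOn θ U) :
    ContinuousOn (fun y => sq (θ y)) U :=
  continuousOn_finsetSum _ fun r _ => (continuousOn_pi.1 hθ r).norm.pow 2

end cont

theorem Dm_conj {N : Mt n} (hN : N.det ≠ 0) (G : Mt n) (C : Mr n q) (ε : ℝ) :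
    Dm (N * G * Nᴴ) (N * C) ε = Dm G C ε := by
  unfold Dm Hm
  rw [Matrix.conjTranspose_mul, ← inv_conj hN G]
  simp only [Matrix.mul_assoc]

theorem ip_zero_left {ι : Type*} [Fintype ι] (Q : Matrix ι ι ℂ) (θ : ι → H) : ip Q 0 θ = 0 := by
  simp [ip_eq]

theorem ip_zero_mat {ι : Type*} [Fintype ι] (θ θ' : ι → H) : ip (0 : Matrix ι ι ℂ) θ θ' = 0 := by
  simp [ip_eq]

/-- the vertical form does not see horizontal terms -/
theorem ip_Q0_hor {G : Mt n} (hG : G.PosDef) (C : Mr n q) (y : Fin q → H) (θ : Fin n → H) :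
    ip (Q0 G C) (ac C y) θ = 0 := by
  have h1 := conj_ip (Q0 G C) (ac C y) θ
  rw [(Q0_psd hG C).1.eq, ip, ip, ← ac_mul, Q0_mul_self] at h1
  have h2 : dt θ (ac (0 : Mr n q) y) = 0 := by simp [dt, ac]
  rw [h2] at h1
  exact (map_eq_zero _).1 h1

end

end Crest.Agent.X261.Fam
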