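import Crest.Agent.X261.Fam.St
import Crest.Agent.X261.Plk.C
import Crest.Agent.T223.CovMass_25

/-!
# Row 261, package FAM, part Exp (helper13), file A: flat lemmas

* `L0 U u` : the continuous maps `u k` tend to zero in `L²_loc(U)`; stability properties,
  change of variables, `L0.eq_zero`, `L0.div_zero` (divergence free limits);
* `tau_eq_wdg`, `cl_step`, `cl_wdg` : `∂f ∧ τ` is `∂`-closed.
-/

set_option autoImplicit false
set_option linter.unusedSectionVars false

open Set Filter Topology MeasureTheory Matrix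
open scoped ComplexConjugate InnerProductSpace ContDiff

namespace Crest.Agent.X261.Fam.Ex

open Crest.Agent.R275.Geo Crest.Agent.R275.EDR890 Crest.Agent.R273.Hess_333
open Crest.Agent.R273.Fock_243 Crest.Agent.R273.GamR_155
open Crest.Agent.X261.Top (wdg)

noncomputable section

variable {n q : ℕ} {W W' : Type*} [NormedAddCommGroup W] [NormedAddCommGroup W']

/-- `u k → 0` in `L²_loc(U)` -/
structure L0 (U : Set (Cn n)) (u : ℕ → Cn n → W) : Prop where
  cont : ∀ k, ContinuousOn (u k) U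
  lim : ∀ K ⊆ U, IsCompact K → Tendsto (fun k => ∫ z in K, ‖u k z‖ ^ 2) atTop (𝓝 0)

variable {U V : Set (Cn n)} {u v : ℕ → Cn n → W} {w : ℕ → Cn n → W'}

theorem intOn_sq {f : Cn n → W} (hf : ContinuousOn f U) {K : Set (Cn n)} (hK : K ⊆ U)
    (hc : IsCompact K) : IntegrableOn (fun z => ‖f z‖ ^ 2) K :=
  ((hf.mono hK).norm.pow 2).integrableOn_compact hc

theorem L0.mono (h : L0 U u) (hV : V ⊆ U) : L0 V u :=
  ⟨fun k => (h.cont k).mono hV, fun K hK hc => h.lim K (hK.trans hV) hc⟩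

theorem L0.of_le2 (h : L0 U u) (h' : L0 U v) (hw : ∀ k, ContinuousOn (w k) U)
    (hle : ∀ K ⊆ U, IsCompact K → ∃ C : ℝ, ∀ k, ∀ z ∈ K,
      ‖w k z‖ ^ 2 ≤ C * (‖u k z‖ ^ 2 + ‖v k z‖ ^ 2)) : L0 U w := by
  refine ⟨hw, fun K hK hc => ?_⟩
  obtain ⟨C, hC⟩ := hle K hK hc
  have h1 := ((h.lim K hK hc).add (h'.lim K hK hc)).const_mul C
  rw [add_zero, mul_zero] at h1
  refine squeeze_zero (fun k => integral_nonneg fun z => by positivity) (fun k => ?_) h1
  rw [← integral_add (intOn_sq (h.cont k) hK hc) (intOn_sq (h'.cont k) hK hc),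
    ← integral_const_mul]
  exact setIntegral_mono_on (intOn_sq (hw k) hK hc)
    (((intOn_sq (h.cont k) hK hc).add (intOn_sq (h'.cont k) hK hc)).const_mul C)
    hc.measurableSet (hC k)

theorem L0.of_le (h : L0 U u) (hw : ∀ k, ContinuousOn (w k) U)
    (hle : ∀ K ⊆ U, IsCompact K → ∃ C : ℝ, ∀ k, ∀ z ∈ K, ‖w k z‖ ≤ C * ‖u k z‖) : L0 U w := by
  refine h.of_le2 h hw fun K hK hc => ?_
  obtain ⟨C, hC⟩ := hle K hK hc
  refine ⟨C ^ 2, fun k z hz => ?_⟩
  have h1 := pow_le_pow_left₀ (norm_nonneg _) (hC k z hz) 2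
  nlinarith [sq_nonneg (C * ‖u k z‖)]

theorem L0.congr (h : L0 U u) (he : ∀ k, ∀ z ∈ U, v k z = u k z) : L0 U v :=
  h.of_le (fun k => (h.cont k).congr (he k)) fun K hK _ =>
    ⟨1, fun k z hz => by rw [he k z (hK hz), one_mul]⟩

theorem L0.add (h : L0 U u) (h' : L0 U v) : L0 U fun k z => u k z + v k z :=
  h.of_le2 h' (fun k => (h.cont k).add (h'.cont k)) fun _ _ _ => ⟨2, fun k z _ => by
    have h1 := pow_le_pow_left₀ (norm_nonneg _) (norm_add_le (u k z) (v k z)) 2
    nlinarith [sq_nonneg (‖u k z‖ - ‖v k z‖)]⟩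

theorem L0.neg (h : L0 U u) : L0 U fun k z => -u k z :=
  h.of_le (fun k => (h.cont k).neg) fun _ _ _ => ⟨1, fun k z _ => by simp⟩

theorem L0.sub (h : L0 U u) (h' : L0 U v) : L0 U fun k z => u k z - v k z := by
  simpa only [sub_eq_add_neg] using h.add h'.neg

theorem l0_zero : L0 U fun (_ : ℕ) (_ : Cn n) => (0 : W) :=
  ⟨fun _ => continuousOn_const, fun _ _ _ => by simp⟩

theorem L0.sum {ι : Type*} (s : Finset ι) {u : ι → ℕ → Cn n → W} (h : ∀ i ∈ s, L0 U (u i)) :
    L0 U fun k z => ∑ i ∈ s, u i k z := by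
  classical
  induction s using Finset.induction_on with
  | empty => simpa using l0_zero
  | insert a s ha ih =>
    simp only [Finset.sum_insert ha]
    exact (h a (Finset.mem_insert_self a s)).add (ih fun i hi => h i (Finset.mem_insert_of_mem hi))

theorem L0.subseq (h : L0 U u) {φ : ℕ → ℕ} (hφ : Tendsto φ atTop atTop) :
    L0 U fun k => u (φ k) :=
  ⟨fun _ => h.cont _, fun K hK hc => (h.lim K hK hc).comp hφ⟩

/-- a constant sequence which tends to zero vanishes -/
theorem L0.eq_zero {F : Cn n → W} (hU : IsOpen U) (h : L0 U fun _ => F) {z : Cn n} (hz : z ∈ U) :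
    F z = 0 := by
  obtain ⟨r, hr, hsub⟩ := Metric.nhds_basis_closedBall.mem_iff.1 (hU.mem_nhds hz)
  have hc := isCompact_closedBall z r
  have h1 : ∫ z in Metric.closedBall z r, ‖F z‖ ^ 2 = 0 :=
    tendsto_nhds_unique tendsto_const_nhds (h.lim _ hsub hc)
  rw [setIntegral_eq_zero_iff_of_nonneg_ae (Eventually.of_forall fun z => by positivity)
    (intOn_sq (h.cont 0) hsub hc)] at h1
  have h2 := Measure.eqOn_open_of_ae_eq
    (ae_restrict_of_ae_restrict_of_subset Metric.ball_subset_closedBall h1) Metric.isOpen_ball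
    (((h.cont 0).mono (Metric.ball_subset_closedBall.trans hsub)).norm.pow 2) continuousOn_const
    (Metric.mem_ball_self hr)
  simpa using h2

/-- convergence in `L¹` on compact sets -/
theorem L0.l1 (h : L0 U u) {K : Set (Cn n)} (hK : K ⊆ U) (hc : IsCompact K) :
    Tendsto (fun k => ∫ z in K, ‖u k z‖) atTop (𝓝 0) := by
  rw [Metric.tendsto_atTop]
  intro ε hε
  set m : ℝ := volume.real K with hm
  have hm0 : 0 ≤ m := measureReal_nonneg
  set t : ℝ := ε / (m + 1) with ht
  have ht0 : 0 < t := by positivity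
  obtain ⟨N, hN⟩ := Metric.tendsto_atTop.1 (h.lim K hK hc) (t * ε) (by positivity)
  refine ⟨N, fun k hk => ?_⟩
  have h1 := hN k hk
  have h0 : 0 ≤ ∫ z in K, ‖u k z‖ ^ 2 := integral_nonneg fun z => by positivity
  have h0' : 0 ≤ ∫ z in K, ‖u k z‖ := integral_nonneg fun z => by positivity
  rw [Real.dist_eq, sub_zero, abs_of_nonneg h0] at h1
  rw [Real.dist_eq, sub_zero, abs_of_nonneg h0']
  have hi : IntegrableOn (fun _ : Cn n => t / 2) K := integrableOn_const hc.measure_lt_top.ne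
  have h2 : ∫ z in K, ‖u k z‖ ≤ ∫ z in K, (t / 2 + 1 / (2 * t) * ‖u k z‖ ^ 2) := by
    refine setIntegral_mono_on (((h.cont k).mono hK).norm.integrableOn_compact hc)
      (hi.add ((intOn_sq (h.cont k) hK hc).const_mul _)) hc.measurableSet fun z _ => ?_
    have h3 : 0 ≤ (t - ‖u k z‖) ^ 2 / (2 * t) := by positivity
    have e : (t - ‖u k z‖) ^ 2 / (2 * t) = t / 2 + 1 / (2 * t) * ‖u k z‖ ^ 2 - ‖u k z‖ := by
      field_simp; ring
    linarith
  rw [integral_add hi ((intOn_sq (h.cont k) hK hc).const_mul _), integral_const_mul,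
    setIntegral_const, smul_eq_mul, ← hm] at h2
  have h4 : 1 / (2 * t) * ∫ z in K, ‖u k z‖ ^ 2 < ε / 2 := by
    rw [one_div, inv_mul_lt_iff₀ (by positivity)]; linarith
  have h5 : m * (t / 2) ≤ ε / 2 := by
    have : m * t ≤ ε := by
      rw [ht, mul_div_assoc', div_le_iff₀ (by positivity)]; nlinarith
    linarith
  linarith

/-- change of variables -/
theorem L0.comp (h : L0 V u) {T S : Cn n → Cn n} (hV : IsOpen V) (hT : ContinuousOn T U)
    (hTU : MapsTo T U V) (hS : ContDiffOn ℝ 1 S V) (hST : ∀ z ∈ U, S (T z) = z) :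
    L0 U fun k z => u k (T z) := by
  refine ⟨fun k => (h.cont k).comp hT hTU, fun K hK hc => ?_⟩
  have hc' : IsCompact (T '' K) := hc.image_of_continuousOn (hT.mono hK)
  have hK' : T '' K ⊆ V := by rintro _ ⟨z, hz, rfl⟩; exact hTU (hK hz)
  have hd : ContinuousOn (fun y => |(fderiv ℝ S y).det|) V :=
    (ContinuousLinearMap.continuous_det.comp_continuousOn
      (hS.continuousOn_fderiv_of_isOpen hV le_rfl)).abs
  obtain ⟨C, hC⟩ := hc'.exists_bound_of_continuousOn (hd.mono hK')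
  have h1 := (h.lim _ hK' hc').const_mul C
  rw [mul_zero] at h1
  refine squeeze_zero (fun k => integral_nonneg fun z => by positivity) (fun k => ?_) h1
  have him : S '' (T '' K) = K := by
    rw [image_image]
    exact (image_congr fun z hz => hST z (hK hz)).trans (image_id' K)
  have hinj : InjOn S (T '' K) := by
    rintro _ ⟨z, hz, rfl⟩ _ ⟨z', hz', rfl⟩ e
    rw [hST z (hK hz), hST z' (hK hz')] at e
    rw [e]
  have h2 := integral_image_eq_integral_abs_det_fderiv_smul (volume : Measure (Cn n))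
    hc'.measurableSet (f := S) (f' := fderiv ℝ S) (fun y hy =>
      ((hS.contDiffAt (hV.mem_nhds (hK' hy))).differentiableAt
        one_ne_zero).hasFDerivAt.hasFDerivWithinAt) hinj (fun z => ‖u k (T z)‖ ^ 2)
  rw [him] at h2
  rw [h2, ← integral_const_mul]
  have e : ∀ y ∈ T '' K, |(fderiv ℝ S y).det| • ‖u k (T (S y))‖ ^ 2 =
      |(fderiv ℝ S y).det| * ‖u k y‖ ^ 2 := by
    rintro _ ⟨z, hz, rfl⟩
    rw [hST z (hK hz), smul_eq_mul]
  rw [setIntegral_congr_fun hc'.measurableSet e]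
  refine setIntegral_mono_on (((hd.mono hK').mul
    (((h.cont k).mono hK').norm.pow 2)).integrableOn_compact hc')
    ((intOn_sq (h.cont k) hK' hc').const_mul C) hc'.measurableSet fun y hy => ?_
  exact mul_le_mul_of_nonneg_right ((le_abs_self _).trans (hC y hy)) (by positivity)

section sc

variable [NormedSpace ℂ W] [NormedSpace ℂ W']

theorem L0.smul (h : L0 U u) {c : Cn n → ℂ} (hc : ContinuousOn c U) :
    L0 U fun k z => c z • u k z := by
  refine h.of_le (fun k => hc.smul (h.cont k)) fun K hK hK' => ?_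
  obtain ⟨C, hC⟩ := hK'.exists_bound_of_continuousOn (hc.mono hK)
  exact ⟨C, fun k z hz => by
    rw [norm_smul]; exact mul_le_mul_of_nonneg_right (hC z hz) (norm_nonneg _)⟩

theorem L0.clm (h : L0 U u) (L : W →L[ℂ] W') : L0 U fun k z => L (u k z) :=
  h.of_le (fun k => L.continuous.comp_continuousOn (h.cont k)) fun _ _ _ =>
    ⟨‖L‖, fun _ _ _ => L.le_opNorm _⟩

end sc

theorem L0.ac {H : Type*} [NormedAddCommGroup H] [InnerProductSpace ℂ H] {ι κ : Type*}
    [Fintype κ] {u : ℕ → Cn n → κ → H} (h : ∀ p, L0 U fun k z => u k z p)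
    {N : Cn n → Matrix ι κ ℂ} (hN : ∀ r p, ContinuousOn (fun z => N z r p) U) (r : ι) :
    L0 U fun k z => ac (N z) (u k z) r :=
  L0.sum Finset.univ fun p _ => (h p).smul (hN r p)

/-! ### integration by parts -/

theorem sm_cut {ρ f : Cn n → ℂ} (hU : IsOpen U) (hρ : ContDiff ℝ ∞ ρ) (hs : tsupport ρ ⊆ U)
    (hf : ContDiffOn ℝ ∞ f U) : ContDiff ℝ ∞ fun z => ρ z * f z := by
  refine contDiff_iff_contDiffAt.2 fun z => ?_
  by_cases hz : z ∈ tsupport ρ
  · exact hρ.contDiffAt.mul (hf.contDiffAt (hU.mem_nhds (hs hz)))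
  · refine (contDiffAt_const (c := (0 : ℂ))).congr_of_eventuallyEq ?_
    filter_upwards [notMem_tsupport_iff_eventuallyEq.1 hz] with y hy
    simp [hy]

theorem ts_wd (ρ : Cn n → ℂ) (s : WI n) : tsupport (wd s ρ) ⊆ tsupport ρ := by
  refine closure_minimal (fun z hz => ?_) (isClosed_tsupport ρ)
  by_contra h
  exact hz ((wd_congr (notMem_tsupport_iff_eventuallyEq.1 h) s).trans (wd_const 0 z s))

theorem int_cut {ρ f : Cn n → ℂ} (hU : IsOpen U) (hρ : ContDiff ℝ ∞ ρ) (hc : HasCompactSupport ρ)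
    (hs : tsupport ρ ⊆ U) (hf : ContDiffOn ℝ ∞ f U) : Integrable fun z => ρ z * f z :=
  (sm_cut hU hρ hs hf).continuous.integrable_of_hasCompactSupport hc.mul_right

theorem parts {ρ f : Cn n → ℂ} (hU : IsOpen U) (hρ : ContDiff ℝ ∞ ρ) (hc : HasCompactSupport ρ)
    (hs : tsupport ρ ⊆ U) (hf : ContDiffOn ℝ ∞ f U) (s : WI n) :
    ∫ z, ρ z * wd s f z = -∫ z, wd s ρ z * f z := by
  have h0 := T223.Cov.int_wd_zero volume (sm_cut hU hρ hs hf) hc.mul_right s
  have e : ∀ z, wd s (fun z => ρ z * f z) z = wd s ρ z * f z + ρ z * wd s f z := by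
    intro z
    by_cases hz : z ∈ tsupport ρ
    · exact wd_mul (hρ.differentiable (by simp) z)
        ((hf.contDiffAt (hU.mem_nhds (hs hz))).differentiableAt (by simp)) s
    · have h1 : (fun z => ρ z * f z) =ᶠ[𝓝 z] fun _ => 0 := by
        filter_upwards [notMem_tsupport_iff_eventuallyEq.1 hz] with y hy
        simp [hy]
      rw [wd_congr h1, wd_const, image_eq_zero_of_notMem_tsupport hz,
        image_eq_zero_of_notMem_tsupport fun h => hz (ts_wd ρ s h)]
      simp
  simp_rw [e] at h0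
  rw [integral_add (int_cut hU (T223.Cov.contDiff_wd hρ s) (T223.Cov.hcs_wd hc s)
    ((ts_wd ρ s).trans hs) hf) (int_cut hU hρ hc hs (contDiffOn_wd hU hf s))] at h0
  linear_combination h0

/-- a smooth `L²_loc` limit of divergence free fields is divergence free -/
theorem L0.div_zero {ι : Type*} [Fintype ι] (hU : IsOpen U) (d : ι → WI n)
    {w : ℕ → ι → Cn n → ℂ} {s : ι → Cn n → ℂ} (hw : ∀ k b, ContDiffOn ℝ ∞ (w k b) U)
    (hs : ∀ b, ContDiffOn ℝ ∞ (s b) U) (h : ∀ b, L0 U fun k z => w k b z - s b z)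
    (h0 : ∀ k, ∀ z ∈ U, ∑ b, wd (d b) (w k b) z = 0) {z : Cn n} (hz : z ∈ U) :
    ∑ b, wd (d b) (s b) z = 0 := by
  have hg : ContDiffOn ℝ ∞ (fun z => ∑ b, wd (d b) (s b) z) U :=
    ContDiffOn.sum fun b _ => contDiffOn_wd hU (hs b) _
  have key : ∀ᵐ z, z ∈ U → ∑ b, wd (d b) (s b) z = 0 := by
    refine hU.ae_eq_zero_of_integral_contDiff_smul_eq_zero
      (hg.continuousOn.locallyIntegrableOn hU.measurableSet) fun χ hχ hc hsub => ?_
    have hρ : ContDiff ℝ ∞ (cu χ) := Complex.ofRealCLM.contDiff.comp hχ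
    have hts : tsupport (cu χ) ⊆ tsupport χ :=
      closure_mono fun y hy h => hy (by simp [cu, h])
    have hρc : HasCompactSupport (cu χ) := hc.of_isClosed_subset (isClosed_tsupport _) hts
    have hρs := hts.trans hsub
    have hI : ∀ {f : ι → Cn n → ℂ}, (∀ b, ContDiffOn ℝ ∞ (f b) U) →
        ∫ z, cu χ z * ∑ b, wd (d b) (f b) z = -∑ b, ∫ z, wd (d b) (cu χ) z * f b z := by
      intro f hf
      simp_rw [Finset.mul_sum]
      rw [integral_finsetSum _ fun b _ => int_cut hU hρ hρc hρs (contDiffOn_wd hU (hf b) _),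
        ← Finset.sum_neg_distrib]
      exact Finset.sum_congr rfl fun b _ => parts hU hρ hρc hρs (hf b) _
    have hz0 : ∀ k, ∫ z, cu χ z * ∑ b, wd (d b) (w k b) z = 0 := fun k => by
      refine integral_eq_zero_of_ae (Eventually.of_forall fun y => ?_)
      by_cases hy : y ∈ U
      · simp [h0 k y hy]
      · simp [image_eq_zero_of_notMem_tsupport fun h => hy (hρs h)]
    have hk : ∀ k, ∫ z, cu χ z * ∑ b, wd (d b) (s b) z =
        ∑ b, ∫ z in tsupport χ, wd (d b) (cu χ) z • (w k b z - s b z) := fun k => by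
      have h1 := hI (hw k)
      rw [hz0 k] at h1
      rw [hI hs]
      have h2 : ∀ b, ∫ z in tsupport χ, wd (d b) (cu χ) z • (w k b z - s b z) =
          (∫ z, wd (d b) (cu χ) z * w k b z) - ∫ z, wd (d b) (cu χ) z * s b z := fun b => by
        have hi := fun {f : Cn n → ℂ} (hf : ContDiffOn ℝ ∞ f U) =>
          int_cut hU (T223.Cov.contDiff_wd hρ (d b)) (T223.Cov.hcs_wd hρc _)
            ((ts_wd _ _).trans hρs) hf
        rw [← integral_sub (hi (hw k b)) (hi (hs b)), setIntegral_eq_integral_of_forall_compl_eq_zero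
          fun y hy => by
            rw [image_eq_zero_of_notMem_tsupport fun h => hy (hts (ts_wd _ _ h)), zero_smul]]
        simp only [smul_eq_mul, mul_sub]
      simp_rw [h2]
      rw [Finset.sum_sub_distrib]
      linear_combination -h1
    have hlim : Tendsto (fun k => ∑ b, ∫ z in tsupport χ,
        wd (d b) (cu χ) z • (w k b z - s b z)) atTop (𝓝 (∑ _b : ι, 0)) := by
      refine tendsto_finsetSum _ fun b _ => ?_
      refine squeeze_zero_norm (fun k => norm_integral_le_integral_norm _) ?_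
      exact ((h b).smul (T223.Cov.contDiff_wd hρ (d b)).continuous.continuousOn).l1 hsub hc
    simp_rw [← hk] at hlim
    have := tendsto_nhds_unique tendsto_const_nhds hlim
    simpa [cu] using this
  exact Measure.eqOn_open_of_ae_eq (μ := volume) (g := fun _ => 0)
    ((ae_restrict_iff' hU.measurableSet).2 key) hU hg.continuousOn continuousOn_const hz

/-! ### closed forms -/

theorem tau_eq_wdg (C : Mr n q) : tau C = wdg fun k b => C b k := by
  funext S
  unfold tau wdg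
  rw [Matrix.mulVec_single_one]
  have hu : (Finset.univ : FI q).card = q := by simp
  by_cases h : S.card = q
  · have h2 : ((Finset.univ : FI q).orderEmbOfFin hu : Fin q → Fin q) = id :=
      (Finset.orderEmbOfFin_unique hu (fun _ => Finset.mem_univ _) strictMono_id).symm
    rw [dif_pos h, Matrix.col, Matrix.transpose_apply, GamR_eq C h hu, ← Matrix.det_transpose, h2]
    rfl
  · rw [dif_neg h, Matrix.col, Matrix.transpose_apply, GamR_of_ne C (by rwa [hu])]

theorem sym_anti (h : Fin n → Fin n → ℂ) (hs : ∀ b c, h b c = h c b) :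
    ∑ b, ∑ c, h b c • (eW (ep b) * eW (ep c) : Matrix (FI n) (FI n) ℂ) = 0 := by
  set X := ∑ b, ∑ c, h b c • (eW (ep b) * eW (ep c) : Matrix (FI n) (FI n) ℂ) with hX
  have h1 : X + X = 0 := by
    nth_rewrite 2 [hX]
    rw [Finset.sum_comm, hX, ← Finset.sum_add_distrib]
    refine Finset.sum_eq_zero fun b _ => ?_
    rw [← Finset.sum_add_distrib]
    refine Finset.sum_eq_zero fun c _ => ?_
    rw [hs c b, ← smul_add, eW_anti, smul_zero]
  rw [← two_smul ℂ] at h1
  exact (smul_eq_zero.1 h1).resolve_left two_ne_zero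

theorem eW_th (f : Cn n → ℂ) (T : Cn n → FI n → ℂ) : (fun w => eW (th f w) *ᵥ T w) =
    fun w => ∑ c, wd (false, c) f w • (eW (ep c) *ᵥ T w) := by
  funext w
  rw [eW_eq_sum, Matrix.sum_mulVec]
  exact Finset.sum_congr rfl fun c _ => Matrix.smul_mulVec _ _ _

theorem sm_mulVec (N : Matrix (FI n) (FI n) ℂ) {T : Cn n → FI n → ℂ} {z : Cn n}
    (hT : ContDiffAt ℝ ∞ T z) : ContDiffAt ℝ ∞ (fun w => N *ᵥ T w) z :=
  contDiffAt_pi.2 fun I => ContDiffAt.sum (s := Finset.univ) (f := fun J w => N I J * T w J)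
    fun J _ => contDiffAt_const.mul (contDiffAt_pi.1 hT J)

theorem sm_step {f : Cn n → ℂ} {T : Cn n → FI n → ℂ} {z : Cn n} (hf : ContDiffAt ℝ ∞ f z)
    (hT : ContDiffAt ℝ ∞ T z) : ContDiffAt ℝ ∞ (fun w => eW (th f w) *ᵥ T w) z := by
  rw [eW_th]
  exact ContDiffAt.sum fun c _ => (contDiffAt_wd hf _).smul (sm_mulVec _ hT)

/-- `∂ (∂f ∧ T) = 0` if `∂ T = 0` -/
theorem cl_step {f : Cn n → ℂ} {T : Cn n → FI n → ℂ} {z : Cn n} (hf : ContDiffAt ℝ ∞ f z)
    (hT : ContDiffAt ℝ ∞ T z) (h0 : ∑ b, eW (ep b) *ᵥ wd (false, b) T z = 0) :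
    ∑ b, eW (ep b) *ᵥ wd (false, b) (fun w => eW (th f w) *ᵥ T w) z = 0 := by
  have hd : ∀ c, DifferentiableAt ℝ (wd (false, c) f) z := fun c =>
    (contDiffAt_wd hf _).differentiableAt (by simp)
  have hT' : DifferentiableAt ℝ T z := hT.differentiableAt (by simp)
  have hm : ∀ c, DifferentiableAt ℝ (fun w => eW (ep c) *ᵥ T w) z := fun c =>
    (sm_mulVec _ hT).differentiableAt (by simp)
  have e : ∀ b, eW (ep b) *ᵥ wd (false, b) (fun w => eW (th f w) *ᵥ T w) z =
      (∑ c, wd (false, b) (wd (false, c) f) z • (eW (ep b) * eW (ep c))) *ᵥ T z -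
        ∑ c, wd (false, c) f z • (eW (ep c) *ᵥ (eW (ep b) *ᵥ wd (false, b) T z)) := by
    intro b
    rw [eW_th, wd_sum _ fun c _ => (hd c).fun_smul (hm c), Matrix.mulVec_sum, Matrix.sum_mulVec,
      ← Finset.sum_sub_distrib]
    refine Finset.sum_congr rfl fun c _ => ?_
    rw [wd_smul (hd c) (hm c), wd_const_mulVec _ hT', Matrix.mulVec_add, Matrix.mulVec_smul,
      Matrix.mulVec_smul, Matrix.smul_mulVec, Matrix.mulVec_mulVec, Matrix.mulVec_mulVec,
      Matrix.mulVec_mulVec, eq_neg_of_add_eq_zero_left (eW_anti (R := ℂ) (ep b) (ep c))]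
    simp only [Matrix.neg_mulVec, smul_neg, sub_eq_add_neg]
  simp_rw [e]
  rw [Finset.sum_sub_distrib, ← Matrix.sum_mulVec, sym_anti _ fun b c => wd_comm hf _ _,
    Matrix.zero_mulVec, Finset.sum_comm]
  simp_rw [← Finset.smul_sum, ← Matrix.mulVec_sum, h0]
  simp

/-- `∂f_1 ∧ … ∧ ∂f_q` is smooth and closed -/
theorem cl_wdg : ∀ {q : ℕ} {f : Fin q → Cn n → ℂ} {z : Cn n}, (∀ k, ContDiffAt ℝ ∞ (f k) z) →
    ContDiffAt ℝ ∞ (fun w => wdg fun k => th (f k) w) z ∧
      ∑ b, eW (ep b) *ᵥ wd (false, b) (fun w => wdg fun k => th (f k) w) z = 0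
  | 0, f, z, _ => by
    simp only [Plk.wdg_nil, wd_const]
    exact ⟨contDiffAt_const, by simp⟩
  | q + 1, f, z, hf => by
    simp only [Plk.wdg_succ]
    obtain ⟨h1, h2⟩ := cl_wdg (f := fun k => f k.succ) fun k => hf k.succ
    exact ⟨sm_step (hf 0) h1, cl_step (hf 0) h1 h2⟩

end

end Crest.Agent.X261.Fam.Ex
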