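import Crest.Agent.X261.Fam.ExpA
import Crest.Agent.X261.Fam.Defs
import Crest.Agent.X261.Rel.Defs

/-!
# Row 261, package FAM, part Exp (helper13), file B: properties of `L²_loc` limits of `∂f_k ∧ da`

* flat: `sm_Sl`, `Sl_comp`, `Sl_aff`, `Sl_deg`, `Sl_hor`, `cl_lim`;
* `tau_eq_dW`, `Sl_eq_tw`; `LimD` = holomorphic `a`, smooth `f k`, holomorphic `S`, `Lm`;
* `LimD.toLim`, `LimD.ofLim` : the bridge to `Rel.Lim`;
* `LimD.tr`, `.aff`, `.deg`, `.hor`, `.closed`, `.uniq` and the same for `IsMin`.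
-/

set_option autoImplicit false
set_option linter.unusedSectionVars false

open Set Filter Topology MeasureTheory Matrix
open scoped ComplexConjugate InnerProductSpace ContDiff

namespace Crest.Agent.X261.Fam

open Crest.Agent.R275.Geo Crest.Agent.R275.EDR890 Crest.Agent.R275.Core144
open Crest.Agent.R275.OmT75 (dl dj)
open Crest.Agent.R273.UCov_914 Crest.Agent.R273.Kah_333
open Crest.Agent.R273.Fock_243
open Crest.Agent.X261.Top (wdg dW HolV)
open Crest.Agent.X261.Gauss (mv dV)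
open Crest.Agent.X261.Rel (aV)
open Crest.Agent.X261.Rel.Act (Rep Act)

noncomputable section

variable {n q : ℕ} {H H' : Type*} [NormedAddCommGroup H] [InnerProductSpace ℂ H]
  [NormedAddCommGroup H'] [InnerProductSpace ℂ H']

namespace Ex

variable {U : Set (Cn n)} {a a' : Cn n → Cn q} {F : Cn n → H} {z : Cn n}

theorem wd_false {W : Type*} [NormedAddCommGroup W] [NormedSpace ℂ W] (b : Fin n) (f : Cn n → W)
    (z : Cn n) : wd (false, b) f z = dj b f z := by
  simp [wd, wdL, dj, sub_eq_add_neg]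

theorem sm_of_hol {W : Type*} [NormedAddCommGroup W] [NormedSpace ℂ W] [CompleteSpace W]
    {f : Cn n → W} (hU : IsOpen U) (hf : DifferentiableOn ℂ f U) : ContDiffOn ℝ ∞ f U :=
  ((R266.SCV.contDiffOn_omega_of_differentiableOn hU hf).of_le le_top).restrict_scalars ℝ

theorem sm_co (ha : ContDiffAt ℝ ∞ a z) (h : Fin q) : ContDiffAt ℝ ∞ (fun w => a w h) z :=
  ((EuclideanSpace.proj h : Cn q →L[ℂ] ℂ).restrictScalars ℝ).contDiff.contDiffAt.comp z ha

theorem tau_Cf (a : Cn n → Cn q) (z : Cn n) :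
    tau (Cf a z) = wdg fun k => th (fun w => a w k) z := tau_eq_wdg _

theorem sm_tau (ha : ContDiffAt ℝ ∞ a z) : ContDiffAt ℝ ∞ (fun w => tau (Cf a w)) z := by
  simp only [tau_Cf]
  exact (cl_wdg (sm_co ha)).1

theorem cl_tau (ha : ContDiffAt ℝ ∞ a z) :
    ∑ b, eW (ep b) *ᵥ wd (false, b) (fun w => tau (Cf a w)) z = 0 := by
  simp only [tau_Cf]
  exact (cl_wdg (sm_co ha)).2

theorem sm_vI (ha : ContDiffAt ℝ ∞ a z) (I : FI n) (b : Fin n) :
    ContDiffAt ℝ ∞ (fun w => vI (Cf a w) I b) z :=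
  contDiffAt_pi.1 (sm_mulVec _ (sm_tau ha)) I

theorem sm_Sl (ha : ContDiffAt ℝ ∞ a z) (hF : ContDiffAt ℝ ∞ F z) (I : FI n) :
    ContDiffAt ℝ ∞ (fun w => Sl a F w I) z :=
  ContDiffAt.sum (s := Finset.univ) (f := fun b w => vI (Cf a w) I b • th F w b)
    fun b _ => (sm_vI ha I b).smul (contDiffAt_wd hF _)

theorem cont_Sl (hU : IsOpen U) (ha : ContDiffOn ℝ ∞ a U) (hF : ContDiffOn ℝ ∞ F U) (I : FI n) :
    ContinuousOn (fun w => Sl a F w I) U := fun _ hz =>
  (sm_Sl (ha.contDiffAt (hU.mem_nhds hz)) (hF.contDiffAt (hU.mem_nhds hz))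
    I).continuousAt.continuousWithinAt

/-- the transposed Jacobian matrix -/
def Jt (T : Cn n → Cn n) (z : Cn n) : Mt n :=
  Matrix.of fun b c => (fderiv ℂ T z (EuclideanSpace.single b 1)) c

theorem th_comp {F' : Cn n → H} {T : Cn n → Cn n} (hF : DifferentiableAt ℝ F (T z))
    (hT : DifferentiableAt ℂ T z) (he : F' =ᶠ[𝓝 z] fun w => F (T w)) :
    th F' z = ac (Jt T z) (th F (T z)) := by
  funext b
  exact (wd_congr he _).trans (wd_comp hF hT _)

theorem Cf_comp {T : Cn n → Cn n} (ha : ContDiffAt ℝ ∞ a (T z))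
    (hT : DifferentiableAt ℂ T z) (he : a' =ᶠ[𝓝 z] fun w => a (T w)) :
    Cf a' z = Jt T z * Cf a (T z) := by
  ext b h
  exact congrFun (th_comp (F := fun w => a w h) (F' := fun w => a' w h)
    ((sm_co ha h).differentiableAt (by simp)) hT (he.mono fun w hw => by simp only [hw])) b

theorem Sl_comp {F' : Cn n → H} {T : Cn n → Cn n} (ha : ContDiffAt ℝ ∞ a (T z))
    (hF : DifferentiableAt ℝ F (T z)) (hT : DifferentiableAt ℂ T z)
    (he : a' =ᶠ[𝓝 z] fun w => a (T w)) (he' : F' =ᶠ[𝓝 z] fun w => F (T w)) :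
    Sl a' F' z = ac (Gam (Jt T z)) (Sl a F (T z)) := by
  unfold Sl
  rw [th_comp hF hT he', Cf_comp ha hT he, ← ac_mul, vI_mul, ac_mul]

theorem th_aff {F' : Cn n → H'} (hF : DifferentiableAt ℝ F z) (L : H →L[ℂ] H') (c : H')
    (he : F' =ᶠ[𝓝 z] fun w => L (F w) + c) : th F' z = fun b => L (th F z b) := by
  funext b
  refine (wd_congr he _).trans ?_
  rw [wd_add (f := fun w => L (F w)) ((L.restrictScalars ℝ).differentiableAt.comp z hF)
    (differentiableAt_const c), wd_const, add_zero]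
  exact wd_clm hF L _

theorem Cf_aff (ha : ContDiffAt ℝ ∞ a z) (L : Mt q) (l : Fin q → ℂ)
    (he : ∀ᶠ w in 𝓝 z, ∀ k, a' w k = ∑ k', L k k' * a w k' + l k) : Cf a' z = Cf a z * Lᵀ := by
  ext b k
  have hd : ∀ k', DifferentiableAt ℝ (fun w => a w k') z := fun k' =>
    (sm_co ha k').differentiableAt (by simp)
  refine (wd_congr (g := fun w => ∑ k', L k k' * a w k' + l k) (he.mono fun w hw => hw k) _).trans ?_
  rw [wd_add (DifferentiableAt.fun_sum fun k' _ => (hd k').const_mul _) (differentiableAt_const _),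
    wd_const, add_zero, wd_sum _ fun k' _ => (hd k').const_mul _, Matrix.mul_apply]
  refine Finset.sum_congr rfl fun k' _ => ?_
  rw [mul_comm, Matrix.transpose_apply]
  exact wd_const_smul (L k k') (hd k') _

/-- affine changes of `a` and `F` -/
theorem Sl_aff {F' : Cn n → H'} (ha : ContDiffAt ℝ ∞ a z) (hF : DifferentiableAt ℝ F z)
    (L : Mt q) (l : Fin q → ℂ) (he : ∀ᶠ w in 𝓝 z, ∀ k, a' w k = ∑ k', L k k' * a w k' + l k)
    (P : H →L[ℂ] H') (c : H') (he' : F' =ᶠ[𝓝 z] fun w => P (F w) + c) (I : FI n) :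
    Sl a' F' z I = L.det • P (Sl a F z I) := by
  unfold Sl
  rw [th_aff hF P c he', Cf_aff ha L l he, vI_mul_right, Matrix.det_transpose, smul_ac, ac_clm]
  rfl

theorem vI_deg (C : Mr n q) {I : FI n} (hI : I.card ≠ q + 1) (b : Fin n) : vI C I b = 0 := by
  have h := (Plk.deg_wdg fun k b => C b k).eW (ep b) I hI
  rwa [← tau_eq_wdg] at h

theorem Sl_deg {I : FI n} (hI : I.card ≠ q + 1) : Sl a F z I = 0 := by
  unfold Sl ac
  exact Finset.sum_eq_zero fun b _ => by rw [vI_deg _ hI, zero_smul]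

theorem eW_vI (C : Mr n q) (k : Fin q) : eW (fun b => C b k) * vI C = 0 := by
  refine Matrix.ext_iff_mulVec.2 fun y => ?_
  rw [← Matrix.mulVec_mulVec, vI_mulVec, Matrix.mulVec_mulVec,
    eq_neg_of_add_eq_zero_left (eW_anti (R := ℂ) (fun b => C b k) y), Matrix.neg_mulVec,
    ← Matrix.mulVec_mulVec, tau_eq_wdg, Plk.eW_wdg_self (fun k b => C b k) k]
  simp

theorem Sl_hor (k : Fin q) : ac (eW fun b => Cf a z b k) (Sl a F z) = 0 := by
  unfold Sl
  rw [← ac_mul, eW_vI]
  funext I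
  simp [ac]

theorem Sl_scal (hF : DifferentiableAt ℝ F z) (L : H →L[ℂ] ℂ) (I : FI n) :
    L (Sl a F z I) = (eW (th (fun w => L (F w)) z) *ᵥ tau (Cf a z)) I := by
  rw [← vI_mulVec, th_aff hF L 0 (Eventually.of_forall fun w => (add_zero _).symm)]
  exact ac_clm L _ _ I

/-- smooth limits of closed forms are closed -/
theorem cl_lim (hU : IsOpen U) {T : ℕ → Cn n → FI n → ℂ} {T' : Cn n → FI n → ℂ}
    (hT : ∀ k, ContDiffOn ℝ ∞ (T k) U) (hT' : ContDiffOn ℝ ∞ T' U)
    (h : ∀ I, L0 U fun k z => T k z I - T' z I)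
    (h0 : ∀ k, ∀ z ∈ U, ∑ b, eW (ep b) *ᵥ wd (false, b) (T k) z = 0) (hz : z ∈ U) :
    ∑ b, eW (ep b) *ᵥ wd (false, b) T' z = 0 := by
  funext J
  have hs : ∀ {T : Cn n → FI n → ℂ}, ContDiffOn ℝ ∞ T U → ∀ b,
      ContDiffOn ℝ ∞ (fun w => (eW (ep b) *ᵥ T w) J) U := fun hT b w hw =>
    (contDiffAt_pi.1 (sm_mulVec _ (hT.contDiffAt (hU.mem_nhds hw))) J).contDiffWithinAt
  have he : ∀ {T : Cn n → FI n → ℂ}, ContDiffOn ℝ ∞ T U → ∀ w ∈ U,
      ∑ b, wd (false, b) (fun w => (eW (ep b) *ᵥ T w) J) w =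
        (∑ b, eW (ep b) *ᵥ wd (false, b) T w) J := fun hT w hw => by
    have h1 := hT.contDiffAt (hU.mem_nhds hw)
    rw [Finset.sum_apply]
    refine Finset.sum_congr rfl fun b _ => ?_
    rw [← wd_pi ((sm_mulVec _ h1).differentiableAt (by simp)),
      wd_const_mulVec _ (h1.differentiableAt (by simp))]
  rw [← he hT' z hz]
  refine L0.div_zero hU (fun b => (false, b)) (fun k => hs (hT k)) (hs hT') (fun b => ?_)
    (fun k w hw => by rw [he (hT k) w hw, h0 k w hw]; rfl) hz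
  refine (L0.ac (u := fun k z I => T k z I - T' z I) h (N := fun _ => eW (ep b))
    (fun _ _ => continuousOn_const) J).congr fun k w _ => ?_
  simp [ac, Matrix.mulVec, dotProduct, mul_sub, Finset.sum_sub_distrib]

theorem cont_Gam (I J : FI n) : Continuous fun B : Mt n => Gam B I J := by
  unfold Gam
  split_ifs
  · exact (continuous_id.matrix_submatrix _ _).matrix_det
  · exact continuous_const

end Ex

variable {X : Type} [TopologicalSpace X] {A : Atl n X} {G : Type} [Group G] {D : MonD A G}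
variable {a a' : D.cov G → Cn q} {f : ℕ → D.cov G → H} {S S' : A.ι → G → X → FI n → H}

namespace Ex

theorem Cf_eq_dV (a : D.cov G → Cn q) (i : A.ι) (v : G) (x : X) (k : Fin q) :
    (fun b => Cf (rd D a i v) (A.e i x) b k) = dV A i (aV D a i v) x k := by
  funext b
  exact wd_false _ _ _

theorem tau_eq_dW (a : D.cov G → Cn q) (i : A.ι) (v : G) (x : X) :
    tau (Cf (rd D a i v) (A.e i x)) = dW A i (fun y => a (D.pt i v y)) x := by
  rw [tau_eq_wdg]
  exact congrArg wdg (funext fun k => Cf_eq_dV a i v x k)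

theorem th_eq_dl (F : D.cov G → H) (i : A.ι) (v : G) (x : X) (b : Fin n) :
    th (rd D F i v) (A.e i x) b = dl A i b (aV D F i v) x := wd_false _ _ _

theorem hol_rd (ha : HolV (D.atl G) univ a) (i : A.ι) (v : G) :
    DifferentiableOn ℂ (rd D a i v) (A.e i).target :=
  (ha (i, v)).mono fun _ hz => ⟨hz, trivial⟩

theorem sm_rd (ha : HolV (D.atl G) univ a) (i : A.ι) (v : G) :
    ContDiffOn ℝ ∞ (rd D a i v) (A.e i).target := sm_of_hol (A.e i).open_target (hol_rd ha i v)

theorem sm_rd' {F : D.cov G → H} (hF : (D.atl G).Sm F) (i : A.ι) (v : G) :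
    ContDiffOn ℝ ∞ (rd D F i v) (A.e i).target := hF (i, v)

theorem rd_tr {W : Type*} (F : D.cov G → W) {i j : A.ι} (v : G) {x : X}
    (hx : x ∈ (A.e i).source ∩ (A.e j).source) {z : Cn n} (hz : z ∈ A.ov i j) :
    rd D F i v z = rd D F j (D.c i j x * v) (R275.OmT75.tr A i j z) := by
  have h1 := (A.e i).map_target hz.1
  unfold rd R275.OmT75.tr
  rw [(A.e j).left_inv hz.2, D.pt_eq v h1 hz.2, D.c_loc i j x hx _ ⟨h1, hz.2⟩, smul_eq_mul]

/-- transition law for `∂F ∧ da` -/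
theorem Sl_tr (ha : HolV (D.atl G) univ a) {F : D.cov G → H} (hF : (D.atl G).Sm F) {i j : A.ι}
    (v : G) {x : X} (hx : x ∈ (A.e i).source ∩ (A.e j).source) {z : Cn n} (hz : z ∈ A.ov i j) :
    Sl (rd D a i v) (rd D F i v) z = ac (Gam (Jm A i j ((A.e i).symm z))ᵀ)
      (Sl (rd D a j (D.c i j x * v)) (rd D F j (D.c i j x * v)) (R275.OmT75.tr A i j z)) := by
  have hT : R275.OmT75.tr A i j z ∈ (A.e j).target := (A.e j).map_source hz.2
  have hN := (A.e j).open_target.mem_nhds hT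
  have hO := (isOpen_ov i j).mem_nhds hz
  have e : (Jm A i j ((A.e i).symm z))ᵀ = Jt (R275.OmT75.tr A i j) z := by
    ext b c
    rw [Matrix.transpose_apply, Jm_apply, R275.OmT75.J_eq, (A.e i).right_inv hz.1]
    rfl
  rw [e]
  exact Sl_comp ((sm_rd ha j _).contDiffAt hN)
    (((sm_rd' hF j _).contDiffAt hN).differentiableAt (by simp)) (R275.OmT75.tr_diffAt hz)
    (mem_of_superset hO fun w hw => rd_tr a v hx hw)
    (mem_of_superset hO fun w hw => rd_tr F v hx hw)

/-- `S` is the holomorphic `L²_loc` limit of `∂ f_k ∧ da` -/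
structure LimD (D : MonD A G) (a : D.cov G → Cn q) (f : ℕ → D.cov G → H)
    (S : A.ι → G → X → FI n → H) : Prop where
  ha : HolV (D.atl G) univ a
  sm : ∀ k, (D.atl G).Sm (f k)
  hol : ∀ i v I, DifferentiableOn ℂ (fun z => S i v ((A.e i).symm z) I) (A.e i).target
  lm : Lm D a f S

namespace LimD

variable (h : LimD D a f S)
include h

theorem l0 (i : A.ι) (v : G) (I : FI n) : L0 (A.e i).target fun k z =>
    Sl (rd D a i v) (rd D (f k) i v) z I - S i v ((A.e i).symm z) I :=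
  ⟨fun k => (cont_Sl (A.e i).open_target (sm_rd h.ha i v) (sm_rd' (h.sm k) i v) I).sub
    (h.hol i v I).continuousOn, fun K hK hc => h.lm i v K hK hc I⟩

theorem deg (i : A.ι) (v : G) {x : X} (hx : x ∈ (A.e i).source) {I : FI n}
    (hI : I.card ≠ q + 1) : S i v x I = 0 := by
  have h1 := L0.eq_zero (F := fun z => S i v ((A.e i).symm z) I) (A.e i).open_target
    ((h.l0 i v I).neg.congr fun k z _ => by rw [Sl_deg hI]; simp) ((A.e i).map_source hx)
  rwa [(A.e i).left_inv hx] at h1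

theorem hor (i : A.ι) (v : G) {x : X} (hx : x ∈ (A.e i).source) (k : Fin q) :
    mv (eW (dV A i (aV D a i v) x k)) (S i v x) = 0 := by
  funext J
  have hc : ∀ r p, ContinuousOn (fun z => eW (fun b => Cf (rd D a i v) z b k) r p)
      (A.e i).target := fun r p => by
    have e : ∀ z, eW (fun b => Cf (rd D a i v) z b k) r p =
        ∑ b, Cf (rd D a i v) z b k * eW (ep b) r p := fun z => by
      rw [eW_eq_sum, Matrix.sum_apply]; rfl
    simp only [e]
    refine continuousOn_finsetSum _ fun b _ => ContinuousOn.mul (fun z hz => ?_) continuousOn_const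
    exact (contDiffAt_wd (sm_co ((sm_rd h.ha i v).contDiffAt
      ((A.e i).open_target.mem_nhds hz)) k) _).continuousAt.continuousWithinAt
  have h1 := L0.eq_zero
    (F := fun z => ac (eW fun b => Cf (rd D a i v) z b k) (S i v ((A.e i).symm z)) J)
    (A.e i).open_target ((L0.ac (u := fun k z I => Sl (rd D a i v) (rd D (f k) i v) z I -
      S i v ((A.e i).symm z) I) (h.l0 i v) hc J).neg.congr fun k z _ => by
        rw [← Pi.sub_def, ac_sub, Sl_hor]; simp) ((A.e i).map_source hx)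
  rw [(A.e i).left_inv hx, Cf_eq_dV] at h1
  exact h1

theorem tr {i j : A.ι} (v : G) {x : X} (hx : x ∈ (A.e i).source ∩ (A.e j).source) :
    S i v x = mv (Gam (Jm A i j x)ᵀ) (S j (D.c i j x * v) x) := by
  funext J
  have hc : ∀ r p, ContinuousOn (fun z => Gam (Jm A i j ((A.e i).symm z))ᵀ r p) (A.ov i j) :=
    fun r p => (cont_Gam r p).comp_continuousOn (continuousOn_pi.2 fun b => continuousOn_pi.2
      fun c => (R275.OmT75.J_smooth i j c b).continuousOn)
  have hm : MapsTo (R275.OmT75.tr A i j) (A.ov i j) (A.ov j i) := fun z hz =>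
    ⟨(A.e j).map_source hz.2, by
      unfold R275.OmT75.tr; rw [(A.e j).left_inv hz.2]; exact (A.e i).map_target hz.1⟩
  have h2 := fun I => ((h.l0 j (D.c i j x * v) I).mono (V := A.ov j i) fun _ hz => hz.1).comp
    (S := R275.OmT75.tr A j i) (isOpen_ov j i) (R275.OmT75.tr_analytic i j).continuousOn hm
    ((sm_of_hol (isOpen_ov j i) (A.holo j i)).of_le (by simp)) fun z hz => by
      unfold R275.OmT75.tr; rw [(A.e j).left_inv hz.2, (A.e i).right_inv hz.1]
  have h1 := L0.eq_zero (F := fun z => S i v ((A.e i).symm z) J -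
      ac (Gam (Jm A i j ((A.e i).symm z))ᵀ) (S j (D.c i j x * v) ((A.e i).symm z)) J)
    (isOpen_ov i j) (((L0.ac h2 hc J).sub ((h.l0 i v J).mono fun _ hz => hz.1)).congr
      fun k z hz => by
        have e : (A.e j).symm (R275.OmT75.tr A i j z) = (A.e i).symm z := (A.e j).left_inv hz.2
        rw [← Pi.sub_def, ac_sub, ← Sl_tr h.ha (h.sm k) v hx hz, e]
        simp) (mem_ov hx)
  rw [(A.e i).left_inv hx.1] at h1
  exact sub_eq_zero.1 h1

/-- comparison of two limits under affine changes of `a` and `f` -/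
theorem aff {f' : ℕ → D.cov G → H'} {S' : A.ι → G → X → FI n → H'} (h' : LimD D a' f' S')
    {i : A.ι} {v v' : G} (L : Mt q) (l : Fin q → ℂ) (P : H →L[ℂ] H') (c : ℕ → H')
    (ha : ∀ y ∈ (A.e i).source, ∀ k, a' (D.pt i v' y) k = ∑ k', L k k' * a (D.pt i v y) k' + l k)
    (hf : ∀ k, ∀ y ∈ (A.e i).source, f' k (D.pt i v' y) = P (f k (D.pt i v y)) + c k)
    {x : X} (hx : x ∈ (A.e i).source) (I : FI n) : S' i v' x I = L.det • P (S i v x I) := by
  have h1 := L0.eq_zero (F := fun z => S' i v' ((A.e i).symm z) I -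
      L.det • P (S i v ((A.e i).symm z) I)) (A.e i).open_target
    (((((h.l0 i v I).clm P).smul (c := fun _ => L.det) continuousOn_const).sub
      (h'.l0 i v' I)).congr fun k z hz => by
        have hN := (A.e i).open_target.mem_nhds hz
        rw [Sl_aff (a' := rd D a' i v') (F' := rd D (f' k) i v') ((sm_rd h.ha i v).contDiffAt hN)
          (((sm_rd' (h.sm k) i v).contDiffAt hN).differentiableAt (by simp)) L l
          (mem_of_superset hN fun w hw => ha _ ((A.e i).map_target hw)) P (c k)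
          (mem_of_superset hN fun w hw => hf k _ ((A.e i).map_target hw)) I, map_sub, smul_sub]
        abel) ((A.e i).map_source hx)
  rw [(A.e i).left_inv hx] at h1
  exact sub_eq_zero.1 h1

theorem closed (i : A.ι) (v : G) {x : X} (hx : x ∈ (A.e i).source) :
    ∑ b, mv (eW (ep b)) (fun I => dl A i b (fun y => S i v y I) x) = 0 := by
  funext J
  refine ext_inner_left ℂ fun ξ => ?_
  set L : H →L[ℂ] ℂ := innerSL ℂ ξ with hL
  have hU := (A.e i).open_target
  have hz := (A.e i).map_source hx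
  have hs : ContDiffOn ℝ ∞ (fun z I => L (S i v ((A.e i).symm z) I)) (A.e i).target :=
    contDiffOn_pi.2 fun I => sm_of_hol hU (L.differentiable.comp_differentiableOn (h.hol i v I))
  have hf : ∀ k, ∀ z ∈ (A.e i).target, ContDiffAt ℝ ∞ (fun w => L (rd D (f k) i v w)) z :=
    fun k z hz => (L.restrictScalars ℝ).contDiff.contDiffAt.comp z
      ((sm_rd' (h.sm k) i v).contDiffAt (hU.mem_nhds hz))
  have ha : ∀ z ∈ (A.e i).target, ContDiffAt ℝ ∞ (rd D a i v) z := fun z hz =>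
    (sm_rd h.ha i v).contDiffAt (hU.mem_nhds hz)
  have h1 := cl_lim hU
    (T := fun k z => eW (th (fun w => L (rd D (f k) i v w)) z) *ᵥ tau (Cf (rd D a i v) z))
    (fun k z hz => (sm_step (hf k z hz) (sm_tau (ha z hz))).contDiffWithinAt) hs
    (fun I => ((h.l0 i v I).clm L).congr fun k z hz => by
      rw [map_sub, Sl_scal (((sm_rd' (h.sm k) i v).contDiffAt (hU.mem_nhds hz)).differentiableAt
        (by simp))])
    (fun k z hz => cl_step (hf k z hz) (sm_tau (ha z hz)) (cl_tau (ha z hz))) hz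
  have h2 := congrFun h1 J
  change L _ = L 0
  rw [map_zero, Finset.sum_apply, map_sum]
  rw [Finset.sum_apply] at h2
  refine Eq.trans (Finset.sum_congr rfl fun b _ => ?_) h2
  refine (ac_clm L _ _ J).trans (Finset.sum_congr rfl fun I _ => ?_)
  rw [wd_pi ((hs.contDiffAt (hU.mem_nhds hz)).differentiableAt (by simp)),
    wd_clm (((h.hol i v I).differentiableAt (hU.mem_nhds hz)).restrictScalars ℝ), wd_false]
  rfl

/-- two limits of `L²_loc`-close sequences agree -/
theorem uniq {f' : ℕ → D.cov G → H} (h' : LimD D a f' S') {i : A.ι} {v : G} {I : FI n}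
    (hd : ∀ Kc ⊆ (A.e i).target, IsCompact Kc → Tendsto (fun k => ∫ z in Kc,
      ‖Sl (rd D a i v) (rd D (f k) i v) z I - Sl (rd D a i v) (rd D (f' k) i v) z I‖ ^ 2)
      atTop (𝓝 0)) {x : X} (hx : x ∈ (A.e i).source) : S i v x I = S' i v x I := by
  have hU := (A.e i).open_target
  have h0 : L0 (A.e i).target fun k z =>
      Sl (rd D a i v) (rd D (f k) i v) z I - Sl (rd D a i v) (rd D (f' k) i v) z I :=
    ⟨fun k => (cont_Sl hU (sm_rd h.ha i v) (sm_rd' (h.sm k) i v) I).sub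
      (cont_Sl hU (sm_rd h.ha i v) (sm_rd' (h'.sm k) i v) I), hd⟩
  have h1 := L0.eq_zero (F := fun z => S i v ((A.e i).symm z) I - S' i v ((A.e i).symm z) I) hU
    (((h0.sub (h.l0 i v I)).add (h'.l0 i v I)).congr fun k z _ => by abel) ((A.e i).map_source hx)
  rw [(A.e i).left_inv hx] at h1
  exact sub_eq_zero.1 h1

end LimD

end Ex

open Ex

/-! ### minimal forms -/

variable {K : Kah A} {M : Subgroup G} {r : Rep M H} {b : M → H}

theorem IsMin.limD (h : IsMin D K M a r b S) (ha : HolV (D.atl G) univ a) :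
    ∃ f : ℕ → D.cov G → H, (∀ k, Eqv D M r b (f k)) ∧ LimD D a f S :=
  let ⟨f, h1, h2⟩ := h.lim
  ⟨f, h1, ha, fun k => (h1 k).sm, h.hol, h2⟩

theorem Ex.LimD.eqv (h : LimD D a f S) (hi : ∀ m ∈ M, ∀ e, a (m • e) = a e)
    (hf : ∀ k, Eqv D M r b (f k)) (m : M) (i : A.ι) (v : G) {x : X} (hx : x ∈ (A.e i).source)
    (I : FI n) : S i (v * (m : G)⁻¹) x I = r.π m (S i v x I) := by
  have h1 := h.aff h (v := v) (v' := v * (m : G)⁻¹) 1 0
    (r.π m).toLinearIsometry.toContinuousLinearMap (fun _ => b m)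
    (fun y _ k => by rw [← D.deck_pt, hi m m.2]; simp [Matrix.one_apply])
    (fun k y _ => by rw [← D.deck_pt, (hf k).eqv]; rfl) hx I
  rw [Matrix.det_one, one_smul] at h1
  exact h1

namespace IsMin

variable (h : IsMin D K M a r b S) (hd : Dat D M a)
include h hd

theorem tr : ∀ i j v, ∀ x ∈ (A.e i).source ∩ (A.e j).source,
    S i v x = mv (Gam (Jm A i j x)ᵀ) (S j (D.c i j x * v) x) :=
  let ⟨_, _, h2⟩ := h.limD hd.hol
  fun _ _ v _ hx => h2.tr v hx

theorem eqv : ∀ (m : M) i v, ∀ x ∈ (A.e i).source, ∀ I,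
    S i (v * (m : G)⁻¹) x I = r.π m (S i v x I) :=
  let ⟨_, h1, h2⟩ := h.limD hd.hol
  fun m i v _ hx I => h2.eqv hd.inv h1 m i v hx I

theorem deg : ∀ i v, ∀ x ∈ (A.e i).source, ∀ I : FI n, I.card ≠ q + 1 → S i v x I = 0 :=
  let ⟨_, _, h2⟩ := h.limD hd.hol
  fun i v _ hx _ hI => h2.deg i v hx hI

theorem hor : ∀ i v, ∀ x ∈ (A.e i).source, ∀ k,
    mv (eW (dV A i (aV D a i v) x k)) (S i v x) = 0 :=
  let ⟨_, _, h2⟩ := h.limD hd.hol
  fun i v _ hx k => h2.hor i v hx k

theorem closed : ∀ i v, ∀ x ∈ (A.e i).source,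
    ∑ b, mv (eW (ep b)) (fun I => dl A i b (fun y => S i v y I) x) = 0 :=
  let ⟨_, _, h2⟩ := h.limD hd.hol
  fun i v _ hx => h2.closed i v hx

end IsMin

/-! ### the bridge to `Rel.Lim` -/

section br

variable {H : Type} [NormedAddCommGroup H] [InnerProductSpace ℂ H]
variable {f : ℕ → D.cov G → H} {S : A.ι → G → X → FI n → H}

theorem Ex.Sl_eq_tw (a : D.cov G → Cn q) (F : D.cov G → H) (i : A.ι) (v : G) (x : X) (I : FI n) :
    Sl (rd D a i v) (rd D F i v) (A.e i x) I = Rel.tw D a F i v x I := by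
  unfold Sl ac Rel.tw
  refine Finset.sum_congr rfl fun b _ => ?_
  rw [th_eq_dl, vI, Matrix.of_apply, tau_eq_dW]
  rfl

theorem Ex.Sl_eq_tw' (a : D.cov G → Cn q) (F : D.cov G → H) {i : A.ι} (v : G) {z : Cn n}
    (hz : z ∈ (A.e i).target) (I : FI n) :
    Sl (rd D a i v) (rd D F i v) z I = Rel.tw D a F i v ((A.e i).symm z) I := by
  rw [← Sl_eq_tw, (A.e i).right_inv hz]

theorem Ex.lint_eq (ha : HolV (D.atl G) univ a) {F : D.cov G → H} (hF : (D.atl G).Sm F) {i : A.ι}
    (v : G) (I : FI n) {s : Cn n → H} (hs : ContinuousOn s (A.e i).target) {Kc : Set (Cn n)}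
    (hK : Kc ⊆ (A.e i).target) (hc : IsCompact Kc) :
    ∫⁻ z in Kc, ‖Rel.tw D a F i v ((A.e i).symm z) I - s z‖ₑ ^ 2 =
      ENNReal.ofReal (∫ z in Kc, ‖Sl (rd D a i v) (rd D F i v) z I - s z‖ ^ 2) := by
  rw [ofReal_integral_eq_lintegral_ofReal (intOn_sq
    (f := fun z => Sl (rd D a i v) (rd D F i v) z I - s z) ((cont_Sl (A.e i).open_target
    (sm_rd ha i v) (sm_rd' hF i v) I).sub hs) hK hc) (Eventually.of_forall fun z => by positivity)]
  refine setLIntegral_congr_fun hc.measurableSet fun z hz => ?_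
  simp only [← Sl_eq_tw' a F v (hK hz) I]
  rw [ENNReal.ofReal_pow (norm_nonneg _), ofReal_norm]

theorem Ex.LimD.toLim (h : LimD D a f S) : Rel.Lim D a f S := by
  refine ⟨h.sm, h.hol, fun i v Kc hK hc I => ?_⟩
  simp only [fun k => lint_eq h.ha (h.sm k) v I (h.hol i v I).continuousOn hK hc]
  simpa using ENNReal.tendsto_ofReal (h.lm i v Kc hK hc I)

theorem Ex.LimD.ofLim (ha : HolV (D.atl G) univ a) (h : Rel.Lim D a f S) : LimD D a f S := by
  refine ⟨ha, h.f_sm, h.S_hol, fun i v Kc hK hc I => ?_⟩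
  have h1 := h.lim i v Kc hK hc I
  simp only [fun k => lint_eq ha (h.f_sm k) v I (h.S_hol i v I).continuousOn hK hc] at h1
  have h2 := (ENNReal.tendsto_toReal ENNReal.zero_ne_top).comp h1
  refine (h2.congr fun k => ?_).trans (by simp)
  exact ENNReal.toReal_ofReal (integral_nonneg fun z => by positivity)

theorem IsMin.toLim {r : Rep M H} {b : M → H} (h : IsMin D K M a r b S)
    (ha : HolV (D.atl G) univ a) :
    ∃ f : ℕ → D.cov G → H, (∀ k, Eqv D M r b (f k)) ∧ Rel.Lim D a f S :=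
  let ⟨f, h1, h2⟩ := h.limD ha
  ⟨f, h1, h2.toLim⟩

end br

end

end Crest.Agent.X261.Fam
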