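import Crest.Agent.X261.Fam.FsA
import Crest.Agent.X261.Fs22.Defs

/-!
# Row 261, package FAM, part FsB (helper94): the Siu-Sampson identity for a smooth map

* `st0` : Stokes for `y ⊗ ω^{n-2} ⊗ ⟪∂F, ∂F⟫`;
* `ss0` : Stokes for `ψ ω^{n-2} ⟪∂F, ∂∂̄F⟫`;
* `sm : Fs22.SmStmt`.
-/

set_option autoImplicit false
set_option linter.unusedSectionVars false

open Set Filter Topology MeasureTheory Matrix
open scoped ComplexConjugate ComplexOrder InnerProductSpace ContDiff NNReal

namespace Crest.Agent.X261.Fam.Fs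

open Crest.Agent.R275.Geo Crest.Agent.R275.EDR890 Crest.Agent.R273.Hess_333

noncomputable section

variable {n q : ℕ} {H : Type*} [NormedAddCommGroup H] [InnerProductSpace ℂ H]
variable {U K : Set (Cn n)} {g : Cn n → Mt n} {F : Cn n → H}

theorem ip_tn (W : Matrix (Fin n × Fin n) (Fin n × Fin n) ℂ) (θ : Fin n → H) (y : Fin n → ℂ)
    (A : Fin n × Fin n → H) :
    ip W (tn θ y) A = ∑ d, ∑ c, ∑ p, y c * W (d, c) p * ⟪θ d, A p⟫_ℂ := by
  rw [ip_eq, Fintype.sum_prod_type]
  refine Finset.sum_congr rfl fun d _ => Finset.sum_congr rfl fun c _ =>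
    Finset.sum_congr rfl fun p _ => ?_
  simp only [tn, inner_smul_left, Complex.conj_conj]
  ring

theorem db_th (hF : ContDiff ℝ ∞ F) (z : Cn n) (a b : Fin n) :
    wd (true, b) (wd (false, a) F) z = Am F z (a, b) := wd_comm hF.contDiffAt _ _

theorem st0 (hg : KF U g) (hK : IsCompact K) (hKU : K ⊆ U) (hF : ContDiff ℝ ∞ F)
    {y : Cn n → Fin n → ℂ} (hy : ∀ c, ∀ z ∈ U, ContDiffAt ℝ ∞ (fun w => y w c) z)
    (h0 : ∀ z ∉ K, y z = 0) :
    ∫ z, ip (W4 (g z)) (tn (th F z) (y z)) (Am F z) =
      ∫ z, ip (Wm (g z) (Matrix.of fun c b => wd (true, b) (fun w => y w c) z))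
        (th F z) (th F z) := by
  set P : Fin n × Fin n → Fin n → Cn n → ℂ := fun i b w =>
    ∑ c, y w c * W4 (g w) (i.1, c) (i.2, b) with hP
  have hP0 : ∀ i b, ∀ z ∉ K, P i b z = 0 := fun i b z hz => by simp [hP, h0 z hz]
  have hPs : ∀ i b, ContDiff ℝ ∞ (P i b) := fun i b =>
    sm_ext hK hKU (fun z hz => ContDiffAt.sum fun c _ => (hy c z hz).mul (kf_W4 hg hz _ _))
      (hP0 i b)
  obtain ⟨h1, h2⟩ := ibp true (u := fun i : Fin n × Fin n => wd (false, i.1) F)
    (v := fun i : Fin n × Fin n => wd (false, i.2) F) hPs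
    (fun i b => HasCompactSupport.intro hK (hP0 i b)) (fun i => contDiff_wd hF _)
    (fun i => contDiff_wd hF _)
  refine int_eq_of h1 h2 fun z => ?_
  by_cases hz : z ∈ K
  · have hz' := hKU hz
    have t1 : ∀ i : Fin n × Fin n, ∑ b, wd (true, b) (P i b) z =
        -Wm (g z) (Matrix.of fun c b => wd (true, b) (fun w => y w c) z) i.1 i.2 := by
      rintro ⟨d, a⟩
      have e : ∀ b, wd (true, b) (P (d, a) b) z = ∑ c,
          (wd (true, b) (fun w => y w c) z * W4 (g z) (d, c) (a, b) +
            y z c * wd (true, b) (fun w => W4 (g w) (d, c) (a, b)) z) := fun b => by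
        refine (wd_sum _ (fun c _ => dif ((hy c z hz').mul (kf_W4 hg hz' _ _))) _).trans ?_
        exact Finset.sum_congr rfl fun c _ => wd_mul (dif (hy c z hz')) (dif (kf_W4 hg hz' _ _)) _
      simp only [e]
      rw [Finset.sum_comm, Wm_apply, Fintype.sum_prod_type, ← Finset.sum_neg_distrib]
      refine Finset.sum_congr rfl fun c _ => ?_
      rw [Finset.sum_add_distrib, ← Finset.mul_sum, div_W4' hg hz', mul_zero, add_zero,
        ← Finset.sum_neg_distrib]
      refine Finset.sum_congr rfl fun b _ => ?_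
      rw [W4_anti, Matrix.of_apply]
      ring
    have t2 : ∑ i : Fin n × Fin n, ∑ b, P i b z *
        ⟪wd (!true, b) (wd (false, i.1) F) z, wd (false, i.2) F z⟫_ℂ = 0 := by
      rw [Fintype.sum_prod_type_right]
      refine Finset.sum_eq_zero fun a _ => anti_sum fun d b => ?_
      have e : P (d, a) b z = -P (b, a) d z := by
        simp only [hP, ← Finset.sum_neg_distrib]
        exact Finset.sum_congr rfl fun c _ => by rw [W4_anti']; ring
      rw [e, Bool.not_true, wd_comm hF.contDiffAt (false, b) (false, d)]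
      ring
    have t3 : ∑ i : Fin n × Fin n, ∑ b, P i b z *
        ⟪wd (false, i.1) F z, wd (true, b) (wd (false, i.2) F) z⟫_ℂ =
        ip (W4 (g z)) (tn (th F z) (y z)) (Am F z) := by
      rw [ip_tn, Fintype.sum_prod_type]
      refine Finset.sum_congr rfl fun d _ => ?_
      rw [Finset.sum_comm (s := Finset.univ (α := Fin n)) (t := Finset.univ (α := Fin n × Fin n)),
        Fintype.sum_prod_type]
      refine Finset.sum_congr rfl fun a _ => Finset.sum_congr rfl fun b _ => ?_
      rw [db_th hF, hP, Finset.sum_mul]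
      rfl
    unfold dvg
    rw [t2, t3, ip_eq (Wm _ _), ← Fintype.sum_prod_type']
    simp only [t1, neg_mul, Finset.sum_neg_distrib, th]
    ring
  · have e : (Matrix.of fun c b => wd (true, b) (fun w => y w c) z) = 0 := by
      ext c b
      refine wd_zero_of ?_ _
      filter_upwards [ev_zero hK h0 hz] with w hw
      rw [hw, Pi.zero_apply]
    rw [dvg_zero _ _ _ fun i b => ev_zero hK (hP0 i b) hz, e, Wm_zero, ip_tn, h0 z hz, ip_eq]
    simp

theorem ss0 (hg : KF U g) (hK : IsCompact K) (hKU : K ⊆ U) (hF : ContDiff ℝ ∞ F)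
    {ψ : Cn n → ℂ} (hψ : ∀ z ∈ U, ContDiffAt ℝ ∞ ψ z) (h0 : ∀ z ∉ K, ψ z = 0) :
    ∫ z, ψ z * ip (W4 (g z)) (Am F z) (Am F z) =
      -∫ z, ip (W4 (g z)) (tn (th F z) fun c => wd (false, c) ψ z) (Am F z) := by
  set P : Fin n × (Fin n × Fin n) → Fin n → Cn n → ℂ := fun i c w =>
    ψ w * W4 (g w) (i.1, c) i.2 with hP
  have hP0 : ∀ i b, ∀ z ∉ K, P i b z = 0 := fun i b z hz => by simp [hP, h0 z hz]
  have hPs : ∀ i b, ContDiff ℝ ∞ (P i b) := fun i b =>
    sm_ext hK hKU (fun z hz => (hψ z hz).mul (kf_W4 hg hz _ _)) (hP0 i b)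
  obtain ⟨h1, h2⟩ := ibp false (u := fun i : Fin n × (Fin n × Fin n) => wd (false, i.1) F)
    (v := fun i : Fin n × (Fin n × Fin n) => wd (false, i.2.1) (wd (true, i.2.2) F)) hPs
    (fun i b => HasCompactSupport.intro hK (hP0 i b)) (fun i => contDiff_wd hF _)
    (fun i => contDiff_wd (contDiff_wd hF _) _)
  rw [← integral_neg]
  refine int_eq_of h1 h2 fun z => ?_
  by_cases hz : z ∈ K
  · have hz' := hKU hz
    have t1 : ∑ i : Fin n × (Fin n × Fin n), (∑ c, wd (false, c) (P i c) z) *
        ⟪wd (false, i.1) F z, wd (false, i.2.1) (wd (true, i.2.2) F) z⟫_ℂ =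
        ip (W4 (g z)) (tn (th F z) fun c => wd (false, c) ψ z) (Am F z) := by
      rw [ip_tn, Fintype.sum_prod_type]
      refine Finset.sum_congr rfl fun d _ => ?_
      rw [Finset.sum_comm]
      refine Finset.sum_congr rfl ?_
      rintro ⟨a, b⟩ -
      have e : ∀ c, wd (false, c) (P (d, a, b) c) z =
          wd (false, c) ψ z * W4 (g z) (d, c) (a, b) +
            ψ z * wd (false, c) (fun w => W4 (g w) (d, c) (a, b)) z := fun c =>
        wd_mul (dif (hψ z hz')) (dif (kf_W4 hg hz' _ _)) _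
      simp only [e]
      rw [Finset.sum_add_distrib, ← Finset.mul_sum, div_W4'' hg hz', mul_zero, add_zero,
        Finset.sum_mul]
      rfl
    have t2 : ∑ i : Fin n × (Fin n × Fin n), ∑ c, P i c z *
        ⟪wd (!false, c) (wd (false, i.1) F) z, wd (false, i.2.1) (wd (true, i.2.2) F) z⟫_ℂ =
        ψ z * ip (W4 (g z)) (Am F z) (Am F z) := by
      rw [ip_eq, Fintype.sum_prod_type, Fintype.sum_prod_type, Finset.mul_sum]
      refine Finset.sum_congr rfl fun d _ => ?_
      rw [Finset.sum_comm, Finset.mul_sum]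
      refine Finset.sum_congr rfl fun c _ => ?_
      rw [Finset.mul_sum]
      refine Finset.sum_congr rfl fun p _ => ?_
      rw [Bool.not_false, db_th hF, hP, ← mul_assoc]
      rfl
    have t3 : ∑ i : Fin n × (Fin n × Fin n), ∑ c, P i c z *
        ⟪wd (false, i.1) F z, wd (false, c) (wd (false, i.2.1) (wd (true, i.2.2) F)) z⟫_ℂ = 0 := by
      rw [Fintype.sum_prod_type]
      refine Finset.sum_eq_zero fun d _ => ?_
      rw [Fintype.sum_prod_type_right]
      refine Finset.sum_eq_zero fun b _ => anti_sum fun a c => ?_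
      simp only [hP]
      rw [W4_anti, wd_comm (contDiff_wd hF _).contDiffAt (false, c) (false, a)]
      ring
    unfold dvg
    rw [t1, t2, t3]
    ring
  · have e : (fun c => wd (false, c) ψ z) = 0 := funext fun c => wd_zero_of (ev_zero hK h0 hz) _
    rw [dvg_zero _ _ _ fun i b => ev_zero hK (hP0 i b) hz, e, ip_tn, h0 z hz]
    simp

/-- **SM** -/
theorem sm : Fs22.SmStmt := by
  intro n q H _ _ _ U G a φ ε hG ha hφ hc hU hε
  refine ⟨fun z hz p => div_Qe hG ha hε hz p, fun F hF => ?_⟩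
  have hg := kf_gE hG ha hε
  have hψ : ∀ z, ContDiffAt ℝ ∞ (cu φ) z := fun z => contDiffAt_cu hφ.contDiffAt
  have h0 : ∀ z ∉ tsupport φ, cu φ z = 0 := fun z hz => by
    simp [cu, image_eq_zero_of_notMem_tsupport hz]
  refine ⟨?_, fun c => ?_⟩
  · refine (ss0 hg hc hU hF (fun z _ => hψ z) h0).trans ?_
    rw [st0 hg hc hU hF (y := fun z c => wd (false, c) (cu φ) z)
      (fun c z _ => contDiffAt_wd (hψ z) _)
      (fun z hz => funext fun c => wd_zero_of (ev_zero hc h0 hz) _)]
    have e : ∀ z, (Matrix.of fun c b => wd (true, b) (fun w => wd (false, c) (cu φ) w) z) =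
        hess φ z := fun z => Matrix.ext fun c b => wd_comm (hψ z) _ _
    simp only [e]
  · have hC : ∀ d, ∀ z ∈ U, ContDiffAt ℝ ∞ (fun w => (Cf a w *ᵥ c) d) z := fun d z hz =>
      ContDiffAt.sum (s := Finset.univ) (f := fun h w => Cf a w d h * c h) fun h _ =>
        (Cf_sm hG.opn ha hz d h).mul contDiffAt_const
    have h1 := st0 hg hc hU hF (y := fun z d => cu φ z * (Cf a z *ᵥ c) d)
      (fun d z hz => (hψ z).mul (hC d z hz)) (fun z hz => funext fun d => by simp [h0 z hz])
    have e : ∀ z, (Matrix.of fun d b => wd (true, b) (fun w => cu φ w * (Cf a w *ᵥ c) d) z) =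
        d1 (Cf a z *ᵥ c) φ z := fun z => by
      ext d b
      rw [d1, Matrix.of_apply, Matrix.of_apply]
      symm
      by_cases hz : z ∈ tsupport φ
      · have h2 : wd (true, b) (fun w => (Cf a w *ᵥ c) d) z = 0 := by
          refine (wd_sum Finset.univ (f := fun h w => Cf a w d h * c h)
            (fun h _ => dif ((Cf_sm hG.opn ha (hU hz) d h).mul contDiffAt_const))
            _).trans (Finset.sum_eq_zero fun h _ => ?_)
          rw [wd_mul (dif (Cf_sm hG.opn ha (hU hz) d h)) (differentiableAt_const _), wd_const,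
            Cf_db hG.opn ha (hU hz)]
          simp
        rw [wd_mul (dif (hψ z)) (dif (hC d z (hU hz))), h2]
        ring
      · rw [wd_zero_of (ev_zero hc h0 hz), mul_zero]
        refine (wd_zero_of ?_ _).symm
        filter_upwards [ev_zero hc h0 hz] with w hw
        rw [hw, zero_mul]
    simp only [e] at h1
    refine h1.symm.trans (integral_congr_ae (Eventually.of_forall fun z => ?_))
    simp only [ip_tn, Finset.mul_sum, cu, mul_assoc]

end

end Crest.Agent.X261.Fam.Fs
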