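import Crest.Agent.X261.Fam.FsB

/-!
# Row 261, package FAM, part FsC (helper94): the estimates for one smooth map

* `vI_hol`, `Q0_sm`, `na_sm`, `ee_sm`, `e0_sm` : smoothness of the densities;
* `na_int`, `na_le` : the Siu-Sampson identity in terms of `na`;
* `st1` : the Stokes inequality; `db0`, `db1` : the `∂̄` of `∂F ∧ τ`.
-/

set_option autoImplicit false
set_option linter.unusedSectionVars false

open Set Filter Topology MeasureTheory Matrix
open scoped ComplexConjugate ComplexOrder InnerProductSpace ContDiff NNReal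

namespace Crest.Agent.X261.Fam.Fs

open Crest.Agent.R275.Geo Crest.Agent.R275.EDR890 Crest.Agent.R273.Hess_333
open Crest.Agent.R273.Fock_243 Crest.Agent.R273.GamR_155 Crest.Agent.R273.HessB_333

noncomputable section

variable {n q : ℕ} {H : Type*} [NormedAddCommGroup H] [InnerProductSpace ℂ H]
variable {U K : Set (Cn n)} {G : Cn n → Mt n} {a : Cn n → Cn q} {F : Cn n → H} {ε : ℝ}

/-! ### smoothness -/

theorem SM.det' {k : ℕ} {m : Cn n → Mt k} {z : Cn n} (hm : SM m z) :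
    ContDiffAt ℝ ∞ (fun w => (m w).det) z := by
  simp only [Matrix.det_apply']
  exact ContDiffAt.sum fun σ _ => contDiffAt_const.mul (contDiffAt_prod fun i _ => hm _ _)

theorem SM.gam {m : Cn n → Mt n} {z : Cn n} (hm : SM m z) : SM (fun w => Gam (m w)) z := by
  intro S T
  by_cases h : S.card = T.card
  · simp only [fun w => Gam_eq (m w) rfl h.symm]
    exact SM.det' (m := fun w => (m w).submatrix _ _) fun i j => hm _ _
  · simp only [fun w => Gam_of_ne (m w) h]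
    exact contDiffAt_const

theorem cd_re {f : Cn n → ℂ} {z : Cn n} (hf : ContDiffAt ℝ ∞ f z) :
    ContDiffAt ℝ ∞ (fun w => (f w).re) z := Complex.reCLM.contDiff.contDiffAt.comp z hf

theorem cd_ip {ι : Type} [Fintype ι] {X : Cn n → Matrix ι ι ℂ} {B A : Cn n → ι → H} {z : Cn n}
    (hX : SM X z) (hB : ∀ r, ContDiffAt ℝ ∞ (fun w => B w r) z)
    (hA : ∀ r, ContDiffAt ℝ ∞ (fun w => A w r) z) :
    ContDiffAt ℝ ∞ (fun w => ip (X w) (B w) (A w)) z := by
  simp only [ip_eq]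
  exact ContDiffAt.sum fun r _ => ContDiffAt.sum fun p _ => (hX r p).mul ((hB r).inner ℂ (hA p))

theorem th_sm (hF : ContDiff ℝ ∞ F) (z : Cn n) (b : Fin n) :
    ContDiffAt ℝ ∞ (fun w => th F w b) z := contDiffAt_wd hF.contDiffAt _

theorem Am_sm (hF : ContDiff ℝ ∞ F) (z : Cn n) (r : Fin n × Fin n) :
    ContDiffAt ℝ ∞ (fun w => Am F w r) z := contDiffAt_wd (contDiffAt_wd hF.contDiffAt _) _

theorem Cf_hol (hU : IsOpen U) (ha : DifferentiableOn ℂ a U) (b : Fin n) (h : Fin q) :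
    DifferentiableOn ℂ (fun w => Cf a w b h) U := by
  have h1 := (Crest.Agent.R266.SCV.analyticOnNhd_of_differentiableOn hU (comp_hol ha h)).fderiv
  refine (h1.differentiableOn.clm_apply
    (differentiableOn_const (EuclideanSpace.single b 1))).congr fun w hw => ?_
  exact wd_hol' ((comp_hol ha h).differentiableAt (hU.mem_nhds hw)) b

theorem vI_hol (hU : IsOpen U) (ha : DifferentiableOn ℂ a U) (I : FI n) (c : Fin n) :
    DifferentiableOn ℂ (fun w => vI (Cf a w) I c) U := by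
  have h1 : ∀ S : FI n, DifferentiableOn ℂ (fun w => tau (Cf a w) S) U := by
    intro S
    have e : ∀ w, tau (Cf a w) S = GamR (Cf a w) S Finset.univ := fun w => by
      rw [tau, Matrix.mulVec_single_one]; rfl
    simp only [e]
    by_cases h : S.card = (Finset.univ : FI q).card
    · simp only [fun w => GamR_eq (Cf a w) rfl h.symm, Matrix.det_apply']
      refine DifferentiableOn.fun_sum fun σ _ => (differentiableOn_const _).mul fun w hw => ?_
      exact (HasFDerivAt.finsetProd fun i _ => ((Cf_hol hU ha _ _).differentiableAt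
        (hU.mem_nhds hw)).hasFDerivAt).differentiableAt.differentiableWithinAt
    · simp only [fun w => GamR_of_ne (Cf a w) h]
      exact differentiableOn_const _
  exact DifferentiableOn.fun_sum (u := Finset.univ)
    (A := fun S w => eW (ep c) I S * tau (Cf a w) S) fun S _ => (differentiableOn_const _).mul (h1 S)

theorem vI_sm (hU : IsOpen U) (ha : DifferentiableOn ℂ a U) {z : Cn n} (hz : z ∈ U) :
    SM (fun w => vI (Cf a w)) z := fun I c => hol_sm hU (vI_hol hU ha I c) hz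

theorem Q0_sm (hG : KF U G) (ha : DifferentiableOn ℂ a U) {z : Cn n} (hz : z ∈ U) :
    SM (fun w => Q0 (G w) (Cf a w)) z := fun b c =>
  (kf_sm hG hz).det.mul ((((vI_sm hG.opn ha hz).ct.mul
    ((kf_sm hG hz).inv (kf_det hG hz)).gam).mul (vI_sm hG.opn ha hz)) b c)

theorem Hm_sm (hG : KF U G) (ha : DifferentiableOn ℂ a U) {z : Cn n} (hz : z ∈ U) :
    SM (fun w => Hm (G w) (Cf a w)) z :=
  ((Cf_sm hG.opn ha hz).ct.mul ((kf_sm hG hz).inv (kf_det hG hz))).mul (Cf_sm hG.opn ha hz)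

theorem V_sm (hG : KF U G) (ha : DifferentiableOn ℂ a U) (ε : ℝ) {z : Cn n} (hz : z ∈ U) :
    ContDiffAt ℝ ∞ (fun w => (G w).det.re * Dm (G w) (Cf a w) ε) z :=
  (cd_re (kf_sm hG hz).det).mul (cd_re (SM.det'
    (m := fun w => (ε : ℂ) • (1 : Mt q) + Hm (G w) (Cf a w)) fun i j =>
      contDiffAt_const.add (Hm_sm hG ha hz i j)))

theorem ee_sm (hG : KF U G) (ha : DifferentiableOn ℂ a U) (ε : ℝ) {z : Cn n} (hz : z ∈ U)
    {θ : Cn n → Fin n → H} (hθ : ∀ b, ContDiffAt ℝ ∞ (fun w => θ w b) z) :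
    ContDiffAt ℝ ∞ (fun w => ee (G w) (Cf a w) ε (θ w)) z := cd_re (cd_ip (Qe_sm hG ha ε hz) hθ hθ)

theorem e0_sm (hG : KF U G) (ha : DifferentiableOn ℂ a U) {z : Cn n} (hz : z ∈ U)
    {θ : Cn n → Fin n → H} (hθ : ∀ b, ContDiffAt ℝ ∞ (fun w => θ w b) z) :
    ContDiffAt ℝ ∞ (fun w => e0 (G w) (Cf a w) (θ w)) z := cd_re (cd_ip (Q0_sm hG ha hz) hθ hθ)

theorem na_sm (hG : KF U G) (ha : DifferentiableOn ℂ a U) (hε : 0 < ε) (hF : ContDiff ℝ ∞ F)
    {z : Cn n} (hz : z ∈ U) : ContDiffAt ℝ ∞ (fun w => na (G w) (Cf a w) ε (Am F w)) z := by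
  have hi := (gE_sm hG ha ε hz).inv (kf_det (kf_gE hG ha hε) hz)
  exact ((V_sm hG ha ε hz).div_const ε).mul (cd_re (cd_ip
    (X := fun w => K4 (gE (G w) (Cf a w) ε)) (fun r p => (hi r.1 p.1).mul (hi p.2 r.2))
    (Am_sm hF z) (Am_sm hF z)))

theorem trH_sm (hG : KF U G) (ha : DifferentiableOn ℂ a U) (ε : ℝ) (hF : ContDiff ℝ ∞ F)
    {z : Cn n} (hz : z ∈ U) :
    ContDiffAt ℝ ∞ (fun w => ‖trH (Qe (G w) (Cf a w) ε) (Am F w)‖ ^ 2) z :=
  (ContDiffAt.sum fun p _ => (Qe_sm hG ha ε hz p.2 p.1).smul (Am_sm hF z p)).norm_sq ℂ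

theorem intg {W : Type*} [NormedAddCommGroup W] [NormedSpace ℝ W] (hK : IsCompact K)
    (hKU : K ⊆ U) {f : Cn n → W} (hf : ∀ z ∈ U, ContDiffAt ℝ ∞ f z) (h0 : ∀ z ∉ K, f z = 0) :
    Integrable f :=
  (sm_ext hK hKU hf h0).continuous.integrable_of_hasCompactSupport (HasCompactSupport.intro hK h0)

theorem intg_phi {φ f : Cn n → ℝ} (hφ : ContDiff ℝ ∞ φ) (hc : HasCompactSupport φ)
    (hU : tsupport φ ⊆ U) (hf : ∀ z ∈ U, ContDiffAt ℝ ∞ f z) : Integrable fun z => φ z * f z :=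
  intg hc hU (fun z hz => hφ.contDiffAt.mul (hf z hz)) fun z hz => by
    rw [image_eq_zero_of_notMem_tsupport hz, zero_mul]

theorem bdd (hK : IsCompact K) {f : Cn n → ℝ} (hf : ∀ z ∈ K, ContinuousAt f z) :
    ∃ m, 0 ≤ m ∧ ∀ z ∈ K, f z ≤ m := by
  obtain ⟨m, hm⟩ := hK.exists_bound_of_continuousOn fun z hz => (hf z hz).continuousWithinAt
  exact ⟨max m 0, le_max_right _ _, fun z hz =>
    ((le_abs_self _).trans (hm z hz)).trans (le_max_left _ _)⟩

/-! ### Siu-Sampson -/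

variable {φ : Cn n → ℝ}

theorem ss1 (hG : KF U G) (ha : DifferentiableOn ℂ a U) (hφ : ContDiff ℝ ∞ φ)
    (hc : HasCompactSupport φ) (hU : tsupport φ ⊆ U) (hε : 0 < ε) (hF : ContDiff ℝ ∞ F) :
    ∫ z, (φ z : ℂ) * ip (W4 (gE (G z) (Cf a z) ε)) (Am F z) (Am F z) =
      -∫ z, ip (Wm (gE (G z) (Cf a z) ε) (hess φ z)) (th F z) (th F z) := by
  have hg := kf_gE hG ha hε
  have hψ : ∀ z, ContDiffAt ℝ ∞ (cu φ) z := fun z => contDiffAt_cu hφ.contDiffAt
  have h0 : ∀ z ∉ tsupport φ, cu φ z = 0 := fun z hz => by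
    simp [cu, image_eq_zero_of_notMem_tsupport hz]
  refine (ss0 hg hc hU hF (fun z _ => hψ z) h0).trans ?_
  rw [st0 hg hc hU hF (y := fun z c => wd (false, c) (cu φ) z)
    (fun c z _ => contDiffAt_wd (hψ z) _)
    (fun z hz => funext fun c => wd_zero_of (ev_zero hc h0 hz) _)]
  have e : ∀ z, (Matrix.of fun c b => wd (true, b) (fun w => wd (false, c) (cu φ) w) z) =
      hess φ z := fun z => Matrix.ext fun c b => wd_comm (hψ z) _ _
  simp only [e]

theorem na_int (hG : KF U G) (ha : DifferentiableOn ℂ a U) (hφ : ContDiff ℝ ∞ φ)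
    (hc : HasCompactSupport φ) (hU : tsupport φ ⊆ U) (hε : 0 < ε) (hF : ContDiff ℝ ∞ F) :
    ∫ z, φ z * na (G z) (Cf a z) ε (Am F z) =
      (∫ z, φ z * (‖trH (Qe (G z) (Cf a z) ε) (Am F z)‖ ^ 2 /
        (ε * ((G z).det.re * Dm (G z) (Cf a z) ε)))) + Rs G a ε φ F := by
  have hs : ∀ z ∈ U, ContDiffAt ℝ ∞
      (fun w => ip (W4 (gE (G w) (Cf a w) ε)) (Am F w) (Am F w)) z := fun z hz =>
    cd_ip (kf_W4 (kf_gE hG ha hε) hz) (Am_sm hF z) (Am_sm hF z)
  have h1 : Integrable fun z => (φ z : ℂ) * ip (W4 (gE (G z) (Cf a z) ε)) (Am F z) (Am F z) :=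
    intg hc hU (fun z hz => (contDiffAt_cu hφ.contDiffAt).mul (hs z hz)) fun z hz => by
      simp [image_eq_zero_of_notMem_tsupport hz]
  have h2 := congrArg Complex.re (ss1 hG ha hφ hc hU hε hF)
  rw [Complex.neg_re, ← neg_eq_iff_eq_neg] at h2
  have h3 := integral_re h1
  simp only [RCLike.re_to_complex, Complex.re_ofReal_mul] at h3
  rw [Rs, ← h2, ← h3, mul_neg, ← sub_eq_add_neg, ← integral_const_mul, ← integral_sub]
  · refine integral_congr_ae (Eventually.of_forall fun z => ?_)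
    by_cases hz : z ∈ tsupport φ
    · simp only [na_eq_W4 (hG.pos z (hU hz)) _ hε]
      ring
    · simp [image_eq_zero_of_notMem_tsupport hz]
  · refine intg_phi hφ hc hU fun z hz => (trH_sm hG ha ε hF hz).div
      (contDiffAt_const.mul (V_sm hG ha ε hz)) ?_
    exact (mul_pos hε (mul_pos (det_re_pos (hG.pos z hz)) (Dm_pos (hG.pos z hz) _ hε))).ne'
  · exact (intg_phi hφ hc hU fun z hz => cd_re (hs z hz)).const_mul _

theorem na_int_nonneg (hG : KF U G) (h0 : ∀ z, 0 ≤ φ z) (hU : tsupport φ ⊆ U) (hε : 0 < ε)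
    (F : Cn n → H) (z : Cn n) : 0 ≤ φ z * na (G z) (Cf a z) ε (Am F z) := by
  by_cases hz : z ∈ tsupport φ
  · exact mul_nonneg (h0 z) (na_nonneg (hG.pos z (hU hz)) _ hε _)
  · simp [image_eq_zero_of_notMem_tsupport hz]

/-- the Siu-Sampson inequality -/
theorem na_le (hG : KF U G) (ha : DifferentiableOn ℂ a U) (hφ : ContDiff ℝ ∞ φ)
    (hc : HasCompactSupport φ) (hU : tsupport φ ⊆ U) (hε : 0 < ε) : ∃ m : ℝ, 0 ≤ m ∧
      ∀ F : Cn n → H, ContDiff ℝ ∞ F → ∫ z, φ z * na (G z) (Cf a z) ε (Am F z) ≤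
        m * (∫ z in tsupport φ, ‖trH (Qe (G z) (Cf a z) ε) (Am F z)‖ ^ 2) + Rs G a ε φ F := by
  have hV : ∀ z ∈ U, 0 < ε * ((G z).det.re * Dm (G z) (Cf a z) ε) := fun z hz =>
    mul_pos hε (mul_pos (det_re_pos (hG.pos z hz)) (Dm_pos (hG.pos z hz) _ hε))
  obtain ⟨m, hm0, hm⟩ := bdd hc (f := fun z => φ z / (ε * ((G z).det.re * Dm (G z) (Cf a z) ε)))
    fun z hz => hφ.continuous.continuousAt.div
      (continuousAt_const.mul (V_sm hG ha ε (hU hz)).continuousAt) (hV z (hU hz)).ne'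
  refine ⟨m, hm0, fun F hF => ?_⟩
  rw [na_int hG ha hφ hc hU hε hF, ← integral_const_mul,
    ← setIntegral_eq_integral_of_forall_compl_eq_zero (s := tsupport φ) fun z hz => by
      simp [image_eq_zero_of_notMem_tsupport hz]]
  refine add_le_add_left (setIntegral_mono_on ?_ ?_ (isClosed_tsupport φ).measurableSet
    fun z hz => ?_) _
  · exact (intg_phi hφ hc hU fun z hz => (trH_sm hG ha ε hF hz).div
      (contDiffAt_const.mul (V_sm hG ha ε hz)) (hV z hz).ne').integrableOn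
  · exact ContinuousOn.integrableOn_compact hc fun z hz =>
      (continuousAt_const.mul (trH_sm hG ha ε hF (hU hz)).continuousAt).continuousWithinAt
  · rw [← mul_div_assoc, mul_div_right_comm]
    exact mul_le_mul_of_nonneg_right (hm z hz) (sq_nonneg _)

/-! ### Stokes -/

theorem J_wd (cj : Cj H) {F' : Cn n → H} (hF : ContDiff ℝ ∞ F) (h : ∀ z, cj.J (F z) = F' z)
    (s : WI n) (z : Cn n) : cj.J (wd s F z) = wd (!s.1, s.2) F' z := by
  have h1 : fderiv ℝ F' z = cj.J.comp (fderiv ℝ F z) := by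
    rw [← show (cj.J ∘ F) = F' from funext h]
    exact (cj.J.hasFDerivAt.comp z (dif hF.contDiffAt).hasFDerivAt).fderiv
  obtain ⟨b, c⟩ := s
  cases b <;> simp [wd, wdL, h1, cj.smul, map_ofNat (starRingEnd ℂ) 2]

theorem J_Am (cj : Cj H) (hF : ContDiff ℝ ∞ F) (h : ∀ z, cj.J (F z) = F z) (z : Cn n)
    (b c : Fin n) : cj.J (Am F z (b, c)) = Am F z (c, b) :=
  (J_wd cj (contDiff_wd hF _) (J_wd cj hF h _) _ z).trans (db_th hF z c b)

/-- the Stokes inequality for one smooth real map -/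
theorem st1 {H : Type} [NormedAddCommGroup H] [InnerProductSpace ℂ H] [CompleteSpace H]
    {F : Cn n → H} (cj : Cj H) (hG : KF U G) (ha : DifferentiableOn ℂ a U) (hφ : ContDiff ℝ ∞ φ)
    (h0 : ∀ z, 0 ≤ φ z) (hc : HasCompactSupport φ) (hU : tsupport φ ⊆ U) (hε : 0 < ε)
    (hF : ContDiff ℝ ∞ F) (hJ : ∀ z, cj.J (F z) = F z) {c : Fin q → ℂ}
    (hc1 : ∑ j, ‖c j‖ ^ 2 ≤ 1) {t κ : ℝ} (ht : 0 < t) (hκ : 0 < κ) :
    ε ^ q / ε * ‖∫ z, ip (Wm (gE (G z) (Cf a z) ε) (d1 (Cf a z *ᵥ c) φ z)) (th F z) (th F z)‖ ≤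
      t / 2 * (∫ z, φ z * ee (G z) (Cf a z) ε (th F z)) +
      (1 / (4 * t) + κ) * (∫ z, φ z * na (G z) (Cf a z) ε (Am F z)) + (n + 2) / (2 * κ) *
        ∫ z, φ z * (ee (G z) (Cf a z) ε (th F z) - e0 (G z) (Cf a z) (th F z)) := by
  rw [((sm n q H U G a φ ε hG ha hφ hc hU hε).2 F hF).2 c]
  have i1 := (intg_phi hφ hc hU fun z hz => ee_sm hG ha ε hz (th_sm hF z)).const_mul (t / 2)
  have i2 := (intg_phi hφ hc hU fun z hz => na_sm hG ha hε hF hz).const_mul (1 / (4 * t) + κ)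
  have i3 := (intg_phi hφ hc hU fun z hz =>
    (ee_sm hG ha ε hz (th_sm hF z)).sub (e0_sm hG ha hz (th_sm hF z))).const_mul
      (((n : ℝ) + 2) / (2 * κ))
  have hp : 0 ≤ ε ^ q / ε := by positivity
  rw [← integral_const_mul, ← integral_const_mul, ← integral_const_mul, ← integral_add i1 i2,
    ← integral_add (i1.fun_add i2) i3, ← Real.norm_of_nonneg hp, ← norm_smul, ← integral_smul]
  refine norm_integral_le_of_norm_le ((i1.fun_add i2).fun_add i3) (Eventually.of_forall fun z => ?_)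
  by_cases hz : z ∈ tsupport φ
  · have h1 := mul_le_mul_of_nonneg_left (pw2 (hG.pos z (hU hz)) (Cf a z) hε cj
      (J_Am cj hF hJ z) hc1 (th F z) ht hκ) (h0 z)
    rw [norm_smul, norm_mul, Real.norm_of_nonneg hp, Complex.norm_real,
      Real.norm_of_nonneg (h0 z)]
    linarith
  · simp [image_eq_zero_of_notMem_tsupport hz]

/-! ### the `∂̄` of `∂F ∧ τ` -/

theorem Sl_sm (hU : IsOpen U) (ha : DifferentiableOn ℂ a U) (hF : ContDiff ℝ ∞ F) {z : Cn n}
    (hz : z ∈ U) (I : FI n) : ContDiffAt ℝ ∞ (fun w => Sl a F w I) z :=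
  ContDiffAt.sum (s := Finset.univ) (f := fun c w => vI (Cf a w) I c • th F w c) fun c _ =>
    (vI_sm hU ha hz I c).smul (th_sm hF z c)

theorem db_Sl (hU : IsOpen U) (ha : DifferentiableOn ℂ a U) (hF : ContDiff ℝ ∞ F) {z : Cn n}
    (hz : z ∈ U) (I : FI n) (b : Fin n) : wd (true, b) (fun w => Sl a F w I) z =
      ac (vI (Cf a z)) (fun c => Am F z (c, b)) I := by
  refine (wd_sum Finset.univ (f := fun c w => vI (Cf a w) I c • th F w c)
    (fun c _ => dif ((vI_sm hU ha hz I c).smul (th_sm hF z c))) _).trans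
    (Finset.sum_congr rfl fun c _ => ?_)
  rw [wd_smul (dif (vI_sm hU ha hz I c)) (dif (th_sm hF z c)),
    wd_hol ((vI_hol hU ha I c).differentiableAt (hU.mem_nhds hz)), zero_smul, zero_add]
  exact congrArg _ (db_th hF z c b)

theorem db0 (hU : IsOpen U) (ha : DifferentiableOn ℂ a U) (hF : ContDiff ℝ ∞ F) {χ : Cn n → ℝ}
    (hχ : ContDiff ℝ ∞ χ) (hc : HasCompactSupport χ) (hs : tsupport χ ⊆ U) (I : FI n)
    (b : Fin n) : ∫ z, wd (true, b) (cu χ) z • Sl a F z I =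
      -∫ z, cu χ z • ac (vI (Cf a z)) (fun c => Am F z (c, b)) I := by
  have hψ : ∀ z, ContDiffAt ℝ ∞ (cu χ) z := fun z => contDiffAt_cu hχ.contDiffAt
  have h0 : ∀ z ∉ tsupport χ, cu χ z = 0 := fun z hz => by
    simp [cu, image_eq_zero_of_notMem_tsupport hz]
  have h1 : ∀ z ∉ tsupport χ, cu χ z • Sl a F z I = 0 := fun z hz => by rw [h0 z hz, zero_smul]
  have h2 := int_wd (sm_ext (f := fun w => cu χ w • Sl a F w I) hc hs
    (fun z hz => (hψ z).smul (Sl_sm hU ha hF hz I)) h1)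
    (HasCompactSupport.intro hc h1) (true, b)
  have h3 : ∀ z, wd (true, b) (fun w => cu χ w • Sl a F w I) z =
      wd (true, b) (cu χ) z • Sl a F z I +
        cu χ z • ac (vI (Cf a z)) (fun c => Am F z (c, b)) I := fun z => by
    by_cases hz : z ∈ tsupport χ
    · rw [wd_smul (dif (hψ z)) (dif (Sl_sm hU ha hF (hs hz) I)), db_Sl hU ha hF (hs hz)]
    · rw [wd_zero_of (ev_zero hc h1 hz), wd_zero_of (ev_zero hc h0 hz), h0 z hz]
      simp
  simp only [h3] at h2
  rw [integral_add] at h2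
  · exact eq_neg_of_add_eq_zero_left h2
  · exact intg hc hs (fun z hz => (contDiffAt_wd (hψ z) _).smul (Sl_sm hU ha hF hz I))
      fun z hz => by rw [wd_zero_of (ev_zero hc h0 hz), zero_smul]
  · exact intg hc hs (fun z hz => (hψ z).smul (ContDiffAt.sum (s := Finset.univ)
      (f := fun c w => vI (Cf a w) I c • Am F w (c, b)) fun c _ =>
      (vI_sm hU ha hz I c).smul (Am_sm hF z (c, b)))) fun z hz => by rw [h0 z hz, zero_smul]

theorem sq_le_of_forall {x v R : ℝ} (hx : 0 ≤ x) (hv : 0 ≤ v) (hR : 0 ≤ R)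
    (h : ∀ t, 0 < t → x ≤ t / 2 * v + 1 / (2 * t) * R) : x ^ 2 ≤ (v + 1) * R := by
  rcases hx.eq_or_lt with h0 | h0
  · rw [← h0, zero_pow two_ne_zero]; positivity
  · have h1 := h (x / (v + 1)) (by positivity)
    have e1 : x / (v + 1) / 2 * v ≤ x / 2 := by
      rw [div_right_comm, div_mul_eq_mul_div, div_le_iff₀ (by positivity)]
      nlinarith
    have e2 : 1 / (2 * (x / (v + 1))) * R = (v + 1) * R / x / 2 := by field_simp
    rw [e2] at h1
    have h2 : x ≤ (v + 1) * R / x := by linarith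
    rwa [le_div_iff₀ h0, ← pow_two] at h2

/-- the `∂̄` estimate for one smooth map -/
theorem db1 (hG : KF U G) (ha : DifferentiableOn ℂ a U) (hφ : ContDiff ℝ ∞ φ)
    (h0 : ∀ z, 0 ≤ φ z) (hc : HasCompactSupport φ) (hU : tsupport φ ⊆ U) {χ : Cn n → ℝ}
    (hχ : ContDiff ℝ ∞ χ) (hs : tsupport χ ⊆ {z | 0 < φ z}) : ∃ C : ℝ, 0 ≤ C ∧
      ∀ ε : ℝ, 0 < ε → ε ≤ 1 → ∀ F : Cn n → H, ContDiff ℝ ∞ F → ∀ (b : Fin n) (I : FI n),
        ‖∫ z, wd (true, b) (cu χ) z • Sl a F z I‖ ^ 2 ≤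
          C * ∫ z, φ z * na (G z) (Cf a z) ε (Am F z) := by
  have hs1 : tsupport χ ⊆ tsupport φ := fun z hz => subset_tsupport _ (hs hz).ne'
  have hK : IsCompact (tsupport χ) := hc.of_isClosed_subset (isClosed_tsupport _) hs1
  have hs2 : tsupport χ ⊆ U := hs1.trans hU
  have hb : ∀ r : Fin n × FI n, ∃ m, 0 ≤ m ∧ ∀ z ∈ tsupport χ, χ z ^ 2 * ((Gam (G z) r.2 r.2).re *
      ((G z r.1 r.1).re * (1 + (Hm (G z) (Cf a z)).trace.re))) / ((G z).det.re * φ z) ≤ m := by
    intro r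
    refine bdd hK fun z hz => ContDiffAt.continuousAt (𝕜 := ℝ) (n := ∞) ?_
    have hz' := hs2 hz
    refine ((hχ.contDiffAt.pow 2).mul ((cd_re ((kf_sm hG hz').gam _ _)).mul
      ((cd_re (kf_sm hG hz' _ _)).mul (contDiffAt_const.add (cd_re ?_))))).div
      ((cd_re (kf_sm hG hz').det).mul hφ.contDiffAt)
      (mul_pos (det_re_pos (hG.pos z hz')) (hs hz)).ne'
    exact ContDiffAt.sum fun j _ => Hm_sm hG ha hz' j j
  choose m hm0 hm using hb
  have hM : 0 ≤ ∑ r, m r := Finset.sum_nonneg fun r _ => hm0 r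
  refine ⟨(volume.real (tsupport χ) + 1) * ∑ r, m r, by positivity, fun ε hε h1 F hF b I => ?_⟩
  have hn := na_int_nonneg (a := a) hG h0 hU hε F
  have i2 := intg_phi hφ hc hU fun z hz => na_sm hG ha hε hF hz
  rw [db0 hG.opn ha hF hχ hK hs2, norm_neg, mul_assoc]
  refine sq_le_of_forall (norm_nonneg _) measureReal_nonneg
    (mul_nonneg hM (integral_nonneg hn)) fun t ht => ?_
  have i1 : Integrable ((tsupport χ).indicator fun _ : Cn n => t / 2) :=
    (integrableOn_const hK.measure_lt_top.ne).integrable_indicator hK.measurableSet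
  have e : t / 2 * volume.real (tsupport χ) = ∫ z, (tsupport χ).indicator (fun _ => t / 2) z := by
    rw [integral_indicator_const _ hK.measurableSet, smul_eq_mul, mul_comm]
  rw [e, ← integral_const_mul, ← integral_const_mul,
    ← integral_add i1 ((i2.const_mul _).const_mul _)]
  refine norm_integral_le_of_norm_le (i1.add ((i2.const_mul _).const_mul _))
    (Eventually.of_forall fun z => ?_)
  by_cases hz : z ∈ tsupport χ
  · have hp := hG.pos z (hs2 hz)
    have hd := det_re_pos hp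
    set X := ac (vI (Cf a z)) (fun c => Am F z (c, b)) I
    have h2 : ‖cu χ z • X‖ ^ 2 ≤ (∑ r, m r) * (φ z * na (G z) (Cf a z) ε (Am F z)) := by
      have h3 := (pw4 hp (Cf a z) (fun c => Am F z (c, b)) I).trans (mul_le_mul_of_nonneg_left
        (pw5 hp (Cf a z) hε h1 (Am F z) b)
        (Complex.nonneg_iff.1 ((gam_psd hp).diag_nonneg (i := I))).1)
      have h4 := (hm (b, I) z hz).trans
        (Finset.single_le_sum (fun r _ => hm0 r) (Finset.mem_univ (b, I)))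
      rw [div_le_iff₀ (mul_pos hd (hs hz))] at h4
      have h5 := mul_le_mul_of_nonneg_right h4 (na_nonneg hp (Cf a z) hε (Am F z))
      have h6 := mul_le_mul_of_nonneg_left h3 (sq_nonneg (χ z))
      rw [norm_smul, mul_pow, cu, Complex.norm_real, Real.norm_eq_abs, sq_abs]
      refine le_of_mul_le_mul_left ?_ hd
      nlinarith
    have h7 := amgm 1 ‖cu χ z • X‖ t ht
    have h8 := mul_le_mul_of_nonneg_left h2 (show 0 ≤ 1 / (2 * t) by positivity)
    simp only [Set.indicator_of_mem hz]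
    linarith
  · have h2 : cu χ z = 0 := by simp [cu, image_eq_zero_of_notMem_tsupport hz]
    simp only [Set.indicator_of_notMem hz, h2, zero_smul, norm_zero, zero_add]
    exact mul_nonneg (by positivity) (mul_nonneg hM (hn z))

end

end Crest.Agent.X261.Fam.Fs
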