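import Crest.Agent.X261.Fam.GA
import Crest.Agent.X261.Fam.Cal
import Crest.Agent.R275.QN2b_734

/-!
# Row 261, package FAM (helper12), part GB: invariant quadratic densities

* chart and deck laws of `rd`, `th`, `Cf`;
* `QD0`, `QD` : families of matrices defining densities, `Wt` : weights, `IQ` : the global form;
* `QE`, `QZ`, `QA`, `WM` : the instances; `T11` : `(1,1)`-tensors, `hs`, `dw`;
* `PU` : partitions of unity, `IQ_part`; `ExStmt`, `UniqStmt`.
-/

set_option autoImplicit false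
set_option linter.unusedSectionVars false

open Set Filter Topology MeasureTheory Matrix
open scoped ComplexConjugate ComplexOrder InnerProductSpace ContDiff

namespace Crest.Agent.X261.Fam

open Crest.Agent.R275.Geo Crest.Agent.R275.Core144 Crest.Agent.R273.UCov_914
open Crest.Agent.R273.Kah_333 Crest.Agent.R275.EDR890 Crest.Agent.R273.Hess_333
open Crest.Agent.R273.HessB_333 Crest.Agent.R273.Fock_243
open Crest.Agent.R275.OmT75 (tr tr_diffAt)
open Crest.Agent.X261.Cov.A Crest.Agent.X261.Cov.B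
open Crest.Agent.X261.Rel.Act (Rep Act)

noncomputable section

variable {n q : ℕ} {X : Type} [TopologicalSpace X] {A : Atl n X} {G : Type} [Group G]
variable {H : Type*} [NormedAddCommGroup H] [InnerProductSpace ℂ H]
variable {D : MonD A G} {M : Subgroup G} {a : D.cov G → Cn q} {R : ℝ}

/-! ### chart laws -/

/-- the transposed Jacobian -/
abbrev Nm (A : Atl n X) (i j : A.ι) (x : X) : Mt n := (Jm A i j x)ᵀ

/-- the metric in a chart -/
abbrev gk (K : Kah A) (i : A.ι) (z : Cn n) : Mt n := K.g i ((A.e i).symm z)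

theorem ov_open (i j : A.ι) : IsOpen (A.ov i j) :=
  (A.e i).isOpen_inter_preimage_symm (A.e j).open_source

theorem ov_mem {i j : A.ι} {x : X} (hx : x ∈ (A.e i).source ∩ (A.e j).source) :
    A.e i x ∈ A.ov i j := ⟨(A.e i).map_source hx.1, by rw [(A.e i).left_inv hx.1]; exact hx.2⟩

theorem tr_at {i j : A.ι} {x : X} (hx : x ∈ (A.e i).source) : tr A i j (A.e i x) = A.e j x := by
  rw [tr, (A.e i).left_inv hx]

theorem Cf_tr {i j : A.ι} {x : X} (hx : x ∈ (A.e i).source ∩ (A.e j).source) :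
    Cf (tr A i j) (A.e i x) = Nm A i j x := by
  ext b h
  exact Cf_eq (tr_diffAt (ov_mem hx)) b h

theorem rd_ev (D : MonD A G) {W : Type*} (f : D.cov G → W) {i j : A.ι} (v : G) {x : X}
    (hx : x ∈ (A.e i).source ∩ (A.e j).source) :
    rd D f i v =ᶠ[𝓝 (A.e i x)] fun z => rd D f j (D.c i j x * v) (tr A i j z) := by
  filter_upwards [(ov_open i j).mem_nhds (ov_mem hx)] with z hz
  have h1 := (A.e i).map_target hz.1
  rw [tr, rd_pt D f _ hz.2, rd, D.pt_eq v h1 hz.2, D.c_loc i j x hx _ ⟨h1, hz.2⟩, smul_eq_mul]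

theorem rd_law (D : MonD A G) {W : Type*} (f : D.cov G → W) {i j : A.ι} (v : G) {x : X}
    (hx : x ∈ (A.e i).source ∩ (A.e j).source) :
    rd D f i v (A.e i x) = rd D f j (D.c i j x * v) (A.e j x) := by
  rw [← tr_at (j := j) hx.1]
  exact (rd_ev D f v hx).self_of_nhds

theorem gk_law (K : Kah A) {i j : A.ι} {x : X} (hx : x ∈ (A.e i).source ∩ (A.e j).source) :
    gk K i (A.e i x) = Nm A i j x * gk K j (A.e j x) * (Nm A i j x)ᴴ := by
  rw [gk, gk, (A.e i).left_inv hx.1, (A.e j).left_inv hx.2]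
  exact K.tr i j x hx

theorem gk_pos (K : Kah A) {i : A.ι} {z : Cn n} (hz : z ∈ (A.e i).target) : (gk K i z).PosDef :=
  K.pos i _ ((A.e i).map_target hz)

theorem Nm_det (K : Kah A) {i j : A.ι} {x : X} (hx : x ∈ (A.e i).source ∩ (A.e j).source) :
    (Nm A i j x).det ≠ 0 := fun h0 => by
  have h1 := congrArg Matrix.det (gk_law K hx)
  rw [Matrix.det_mul, Matrix.det_mul, h0, zero_mul, zero_mul] at h1
  exact (gk_pos K ((A.e i).map_source hx.1)).det_pos.ne' h1

theorem kf (K : Kah A) (i : A.ι) : KF (A.e i).target (gk K i) :=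
  ⟨(A.e i).open_target, K.sm i, fun _ hz => gk_pos K hz, K.closed i, K.closed' i⟩

theorem contOn_gk (K : Kah A) (i : A.ι) : ContinuousOn (gk K i) (A.e i).target :=
  continuousOn_pi.2 fun a => continuousOn_pi.2 fun b => (K.sm i a b).continuousOn

theorem sm_cont {Y : Type} [TopologicalSpace Y] {B : Atl n Y} {W : Type*} [NormedAddCommGroup W]
    [NormedSpace ℝ W] {f : Y → W} (hf : B.Sm f) : Continuous f :=
  continuous_iff_continuousAt.2 fun y => (R275.QN2b734.sm_iff.1 hf y).continuousAt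

theorem sm_rd {W : Type*} [NormedAddCommGroup W] [NormedSpace ℝ W] {f : D.cov G → W}
    (hf : (D.atl G).Sm f) (i : A.ι) (v : G) : ContDiffOn ℝ ∞ (rd D f i v) (A.e i).target :=
  hf (i, v)

theorem smAt_rd {W : Type*} [NormedAddCommGroup W] [NormedSpace ℝ W] {f : D.cov G → W}
    (hf : (D.atl G).Sm f) {i : A.ι} (v : G) {z : Cn n} (hz : z ∈ (A.e i).target) :
    ContDiffAt ℝ ∞ (rd D f i v) z :=
  (sm_rd hf i v).contDiffAt ((A.e i).open_target.mem_nhds hz)

theorem diff_rd {W : Type*} [NormedAddCommGroup W] [NormedSpace ℝ W] {f : D.cov G → W}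
    (hf : (D.atl G).Sm f) {i : A.ι} (v : G) {z : Cn n} (hz : z ∈ (A.e i).target) :
    DifferentiableAt ℝ (rd D f i v) z := (smAt_rd hf v hz).differentiableAt (by simp)

theorem contOn_rd {W : Type*} [TopologicalSpace W] {f : D.cov G → W} (hf : Continuous f)
    (i : A.ι) (v : G) : ContinuousOn (rd D f i v) (A.e i).target :=
  hf.comp_continuousOn ((D.continuousOn_pt i v).comp (A.e i).continuousOn_symm
    fun _ hz => (A.e i).map_target hz)

theorem th_law {f : D.cov G → H} (hf : (D.atl G).Sm f) {i j : A.ι} (v : G) {x : X}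
    (hx : x ∈ (A.e i).source ∩ (A.e j).source) : th (rd D f i v) (A.e i x) =
      ac (Nm A i j x) (th (rd D f j (D.c i j x * v)) (A.e j x)) := by
  rw [th_congr (rd_ev D f v hx), th_cmp (by
    rw [tr_at hx.1]; exact diff_rd hf _ ((A.e j).map_source hx.2)) (tr_diffAt (ov_mem hx)),
    Cf_tr hx, tr_at hx.1]

namespace Dat

variable (hd : Dat D M a)
include hd

theorem hol_rd (i : A.ι) (v : G) : DifferentiableOn ℂ (rd D a i v) (A.e i).target := by
  have := hd.hol (i, v)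
  rwa [preimage_univ, inter_univ] at this

theorem holAt {i : A.ι} (v : G) {z : Cn n} (hz : z ∈ (A.e i).target) :
    DifferentiableAt ℂ (rd D a i v) z :=
  (hd.hol_rd i v).differentiableAt ((A.e i).open_target.mem_nhds hz)

theorem sm : (D.atl G).Sm a := fun p => sm_of_hol (A.e p.1).open_target (hd.hol_rd p.1 p.2)

theorem cont : Continuous a := sm_cont hd.sm

theorem rd_inv {m : G} (hm : m ∈ M) (i : A.ι) (v : G) : rd D a i (v * m⁻¹) = rd D a i v := by
  rw [rd_deck]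
  simp only [hd.inv m hm]

theorem Cf_law {i j : A.ι} (v : G) {x : X} (hx : x ∈ (A.e i).source ∩ (A.e j).source) :
    Cf (rd D a i v) (A.e i x) = Nm A i j x * Cf (rd D a j (D.c i j x * v)) (A.e j x) := by
  rw [Cf_congr (rd_ev D a v hx), Cf_cmp (by
    rw [tr_at hx.1]; exact hd.holAt _ ((A.e j).map_source hx.2)) (tr_diffAt (ov_mem hx)),
    Cf_tr hx, tr_at hx.1]

theorem contOn_Cf (i : A.ι) (v : G) : ContinuousOn (Cf (rd D a i v)) (A.e i).target :=
  Fam.contOn_Cf (A.e i).open_target (hd.hol_rd i v)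

end Dat

/-! ### equivariant maps -/

namespace Eqv

variable {r : Rep M H} {b b' : M → H} {f f' : D.cov G → H}

theorem th_eqv (h : Eqv D M r b f) (m : M) {i : A.ι} (v : G) {z : Cn n}
    (hz : z ∈ (A.e i).target) :
    th (rd D f i (v * (m : G)⁻¹)) z = fun c => r.π m (th (rd D f i v) z c) := by
  rw [rd_deck, ← th_aff (r.π m) (b m) (diff_rd h.sm v hz)]
  simp only [h.eqv]
  rfl

theorem add (h : Eqv D M r b f) (h' : Eqv D M r b' f') :
    Eqv D M r (b + b') fun e => f e + f' e :=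
  ⟨fun p => (h.sm p).add (h'.sm p), fun e => by rw [map_add, h.real, h'.real],
    fun m e => by rw [h.eqv, h'.eqv, map_add, Pi.add_apply]; abel⟩

theorem sub (h : Eqv D M r b f) (h' : Eqv D M r b' f') :
    Eqv D M r (b - b') fun e => f e - f' e :=
  ⟨fun p => (h.sm p).sub (h'.sm p), fun e => by rw [map_sub, h.real, h'.real],
    fun m e => by rw [h.eqv, h'.eqv, map_sub, Pi.sub_apply]; abel⟩

theorem sub0 (h : Eqv D M r b f) (h' : Eqv D M r b f') : Eqv D M r 0 fun e => f e - f' e := by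
  have := h.sub h'
  rwa [sub_self] at this

/-- multiplication by an invariant function -/
theorem mul (h : Eqv D M r 0 f) {w : D.cov G → ℝ} (hw : (D.atl G).Sm w)
    (hi : ∀ m ∈ M, ∀ e, w (m • e) = w e) : Eqv D M r 0 fun e => w e • f e :=
  ⟨fun p => (hw p).smul (h.sm p), fun e => by
      rw [← Complex.coe_smul, r.J_real_smul, h.real],
    fun m e => by
      rw [h.eqv, hi m m.2, Pi.zero_apply, add_zero, add_zero, ← Complex.coe_smul,
        ← Complex.coe_smul, map_smul]⟩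

theorem add_smul (h : Eqv D M r b f) (h' : Eqv D M r 0 f') (t : ℝ) :
    Eqv D M r b fun e => f e + t • f' e := by
  have := h.add (h'.mul (w := fun _ => t) (fun _ => contDiffOn_const) fun _ _ _ => rfl)
  rwa [add_zero] at this

theorem contOn_th (h : Eqv D M r b f) (i : A.ι) (v : G) :
    ContinuousOn (th (rd D f i v)) (A.e i).target :=
  Fam.contOn_th (A.e i).open_target (sm_rd h.sm i v)

end Eqv

/-! ### quadratic densities -/

/-- a family of matrices which defines a density on pairs of forms -/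
structure QD0 (D : MonD A G) (M : Subgroup G) (Q : A.ι → G → Cn n → Mt n) : Prop where
  law : ∀ i j v, ∀ x ∈ (A.e i).source ∩ (A.e j).source,
    (Nm A i j x)ᴴ * Q i v (A.e i x) * Nm A i j x =
      ((‖(Nm A i j x).det‖ ^ 2 : ℝ) : ℂ) • Q j (D.c i j x * v) (A.e j x)
  inv : ∀ m ∈ M, ∀ i v, ∀ z ∈ (A.e i).target, Q i (v * m⁻¹) z = Q i v z
  cont : ∀ i v, ContinuousOn (Q i v) (A.e i).target

/-- with support in `‖a‖ ≤ R` -/
structure QD (D : MonD A G) (M : Subgroup G) (a : D.cov G → Cn q) (R : ℝ)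
    (Q : A.ι → G → Cn n → Mt n) : Prop extends QD0 D M Q where
  supp : ∀ i v, ∀ z ∈ (A.e i).target, R < ‖rd D a i v z‖ → Q i v z = 0

/-- invariant weights -/
structure Wt0 (D : MonD A G) (M : Subgroup G) (w : D.cov G → ℂ) : Prop where
  cont : Continuous w
  inv : ∀ m ∈ M, ∀ e, w (m • e) = w e

/-- invariant weights with support in `‖a‖ ≤ R` -/
structure Wt (D : MonD A G) (M : Subgroup G) (a : D.cov G → Cn q) (R : ℝ) (w : D.cov G → ℂ) :
    Prop extends Wt0 D M w where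
  supp : ∀ e, R < ‖a e‖ → w e = 0

/-- multiplication by a weight -/
def wq (D : MonD A G) (w : D.cov G → ℂ) (Q : A.ι → G → Cn n → Mt n) : A.ι → G → Cn n → Mt n :=
  fun i v z => rd D w i v z • Q i v z

/-- the density of a pair of maps -/
def dq (D : MonD A G) (Q : A.ι → G → Cn n → Mt n) (f f' : D.cov G → H) : A.ι → G → Cn n → ℂ :=
  fun i v z => ip (Q i v z) (th (rd D f i v) z) (th (rd D f' i v) z)

variable {Q Q' : A.ι → G → Cn n → Mt n} {w : D.cov G → ℂ}

theorem Wt.comp (hd : Dat D M a) {φ : Cn q → ℂ} (hφ : Continuous φ)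
    (h0 : ∀ t, R < ‖t‖ → φ t = 0) : Wt D M a R fun e => φ (a e) :=
  ⟨⟨hφ.comp hd.cont, fun m hm e => by rw [hd.inv m hm]⟩, fun e he => h0 _ he⟩

theorem Wt0.pr {φ : X → ℂ} (hφ : Continuous φ) : Wt0 D M fun e => φ (D.pr e) :=
  ⟨hφ.comp D.continuous_pr, fun _ _ _ => rfl⟩

theorem QD0.wq0 (h : QD0 D M Q) (hw : Wt0 D M w) : QD0 D M (wq D w Q) :=
  ⟨fun i j v x hx => by
      rw [wq, wq, Matrix.mul_smul, Matrix.smul_mul, h.law i j v x hx, rd_law D w v hx, smul_comm],
    fun m hm i v z hz => by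
      rw [wq, wq, h.inv m hm i v z hz, rd_deck]
      simp only [hw.inv m hm],
    fun i v => (contOn_rd hw.cont i v).smul (h.cont i v)⟩

theorem QD0.wq (h : QD0 D M Q) (hw : Wt D M a R w) : QD D M a R (wq D w Q) :=
  ⟨h.wq0 hw.toWt0, fun i v z _ h1 => by rw [Fam.wq, rd, hw.supp _ h1, zero_smul]⟩

theorem QD.wq (h : QD D M a R Q) (hw : Wt0 D M w) : QD D M a R (wq D w Q) :=
  ⟨h.toQD0.wq0 hw, fun i v z hz h1 => by rw [Fam.wq, h.supp i v z hz h1, smul_zero]⟩

theorem QD0.sub (h : QD0 D M Q) (h' : QD0 D M Q') : QD0 D M fun i v z => Q i v z - Q' i v z :=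
  ⟨fun i j v x hx => by
      rw [Matrix.mul_sub, Matrix.sub_mul, h.law i j v x hx, h'.law i j v x hx, smul_sub],
    fun m hm i v z hz => by rw [h.inv m hm i v z hz, h'.inv m hm i v z hz],
    fun i v => (h.cont i v).sub (h'.cont i v)⟩

theorem QD.mono (h : QD D M a R Q) {R' : ℝ} (hR : R ≤ R') : QD D M a R' Q :=
  ⟨h.toQD0, fun i v z hz h1 => h.supp i v z hz (hR.trans_lt h1)⟩

variable {r : Rep M H} {b b' b'' : M → H} {f f' f'' : D.cov G → H}

theorem QD0.den (h : QD0 D M Q) (hf : Eqv D M r b f) (hf' : Eqv D M r b' f')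
    (h0 : ∀ i v, ∀ z ∈ (A.e i).target, R < ‖rd D a i v z‖ → dq D Q f f' i v z = 0) :
    Den D M a R (dq D Q f f') :=
  ⟨fun i j v x hx => by
      rw [dq, dq, th_law hf.sm v hx, th_law hf'.sm v hx, ← ip_conj, h.law i j v x hx, ip_smul,
        Matrix.det_transpose],
    fun m hm i v z hz => by
      rw [dq, dq, h.inv m hm i v z hz, hf.th_eqv ⟨m, hm⟩ v hz, hf'.th_eqv ⟨m, hm⟩ v hz]
      exact ip_iso (r.π ⟨m, hm⟩).toLinearIsometry _ _ _,
    fun i v => contOn_ip (h.cont i v) (hf.contOn_th i v) (hf'.contOn_th i v), h0⟩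

theorem QD.den (h : QD D M a R Q) (hf : Eqv D M r b f) (hf' : Eqv D M r b' f') :
    Den D M a R (dq D Q f f') :=
  h.toQD0.den hf hf' fun i v z hz h1 => by rw [dq, h.supp i v z hz h1, ip_zero_mat]

/-! ### the instances -/

/-- the energy of `K + ε⁻¹ a^*(flat)` -/
def QE (D : MonD A G) (K : Kah A) (a : D.cov G → Cn q) (ε : ℝ) : A.ι → G → Cn n → Mt n :=
  fun i v z => Qe (gk K i z) (Cf (rd D a i v) z) ε

/-- the vertical energy -/
def QZ (D : MonD A G) (K : Kah A) (a : D.cov G → Cn q) : A.ι → G → Cn n → Mt n :=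
  fun i v z => Q0 (gk K i z) (Cf (rd D a i v) z)

/-- the majorant -/
def QA (D : MonD A G) (K : Kah A) (a : D.cov G → Cn q) : A.ι → G → Cn n → Mt n :=
  fun i v z => ((Dm (gk K i z) (Cf (rd D a i v) z) 1 : ℝ) : ℂ) • (gk K i z).adjugate

/-- the Siu-Sampson form -/
def WM (D : MonD A G) (K : Kah A) (a : D.cov G → Cn q) (ε : ℝ) (Z : A.ι → G → Cn n → Mt n) :
    A.ι → G → Cn n → Mt n :=
  fun i v z => Wm (gE (gk K i z) (Cf (rd D a i v) z) ε) (Z i v z)

/-- invariant `(1,1)`-tensors -/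
structure T11 (D : MonD A G) (M : Subgroup G) (a : D.cov G → Cn q) (R : ℝ)
    (Z : A.ι → G → Cn n → Mt n) : Prop where
  law : ∀ i j v, ∀ x ∈ (A.e i).source ∩ (A.e j).source,
    Z i v (A.e i x) = Nm A i j x * Z j (D.c i j x * v) (A.e j x) * (Nm A i j x)ᴴ
  inv : ∀ m ∈ M, ∀ i v, ∀ z ∈ (A.e i).target, Z i (v * m⁻¹) z = Z i v z
  cont : ∀ i v, ContinuousOn (Z i v) (A.e i).target
  supp : ∀ i v, ∀ z ∈ (A.e i).target, R < ‖rd D a i v z‖ → Z i v z = 0

variable (K : Kah A)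

theorem qd_E (hd : Dat D M a) (ε : ℝ) : QD0 D M (QE D K a ε) :=
  ⟨fun i j v x hx => by rw [QE, QE, gk_law K hx, hd.Cf_law v hx, Qe_conj],
    fun m hm i v z _ => by rw [QE, QE, hd.rd_inv hm],
    fun i v => contOn_Qe (contOn_gk K i) (hd.contOn_Cf i v) ε⟩

theorem qd_Z (hd : Dat D M a) : QD0 D M (QZ D K a) :=
  ⟨fun i j v x hx => by rw [QZ, QZ, gk_law K hx, hd.Cf_law v hx, Q0_conj (Nm_det K hx)],
    fun m hm i v z _ => by rw [QZ, QZ, hd.rd_inv hm],
    fun i v => contOn_Q0 (contOn_gk K i) (hd.contOn_Cf i v) fun _ hz => gk_pos K hz⟩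

theorem qd_A (hd : Dat D M a) : QD0 D M (QA D K a) :=
  ⟨fun i j v x hx => by
      rw [QA, QA, gk_law K hx, hd.Cf_law v hx, Dm_conj (Nm_det K hx), Matrix.mul_smul,
        Matrix.smul_mul, adj_conj, smul_comm],
    fun m hm i v z _ => by rw [QA, QA, hd.rd_inv hm],
    fun i v => (Complex.continuous_ofReal.comp_continuousOn (contOn_Dm (contOn_gk K i)
      (hd.contOn_Cf i v) (fun _ hz => gk_pos K hz) 1)).smul
      (continuous_id.matrix_adjugate.comp_continuousOn (contOn_gk K i))⟩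

theorem qd_W (hd : Dat D M a) {ε : ℝ} (hε : 0 < ε) {Z : A.ι → G → Cn n → Mt n}
    (hZ : T11 D M a R Z) : QD D M a R (WM D K a ε Z) :=
  ⟨⟨fun i j v x hx => by
      rw [WM, WM, gk_law K hx, hd.Cf_law v hx, hZ.law i j v x hx, gE_conj,
        Wm_conj (Nm_det K hx)],
    fun m hm i v z hz => by rw [WM, WM, hd.rd_inv hm, hZ.inv m hm i v z hz],
    fun i v => contOn_Wm (contOn_gE (contOn_gk K i) (hd.contOn_Cf i v) ε) (hZ.cont i v)
      fun _ hz => gE_posDef (gk_pos K hz) _ hε⟩,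
    fun i v z hz h1 => by rw [WM, hZ.supp i v z hz h1, Wm_zero]⟩

/-- smooth invariant real weights -/
structure Ws (D : MonD A G) (M : Subgroup G) (a : D.cov G → Cn q) (R : ℝ) (u : D.cov G → ℝ) :
    Prop where
  sm : (D.atl G).Sm u
  inv : ∀ m ∈ M, ∀ e, u (m • e) = u e
  supp : ∀ e, R < ‖a e‖ → u e = 0

variable {u : D.cov G → ℝ}

theorem Ws.wt (h : Ws D M a R u) : Wt D M a R fun e => (u e : ℂ) :=
  ⟨⟨Complex.continuous_ofReal.comp (sm_cont h.sm),
    fun m hm e => by rw [h.inv m hm]⟩, fun e he => by rw [h.supp e he, Complex.ofReal_zero]⟩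

theorem Ws.comp (hd : Dat D M a) {φ : Cn q → ℝ} (hφ : ContDiff ℝ ∞ φ)
    (h0 : ∀ t, R < ‖t‖ → φ t = 0) : Ws D M a R fun e => φ (a e) :=
  ⟨fun p => hφ.comp_contDiffOn (hd.sm p), fun m hm e => by rw [hd.inv m hm], fun e he => h0 _ he⟩

theorem Ws.mul_pr (h : Ws D M a R u) {φ : X → ℝ} (hφ : A.Sm φ) :
    Ws D M a R fun e => φ (D.pr e) * u e :=
  ⟨fun p => (hφ p.1).mul (h.sm p), fun m hm e => by rw [h.inv m hm, D.pr_deck],
    fun e he => by rw [h.supp e he, mul_zero]⟩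

theorem Ws.rd_inv (h : Ws D M a R u) {m : G} (hm : m ∈ M) (i : A.ι) (v : G) :
    rd D u i (v * m⁻¹) = rd D u i v := by
  rw [rd_deck]
  simp only [h.inv m hm]

theorem Ws.ev_zero (hd : Dat D M a) (h : Ws D M a R u) {i : A.ι} {v : G} {z : Cn n}
    (hz : z ∈ (A.e i).target) (h1 : R < ‖rd D a i v z‖) : rd D u i v =ᶠ[𝓝 z] fun _ => 0 := by
  filter_upwards [(hd.holAt v hz).continuousAt.norm.eventually (lt_mem_nhds h1)] with y hy
  exact h.supp _ hy

theorem Ws.t_hess (hd : Dat D M a) (h : Ws D M a R u) :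
    T11 D M a R fun i v z => hess (rd D u i v) z :=
  ⟨fun i j v x hx => by
      rw [hess_congr (rd_ev D u v hx), hess_cmp (T := tr A i j) (ov_open i j) (A.holo i j)
        (ov_mem hx) (by rw [tr_at hx.1]; exact smAt_rd h.sm _ ((A.e j).map_source hx.2)),
        Cf_tr hx, tr_at hx.1],
    fun m hm i v z _ => by rw [h.rd_inv hm],
    fun i v => continuousOn_pi.2 fun c => continuousOn_pi.2 fun d =>
      (contDiffOn_hess (A.e i).open_target (sm_rd h.sm i v) c d).continuousOn,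
    fun i v z hz h1 => by rw [hess_congr (h.ev_zero hd hz h1), hess_zero]⟩

theorem Ws.t_d1 (hd : Dat D M a) (h : Ws D M a R u) (c : Fin q → ℂ) :
    T11 D M a R fun i v z => d1 (Cf (rd D a i v) z *ᵥ c) (rd D u i v) z :=
  ⟨fun i j v x hx => by
      rw [d1_congr _ (rd_ev D u v hx), hd.Cf_law v hx, ← Matrix.mulVec_mulVec, ← Cf_tr hx,
        d1_cmp (by rw [tr_at hx.1]; exact diff_rd h.sm _ ((A.e j).map_source hx.2))
          (tr_diffAt (ov_mem hx)), tr_at hx.1],
    fun m hm i v z _ => by rw [h.rd_inv hm, hd.rd_inv hm],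
    fun i v => continuousOn_pi.2 fun c' => continuousOn_pi.2 fun d =>
      (continuousOn_pi.1 ((continuous_id.matrix_mulVec continuous_const).comp_continuousOn
        (hd.contOn_Cf i v)) c').mul (contDiffOn_wd (A.e i).open_target
          (Complex.ofRealCLM.contDiff.comp_contDiffOn (sm_rd h.sm i v)) _).continuousOn,
    fun i v z hz h1 => by rw [d1_congr _ (h.ev_zero hd hz h1), d1_zero]⟩

/-! ### the global form -/

variable [Finite A.ι] [Countable G] [T2Space X]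

/-- the global sesquilinear form -/
def IQ (D : MonD A G) (K : Kah A) (M : Subgroup G) (Q : A.ι → G → Cn n → Mt n)
    (f f' : D.cov G → H) : ℂ := IM D K M (dq D Q f f')

theorem IQ_congr (e : ∀ i v, ∀ z ∈ (A.e i).target, Q i v z = Q' i v z) :
    IQ D K M Q f f' = IQ D K M Q' f f' :=
  IM_congr K fun i v z hz => by rw [dq, dq, e i v z hz]

theorem IQ_sub_left (hd : Dat D M a) (h : QD D M a R Q) (hf : Eqv D M r b f)
    (hf' : Eqv D M r b' f') (hf'' : Eqv D M r b'' f'') :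
    IQ D K M Q (fun e => f e - f' e) f'' = IQ D K M Q f f'' - IQ D K M Q f' f'' := by
  rw [IQ, IQ, IQ, ← IM_sub K hd (h.den hf hf'') (h.den hf' hf'')]
  refine IM_congr K fun i v z hz => ?_
  rw [dq, dq, dq, ← ip_sub_left, ← th_sub (diff_rd hf.sm v hz) (diff_rd hf'.sm v hz)]
  rfl

theorem IQ_sub_right (hd : Dat D M a) (h : QD D M a R Q) (hf : Eqv D M r b f)
    (hf' : Eqv D M r b' f') (hf'' : Eqv D M r b'' f'') :
    IQ D K M Q f'' (fun e => f e - f' e) = IQ D K M Q f'' f - IQ D K M Q f'' f' := by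
  rw [IQ, IQ, IQ, ← IM_sub K hd (h.den hf'' hf) (h.den hf'' hf')]
  refine IM_congr K fun i v z hz => ?_
  rw [dq, dq, dq, ← ip_sub_right, ← th_sub (diff_rd hf.sm v hz) (diff_rd hf'.sm v hz)]
  rfl

theorem IQ_sub (hd : Dat D M a) (h : QD D M a R Q) (h' : QD D M a R Q') (hf : Eqv D M r b f)
    (hf' : Eqv D M r b' f') :
    IQ D K M (fun i v z => Q i v z - Q' i v z) f f' = IQ D K M Q f f' - IQ D K M Q' f f' := by
  rw [IQ, IQ, IQ, ← IM_sub K hd (h.den hf hf') (h'.den hf hf')]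
  exact IM_congr K fun i v z _ => ip_sub _ _ _ _

theorem IQ_smul (c : ℂ) : IQ D K M (fun i v z => c • Q i v z) f f' = c * IQ D K M Q f f' := by
  rw [IQ, IQ, ← IM_smul]
  exact IM_congr K fun i v z _ => ip_smul _ _ _ _

theorem IQ_sum (hd : Dat D M a) {κ : Type*} (s : Finset κ) {Q : κ → A.ι → G → Cn n → Mt n}
    (h : ∀ k ∈ s, QD D M a R (Q k)) (hf : Eqv D M r b f) (hf' : Eqv D M r b' f') :
    IQ D K M (fun i v z => ∑ k ∈ s, Q k i v z) f f' = ∑ k ∈ s, IQ D K M (Q k) f f' := by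
  simp only [IQ]
  rw [← IM_sum K hd s fun k hk => (h k hk).den hf hf']
  exact IM_congr K fun i v z _ => ip_sum _ _ _ _

/-- positivity of a family -/
def Psd (A : Atl n X) (Q : A.ι → G → Cn n → Mt n) : Prop :=
  ∀ i v, ∀ z ∈ (A.e i).target, (Q i v z).PosSemidef

theorem psd_E (ε : ℝ) (hε : 0 < ε) : Psd A (QE D K a ε) :=
  fun _ _ _ hz => (Qe_posDef (gk_pos K hz) _ hε).posSemidef

theorem psd_Z : Psd A (QZ D K a) := fun _ _ _ hz => Q0_psd (gk_pos K hz) _

theorem Psd.wq (h : Psd A Q) (h0 : ∀ e, 0 ≤ u e) : Psd A (wq D (fun e => (u e : ℂ)) Q) :=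
  fun i v z hz => (h i v z hz).smul (Complex.zero_le_real.2 (h0 _))

theorem IQ_nonneg (hd : Dat D M a) (h : QD D M a R Q) (hp : Psd A Q) (hf : Eqv D M r b f) :
    0 ≤ (IQ D K M Q f f).re :=
  re_IM_nonneg K hd (h.den hf hf) fun i v z hz => en_nonneg (hp i v z hz) _

theorem re_IQ_comm (hd : Dat D M a) (h : QD D M a R Q) (hp : Psd A Q) (hf : Eqv D M r b f)
    (hf' : Eqv D M r b' f') : (IQ D K M Q f f').re = (IQ D K M Q f' f).re :=
  le_antisymm
    (re_IM_mono K hd (h.den hf hf') (h.den hf' hf) fun i v z hz =>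
      (re_ip_comm (hp i v z hz).1 _ _).le)
    (re_IM_mono K hd (h.den hf' hf) (h.den hf hf') fun i v z hz =>
      (re_ip_comm (hp i v z hz).1 _ _).le)

theorem re_IQ_add_smul (hd : Dat D M a) (h : QD D M a R Q) (hp : Psd A Q) (hf : Eqv D M r b f)
    (hf' : Eqv D M r 0 f') (t : ℝ) :
    (IQ D K M Q (fun e => f e + t • f' e) fun e => f e + t • f' e).re =
      (IQ D K M Q f f).re + 2 * t * (IQ D K M Q f' f).re + t ^ 2 * (IQ D K M Q f' f').re := by
  have h1 := ((h.den hf hf).add ((h.den hf' hf).smul ((2 * t : ℝ) : ℂ))).add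
    ((h.den hf' hf').smul ((t ^ 2 : ℝ) : ℂ))
  have h2 := h.den (hf.add_smul hf' t) (hf.add_smul hf' t)
  have h3 : ∀ i v, ∀ z ∈ (A.e i).target, (dq D Q (fun e => f e + t • f' e)
      (fun e => f e + t • f' e) i v z).re = (dq D Q f f i v z + ((2 * t : ℝ) : ℂ) *
        dq D Q f' f i v z + ((t ^ 2 : ℝ) : ℂ) * dq D Q f' f' i v z).re := by
    intro i v z hz
    have h4 : th (rd D (fun e => f e + t • f' e) i v) z =
        th (rd D f i v) z + (t : ℂ) • th (rd D f' i v) z := by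
      rw [← th_smul _ (diff_rd hf'.sm v hz), ← th_add (diff_rd hf.sm v hz)
        ((diff_rd hf'.sm v hz).fun_const_smul _)]
      rfl
    simp only [dq, h4, Complex.add_re, Complex.re_ofReal_mul]
    exact en_add_smul (hp i v z hz).1 _ _ t
  rw [IQ, le_antisymm (re_IM_mono K hd h2 h1 fun i v z hz => (h3 i v z hz).le)
    (re_IM_mono K hd h1 h2 fun i v z hz => (h3 i v z hz).ge),
    IM_add K hd ((h.den hf hf).add ((h.den hf' hf).smul _)) ((h.den hf' hf').smul _),
    IM_add K hd (h.den hf hf) ((h.den hf' hf).smul _), IM_smul, IM_smul]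
  simp only [Complex.add_re, Complex.re_ofReal_mul, IQ]

theorem le_sqrt_of_forall {x s P P' : ℝ} (hs : 0 ≤ s) (hP : 0 ≤ P) (hP' : 0 ≤ P')
    (h : ∀ t : ℝ, 0 < t → x ≤ s * (t / 2 * P + 1 / (2 * t) * P')) : x ≤ s * (√P * √P') := by
  refine le_of_forall_pos_le_add fun η hη => ?_
  obtain ⟨δ, hδ, h1⟩ : ∃ δ : ℝ, 0 < δ ∧ s * (δ * (√P + √P' + δ)) ≤ η := by
    have h2 : Tendsto (fun δ : ℝ => s * (δ * (√P + √P' + δ))) (𝓝[>] 0)
        (𝓝 (s * (0 * (√P + √P' + 0)))) :=
      (Continuous.tendsto (by fun_prop) 0).mono_left nhdsWithin_le_nhds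
    rw [zero_mul, mul_zero] at h2
    obtain ⟨δ, h3, h4⟩ := ((h2.eventually (gt_mem_nhds hη)).and self_mem_nhdsWithin).exists
    exact ⟨δ, h4, h3.le⟩
  have h2 := Real.sqrt_nonneg P
  have h3 := Real.sqrt_nonneg P'
  set p := √P + δ with hp
  set p' := √P' + δ with hp'
  have hp0 : 0 < p := by positivity
  have hp0' : 0 < p' := by positivity
  have h4 : P ≤ p ^ 2 := by rw [hp]; nlinarith [Real.sq_sqrt hP]
  have h5 : P' ≤ p' ^ 2 := by rw [hp']; nlinarith [Real.sq_sqrt hP']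
  have h6 : p' / p / 2 * P + 1 / (2 * (p' / p)) * P' ≤ p * p' :=
    calc _ ≤ p' / p / 2 * p ^ 2 + 1 / (2 * (p' / p)) * p' ^ 2 := by gcongr
      _ = p * p' := by field_simp; ring
  calc x ≤ _ := h (p' / p) (by positivity)
    _ ≤ s * (p * p') := mul_le_mul_of_nonneg_left h6 hs
    _ = s * (√P * √P') + s * (δ * (√P + √P' + δ)) := by rw [hp, hp']; ring
    _ ≤ _ := by linarith

/-- **Cauchy-Schwarz** with weights `‖w‖ ≤ s u` -/
theorem norm_IQ_le (hd : Dat D M a) (h : QD0 D M Q) (hp : Psd A Q)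
    (hu : Wt D M a R fun e => (u e : ℂ)) (h0 : ∀ e, 0 ≤ u e) {s : ℝ} (hs : 0 ≤ s)
    (hw : ∀ e, ‖w e‖ ≤ s * u e) (hf : Eqv D M r b f) (hf' : Eqv D M r b' f') :
    ‖IQ D K M (wq D w Q) f f'‖ ≤ s * (√(IQ D K M (wq D (fun e => (u e : ℂ)) Q) f f).re *
      √(IQ D K M (wq D (fun e => (u e : ℂ)) Q) f' f').re) := by
  have h1 := h.wq hu
  refine le_sqrt_of_forall hs (IQ_nonneg K hd h1 (hp.wq h0) hf) (IQ_nonneg K hd h1 (hp.wq h0) hf')
    fun t ht => ?_
  have h2 := (((h1.den hf hf).smul ((t / 2 : ℝ) : ℂ)).add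
    ((h1.den hf' hf').smul ((1 / (2 * t) : ℝ) : ℂ))).smul (s : ℂ)
  refine (norm_IM_le K hd h2 fun i v z hz => ?_).trans (le_of_eq ?_)
  · simp only [dq, wq, ip_smul, Complex.add_re, Complex.re_ofReal_mul, norm_mul, rd]
    refine (mul_le_mul (hw _) (norm_ip_le (hp i v z hz) _ _ t ht) (norm_nonneg _)
      (mul_nonneg hs (h0 _))).trans (le_of_eq ?_)
    unfold en
    ring
  · rw [IM_smul, IM_add K hd ((h1.den hf hf).smul _) ((h1.den hf' hf').smul _), IM_smul, IM_smul]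
    simp only [Complex.add_re, Complex.re_ofReal_mul, IQ]

/-! ### partitions of unity -/

/-- a smooth partition of unity subordinate to the charts -/
structure PU (A : Atl n X) [Fintype A.ι] (ψ : A.ι → X → ℝ) : Prop where
  sm : ∀ j, A.Sm (ψ j)
  nn : ∀ j x, 0 ≤ ψ j x
  sub : ∀ j, tsupport (ψ j) ⊆ (A.e j).source
  one : ∀ x, ∑ j, ψ j x = 1

omit [Finite A.ι] in
theorem exists_PU [Fintype A.ι] [CompactSpace X] : ∃ ψ, PU A ψ := by
  obtain ⟨t, φ, h1, h2, -, h4, h5, -, h7⟩ := R275.QN2b734.exists_partition A isCompact_univ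
    (fun j => (A.e j).source) (fun j => (A.e j).open_source) fun x _ => A.cover x
  refine ⟨φ, fun j => R275.QN2b734.sm_iff.2 (h1 j), fun j x => (h2 j x).1, h4, fun x => ?_⟩
  rw [← h7.self_of_nhdsSet x (mem_univ x)]
  exact (Finset.sum_subset (Finset.subset_univ t) fun j _ hj => by rw [h5 j hj]; rfl).symm

omit [Finite A.ι] in
theorem exists_PU_at [Fintype A.ι] [CompactSpace X] {j : A.ι} {x₀ : X}
    (hx : x₀ ∈ (A.e j).source) : ∃ ψ, PU A ψ ∧ ψ j x₀ = 1 := by
  classical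
  obtain ⟨φ, h⟩ := exists_PU (A := A)
  obtain ⟨β, b1, b2, b3, -, b5⟩ :=
    R275.QN2b734.exists_bump_point A ((A.e j).open_source.mem_nhds hx)
  have b6 := R275.QN2b734.sm_iff.2 b1
  refine ⟨fun i x => (1 - β x) * φ i x + if i = j then β x else 0, ⟨fun i k => ?_, fun i x => ?_,
    fun i => ?_, fun x => ?_⟩, by simp [b3.self_of_nhds]⟩
  · refine ((contDiffOn_const.sub (b6 k)).mul (h.sm i k)).add ?_
    split_ifs
    exacts [b6 k, contDiffOn_const]
  · refine add_nonneg (mul_nonneg (sub_nonneg.2 (b2 x).2) (h.nn i x)) ?_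
    split_ifs
    exacts [(b2 x).1, le_rfl]
  · refine (tsupport_add _ _).trans (union_subset
      ((tsupport_mul_subset_right).trans (h.sub i)) ?_)
    by_cases hi : i = j
    · simp only [if_pos hi]
      exact hi ▸ b5
    · simp only [if_neg hi]
      exact (tsupport_fun_zero (X := X) (α := ℝ)).le.trans (empty_subset _)
  · rw [Finset.sum_add_distrib, ← Finset.mul_sum, h.one]
    simp

/-- **localisation** of the global form -/
theorem IQ_part [Fintype A.ι] (hd : Dat D M a) {ψ : A.ι → X → ℝ} (hψ : PU A ψ)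
    {T : Finset (G ⧸ M)} (hT : ∀ j, ∀ w ∉ T, ∀ z ∈ (A.e j).target, R < ‖rd D a j w.out z‖)
    (h : QD D M a R Q) (hf : Eqv D M r b f) (hf' : Eqv D M r b' f') :
    IQ D K M Q f f' = ∑ j, ∑ w ∈ T, ∫ z in (A.e j).target,
      (ψ j ((A.e j).symm z) : ℂ) * dq D Q f f' j w.out z := by
  have h1 : ∀ j, QD D M a R (wq D (fun e => (ψ j (D.pr e) : ℂ)) Q) := fun j => h.wq
    (Wt0.pr (Complex.continuous_ofReal.comp (sm_cont (hψ.sm j))))
  have h2 : IQ D K M Q f f' =
      IQ D K M (fun i v z => ∑ j, wq D (fun e => (ψ j (D.pr e) : ℂ)) Q i v z) f f' := by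
    refine IQ_congr K fun i v z _ => ?_
    simp only [wq, rd]
    rw [← Finset.sum_smul, ← Complex.ofReal_sum, hψ.one, Complex.ofReal_one, one_smul]
  rw [h2, IQ_sum K hd _ (fun j _ => h1 j) hf hf']
  refine Finset.sum_congr rfl fun j _ => ?_
  rw [IQ, IM_eq_sum K hd ((h1 j).den hf hf') j T (fun i v x hi hj => ?_)
    fun w hw z hz => ((h1 j).den hf hf').supp j _ z hz (hT j w hw z hz)]
  · simp only [dq, wq, ip_smul]
    rfl
  · rw [dq, wq, rd_pt D _ v hi, D.pr_pt,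
      image_eq_zero_of_notMem_tsupport fun h3 => hj (hψ.sub j h3), Complex.ofReal_zero,
      zero_smul, ip_zero_mat]

theorem dq_Z (ψ : Cn q → ℝ) (f : D.cov G → H) {i : A.ι} (v : G) {z : Cn n}
    (hz : z ∈ (A.e i).target) : dq D (wq D (fun e => (ψ (a e) : ℂ)) (QZ D K a)) f f i v z =
      ((ψ (rd D a i v z) * e0 (gk K i z) (Cf (rd D a i v) z) (th (rd D f i v) z) : ℝ) : ℂ) := by
  rw [dq, wq, ip_smul, QZ, ip_real (Q0_psd (gk_pos K hz) _).1, Complex.ofReal_mul]
  rfl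

/-- **EX**: existence, with the exact fibre energy -/
def ExStmt : Prop :=
  ∀ (n q : ℕ) (X : Type) [TopologicalSpace X] [T2Space X] [CompactSpace X] (A : Atl n X)
    [Finite A.ι], Part A → ∀ (K : Kah A) (G : Type) [Group G] [Countable G] (D : MonD A G)
    (M : Subgroup G) (a : D.cov G → Cn q), Dat D M a →
    ∀ (H : Type) [NormedAddCommGroup H] [InnerProductSpace ℂ H] [CompleteSpace H] (α : Act M H),
      ∃ (f : ℕ → D.cov G → H) (S : A.ι → G → X → FI n → H) (E : ℝ), 0 ≤ E ∧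
        (∀ k, Eqv D M α.toRep α.b (f k)) ∧ Lm D a f S ∧ IsMin D K M a α.toRep α.b S ∧
        ∀ ψ : Cn q → ℝ, Continuous ψ → HasCompactSupport ψ →
          Tendsto (fun k => (IQ D K M (wq D (fun e => (ψ (a e) : ℂ)) (QZ D K a)) (f k) (f k)).re)
            atTop (𝓝 (E * ∫ t, ψ t))

/-- **UNIQ** -/
def UniqStmt : Prop :=
  ∀ (n q : ℕ) (X : Type) [TopologicalSpace X] [T2Space X] [CompactSpace X] (A : Atl n X)
    [Finite A.ι] (K : Kah A) (G : Type) [Group G] [Countable G] (D : MonD A G)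
    (M : Subgroup G) (a : D.cov G → Cn q), Dat D M a →
    ∀ (H : Type) [NormedAddCommGroup H] [InnerProductSpace ℂ H] [CompleteSpace H]
      (r : Rep M H) (b : M → H) (S S' : A.ι → G → X → FI n → H), IsMin D K M a r b S →
        IsMin D K M a r b S' → ∀ i v, ∀ x ∈ (A.e i).source, S i v x = S' i v x

end

end Crest.Agent.X261.Fam
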