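import Crest.Agent.X261.Fam.St
import Crest.Agent.X261.Plk.V
import Crest.Agent.R271.Weyl_399

/-!
# Row 261, package FAM, part Hol (helper24), file A : Weyl's lemma for Hilbert space valued maps
-/

set_option autoImplicit false
set_option linter.unusedSectionVars false

open Set Filter Topology MeasureTheory Metric
open scoped ComplexConjugate InnerProductSpace ContDiff NNReal

namespace Crest.Agent.X261.Fam.Hol

open Crest.Agent.R275.Geo Crest.Agent.R275.EDR890 Crest.Agent.R273.Hess_333
open Crest.Agent.R271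

noncomputable section

variable {n : ℕ} {H : Type} [NormedAddCommGroup H] [InnerProductSpace ℂ H] [CompleteSpace H]

/-- the coordinates, as a real linear equivalence -/
def eR (n : ℕ) : Cn n ≃L[ℝ] (Fin n → ℂ) := PiLp.continuousLinearEquiv 2 ℝ (fun _ : Fin n => ℂ)

/-- the coordinates, as a complex linear equivalence -/
def eC (n : ℕ) : Cn n ≃L[ℂ] (Fin n → ℂ) := PiLp.continuousLinearEquiv 2 ℂ (fun _ : Fin n => ℂ)

theorem exists_map (n : ℕ) :
    ∃ c : ℝ≥0, Measure.map (eR n).symm volume = c • (volume : Measure (Cn n)) := by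
  have := (eR n).symm.isAddHaarMeasure_map (volume : Measure (Fin n → ℂ))
  exact ⟨_, Measure.isAddLeftInvariant_eq_smul _ _⟩

theorem me_symm (n : ℕ) : MeasurableEmbedding (eR n).symm :=
  (eR n).symm.toHomeomorph.measurableEmbedding

theorem int_comp {W : Type*} [NormedAddCommGroup W] {f : Cn n → W} (hf : Integrable f) :
    Integrable (fun x => f ((eR n).symm x)) := by
  obtain ⟨c, hc⟩ := exists_map n
  have h : Integrable f (Measure.map (eR n).symm volume) := by
    rw [hc]; exact hf.smul_measure_nnreal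
  exact (me_symm n).integrable_map_iff.1 h

theorem int_comp_zero {W : Type*} [NormedAddCommGroup W] [NormedSpace ℝ W] {f : Cn n → W}
    (hf : ∫ z, f z = 0) : ∫ x, f ((eR n).symm x) = 0 := by
  obtain ⟨c, hc⟩ := exists_map n
  rw [← (me_symm n).integral_map, hc, integral_smul_nnreal_measure, hf, smul_zero]

theorem qmp (n : ℕ) : Measure.QuasiMeasurePreserving (eR n) volume volume := by
  have := (eR n).isAddHaarMeasure_map (volume : Measure (Cn n))
  exact ⟨(eR n).continuous.measurable, Measure.absolutelyContinuous_isAddHaarMeasure _ _⟩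

theorem wd_off {φ : Cn n → ℂ} {z : Cn n} (hz : z ∉ tsupport φ) (s : WI n) : wd s φ z = 0 := by
  have h : fderiv ℝ φ z = 0 := by
    by_contra h6
    exact hz (support_fderiv_subset ℝ h6)
  rw [wd, h, wdL_zero]

theorem cont_wd {φ : Cn n → ℂ} (hφ : ContDiff ℝ ∞ φ) (s : WI n) : Continuous (wd s φ) :=
  continuous_iff_continuousAt.2 fun _ => (contDiffAt_wd hφ.contDiffAt s).continuousAt

theorem cs_wd {φ : Cn n → ℂ} (hc : HasCompactSupport φ) (s : WI n) :
    HasCompactSupport (wd s φ) :=
  hc.mono' fun z hz => by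
    by_contra h
    exact hz (wd_off h s)

theorem contDiff_cu {χ : Cn n → ℝ} (hχ : ContDiff ℝ ∞ χ) : ContDiff ℝ ∞ (cu χ) :=
  Complex.ofRealCLM.contDiff.comp hχ

theorem tsupport_cu (χ : Cn n → ℝ) : tsupport (cu χ) = tsupport χ := by
  unfold tsupport
  congr 1
  ext z
  simp [cu]

theorem int_smul {ψ : Cn n → ℂ} (hψ : Continuous ψ) (hc : HasCompactSupport ψ) {f : Cn n → H}
    (hf : Integrable f) : Integrable fun z => ψ z • f z := by
  obtain ⟨C, hC⟩ := hψ.bounded_above_of_compact_support hc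
  exact hf.bdd_smul C hψ.aestronglyMeasurable (Eventually.of_forall hC)

/-- real test functions suffice -/
theorem cx_test {W : Set (Cn n)} {f : Cn n → H} (hf : Integrable f)
    (hw : ∀ χ : Cn n → ℝ, ContDiff ℝ ∞ χ → HasCompactSupport χ → tsupport χ ⊆ W → ∀ b,
      ∫ z, wd (true, b) (cu χ) z • f z = 0)
    {φ : Cn n → ℂ} (hφ : ContDiff ℝ ∞ φ) (hc : HasCompactSupport φ) (hs : tsupport φ ⊆ W)
    (b : Fin n) : ∫ z, wd (true, b) φ z • f z = 0 := by
  have h1 : ContDiff ℝ ∞ fun z => (φ z).re := Complex.reCLM.contDiff.comp hφ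
  have h2 : ContDiff ℝ ∞ fun z => (φ z).im := Complex.imCLM.contDiff.comp hφ
  have s1 : tsupport (fun z => (φ z).re) ⊆ tsupport φ :=
    closure_mono fun z hz h => hz (by simp [h])
  have s2 : tsupport (fun z => (φ z).im) ⊆ tsupport φ :=
    closure_mono fun z hz h => hz (by simp [h])
  have c1 : HasCompactSupport fun z => (φ z).re := hc.isCompact.of_isClosed_subset
    (isClosed_tsupport _) s1
  have c2 : HasCompactSupport fun z => (φ z).im := hc.isCompact.of_isClosed_subset
    (isClosed_tsupport _) s2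
  have e : φ = fun z => cu (fun z => (φ z).re) z + Complex.I • cu (fun z => (φ z).im) z := by
    funext z
    simp only [cu, smul_eq_mul]
    rw [mul_comm, Complex.re_add_im]
  have d1 := (contDiff_cu h1).differentiable (by simp)
  have d2 := (contDiff_cu h2).differentiable (by simp)
  have e2 : ∀ z, wd (true, b) φ z • f z = wd (true, b) (cu fun z => (φ z).re) z • f z +
      Complex.I • (wd (true, b) (cu fun z => (φ z).im) z • f z) := fun z => by
    conv_lhs => rw [e]
    rw [wd_add (g := fun z => Complex.I • cu (fun z => (φ z).im) z) (d1 z)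
      ((d2 z).const_smul Complex.I),
      wd_const_smul _ (d2 z), add_smul, smul_assoc]
  have k1 : HasCompactSupport (cu fun z => (φ z).re) := by
    rw [HasCompactSupport, tsupport_cu]; exact c1
  have k2 : HasCompactSupport (cu fun z => (φ z).im) := by
    rw [HasCompactSupport, tsupport_cu]; exact c2
  simp_rw [e2]
  rw [integral_add (g := fun z => Complex.I • (wd (true, b) (cu fun z => (φ z).im) z • f z))
    (int_smul (cont_wd (contDiff_cu h1) _) (cs_wd k1 _) hf)
    ((int_smul (cont_wd (contDiff_cu h2) _) (cs_wd k2 _) hf).smul _), integral_smul,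
    hw _ h1 c1 (s1.trans hs), hw _ h2 c2 (s2.trans hs), smul_zero, add_zero]

theorem dbar_eq (j : Fin n) (φ : (Fin n → ℂ) → ℂ) (x : Fin n → ℂ) :
    Weyl399.dbar j φ x = wd (true, j) (φ ∘ eR n) ((eR n).symm x) := by
  rw [wd, (eR n).comp_right_fderiv, ContinuousLinearEquiv.apply_symm_apply]
  rfl

theorem weakHol {W : Set (Cn n)} {f : Cn n → H} (hf : Integrable f)
    (hw : ∀ χ : Cn n → ℝ, ContDiff ℝ ∞ χ → HasCompactSupport χ → tsupport χ ⊆ W → ∀ b,
      ∫ z, wd (true, b) (cu χ) z • f z = 0) (ξ : H) :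
    Weyl399.WeakHol (fun x => ⟪ξ, f ((eR n).symm x)⟫_ℂ) ((eR n).symm ⁻¹' W) := by
  intro j φ h1 h2 h3
  have k1 : ContDiff ℝ ∞ (φ ∘ eR n) := h1.comp (eR n).contDiff
  have k2 : HasCompactSupport (φ ∘ eR n) := h2.comp_homeomorph (eR n).toHomeomorph
  have k3 : tsupport (φ ∘ eR n) ⊆ W := fun z hz => by
    have h4 := h3 (tsupport_comp_subset_preimage φ (eR n).continuous hz)
    simpa using h4
  have h5 := int_comp_zero (cx_test hf hw k1 k2 k3 j)
  have h6 := int_comp (int_smul (cont_wd k1 (true, j)) (cs_wd k2 _) hf)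
  have h7 := integral_inner (𝕜 := ℂ) h6 ξ
  rw [h5, inner_zero_right] at h7
  rw [← h7]
  refine integral_congr_ae (Eventually.of_forall fun x => ?_)
  simp only [inner_smul_right, dbar_eq, mul_comm]

/-- **Weyl's lemma**, Hilbert space valued, local form -/
theorem weyl_vec {W : Set (Cn n)} (hW : IsOpen W) {f : Cn n → H} (hf : Integrable f)
    (hw : ∀ χ : Cn n → ℝ, ContDiff ℝ ∞ χ → HasCompactSupport χ → tsupport χ ⊆ W → ∀ b,
      ∫ z, wd (true, b) (cu χ) z • f z = 0) {z₀ : Cn n} (hz : z₀ ∈ W) :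
    ∃ V, IsOpen V ∧ z₀ ∈ V ∧ V ⊆ W ∧ ∃ S : Cn n → H, DifferentiableOn ℂ S V ∧
      ∀ᵐ z, z ∈ V → f z = S z := by
  set F : (Fin n → ℂ) → H := fun x => f ((eR n).symm x) with hF
  have hFi : Integrable F := int_comp hf
  have hW' : IsOpen ((eR n).symm ⁻¹' W) := hW.preimage (eR n).symm.continuous
  have hu : ∀ ξ : H, Integrable fun x => ⟪ξ, F x⟫_ℂ := fun ξ => hFi.const_inner ξ
  choose h hh hae using fun ξ : H => Weyl399.weyl hW'
    ((hu ξ).locallyIntegrable.locallyIntegrableOn _) (weakHol hf hw ξ)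
  obtain ⟨R, hR, hRW⟩ := nhds_basis_closedBall.mem_iff.1
    (hW'.mem_nhds (show eR n z₀ ∈ (eR n).symm ⁻¹' W by simpa using hz))
  have hε : 0 < R / 2 := by positivity
  set S : (Fin n → ℂ) → H := fun x => ∫ w, (Weyl399.rho (R / 2) (x - w) : ℂ) • F w with hS
  have hb : ∀ x ∈ ball (eR n z₀) (R / 2), closedBall x (R / 2) ⊆ (eR n).symm ⁻¹' W :=
    fun x hx y hy => hRW (by
      rw [mem_ball] at hx
      rw [mem_closedBall] at hy ⊢
      linarith [dist_triangle y x (eR n z₀)])
  have hSh : ∀ ξ : H, ∀ x ∈ ball (eR n z₀) (R / 2), ⟪ξ, S x⟫_ℂ = h ξ x := fun ξ x hx => by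
    have hc : Continuous fun w => (Weyl399.rho (R / 2) (x - w) : ℂ) :=
      Complex.continuous_ofReal.comp
        ((Weyl399.contDiff_rho _).continuous.comp (continuous_const.sub continuous_id))
    obtain ⟨C, hC⟩ := (Weyl399.contDiff_rho (n := n) (R / 2)).continuous.bounded_above_of_compact_support
      (Weyl399.hasCompactSupport_rho hε)
    have hi : Integrable fun w => (Weyl399.rho (R / 2) (x - w) : ℂ) • F w :=
      hFi.bdd_smul C hc.aestronglyMeasurable (Eventually.of_forall fun w => by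
        rw [Complex.norm_real]; exact hC _)
    rw [hS, ← integral_inner (𝕜 := ℂ) hi ξ,
      ← Weyl399.mean_value hε (f := h ξ) fun y hy =>
        (hh ξ y (hb x hx hy)).differentiableAt (hW'.mem_nhds (hb x hx hy)), ← Weyl399.reg_eq,
      Weyl399.reg]
    refine integral_congr_ae ?_
    filter_upwards [(ae_restrict_iff' hW'.measurableSet).1 (hae ξ)] with w hw'
    by_cases hm : w ∈ closedBall x (R / 2)
    · rw [← hw' (hb x hx hm), inner_smul_right, Complex.real_smul]
    · have : R / 2 ≤ ‖x - w‖ := by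
        rw [mem_closedBall_iff_norm] at hm
        rw [norm_sub_rev]; linarith
      simp [Weyl399.rho_eq_zero hε this]
  have hsub : ball (eR n z₀) (R / 2) ⊆ (eR n).symm ⁻¹' W := fun x hx =>
    hb x hx (mem_closedBall_self hε.le)
  have hA : AnalyticOnNhd ℂ S (ball (eR n z₀) (R / 2)) :=
    Plk.weak_hol isOpen_ball fun ξ => ((hh ξ).mono hsub).congr (hSh ξ)
  have hm : AEStronglyMeasurable (fun x => F x - S x) (volume.restrict (ball (eR n z₀) (R / 2))) :=
    hFi.1.restrict.sub (hA.continuousOn.aestronglyMeasurable measurableSet_ball)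
  obtain ⟨t, ht, hat⟩ := hm.isSeparable_ae_range
  have h0 := ae_eq_zero_of_forall_dual_of_isSeparable ℂ ht (fun c => by
    filter_upwards [ae_restrict_of_ae_restrict_of_subset hsub
      (hae ((InnerProductSpace.toDual ℂ H).symm c)), ae_restrict_mem measurableSet_ball]
      with x h1 h2
    rw [← InnerProductSpace.toDual_symm_apply, inner_sub_right, hSh _ x h2, ← h1]
    simp [hF]) hat
  refine ⟨eR n ⁻¹' ball (eR n z₀) (R / 2), isOpen_ball.preimage (eR n).continuous,
    mem_ball_self hε, fun z hz' => by simpa using hsub hz', fun z => S (eC n z),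
    hA.differentiableOn.comp (eC n).differentiableOn fun z hz' => hz', ?_⟩
  filter_upwards [(qmp n).ae ((ae_restrict_iff' measurableSet_ball).1 h0)] with z h1 h2
  have h3 : f ((eR n).symm (eR n z)) = S (eR n z) := sub_eq_zero.1 (h1 h2)
  rw [ContinuousLinearEquiv.symm_apply_apply] at h3
  exact h3

end

end Crest.Agent.X261.Fam.Hol
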