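import Mathlib
import Crest.Agent.R273.GamR_155

/-!
# Row 261, package FAM (helper12), part Lin: matrices acting on Hilbert valued columns

* `ac N θ`, `dt B A`, `ip X B A`, `en X θ` : action, pairing, Hermitian forms;
* `Cj H` : a conjugation of the Hilbert space `H`;
* `gE G C ε = G + ε⁻¹ C Cᴴ`, `Qe`, `ee` : the energy density of the metric `gE`, times `ε ^ q`;
* `tau C`, `vI C`, `Q0`, `e0` : the top horizontal form, `θ ↦ θ ∧ τ`, the vertical energy density;
* `Wm`, `W4`, `K4`, `trH` : the tensors of the Siu-Sampson identity;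
* transformation laws.
-/

set_option autoImplicit false
set_option linter.unusedSectionVars false

open Matrix Finset
open scoped ComplexConjugate ComplexOrder MatrixOrder InnerProductSpace Kronecker

namespace Crest.Agent.X261.Fam

open Crest.Agent.R273.Fock_243 Crest.Agent.R273.GamR_155

noncomputable section

variable {H : Type*} [NormedAddCommGroup H] [InnerProductSpace ℂ H]

section gen

variable {ι κ σ : Type*} [Fintype ι] [Fintype κ] [Fintype σ]

/-- a matrix acting on an `H`-valued column -/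
def ac (N : Matrix ι κ ℂ) (θ : κ → H) : ι → H := fun k => ∑ p, N k p • θ p

/-- the pairing of two columns -/
def dt (B A : ι → H) : ℂ := ∑ r, ⟪B r, A r⟫_ℂ

/-- the sesquilinear form of a matrix -/
def ip (X : Matrix ι ι ℂ) (B A : ι → H) : ℂ := dt B (ac X A)

/-- the quadratic form of a matrix -/
def en (X : Matrix ι ι ℂ) (θ : ι → H) : ℝ := (ip X θ θ).re

/-- sum of the squared norms -/
def sq (θ : ι → H) : ℝ := ∑ r, ‖θ r‖ ^ 2

theorem sq_nonneg' (θ : ι → H) : 0 ≤ sq θ := Finset.sum_nonneg fun _ _ => by positivity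

theorem ac_mul (X : Matrix ι κ ℂ) (Y : Matrix κ σ ℂ) (θ : σ → H) :
    ac (X * Y) θ = ac X (ac Y θ) := by
  funext k
  simp only [ac, Matrix.mul_apply, Finset.sum_smul, Finset.smul_sum, smul_smul]
  exact Finset.sum_comm

theorem ac_one [DecidableEq ι] (θ : ι → H) : ac (1 : Matrix ι ι ℂ) θ = θ := by
  funext k
  simp [ac, Matrix.one_apply, ite_smul]

theorem ac_diag [DecidableEq ι] (w : ι → ℂ) (θ : ι → H) (k : ι) :
    ac (diagonal w) θ k = w k • θ k := by
  simp [ac, Matrix.diagonal_apply, ite_smul]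

theorem ac_add (N : Matrix ι κ ℂ) (θ θ' : κ → H) : ac N (θ + θ') = ac N θ + ac N θ' := by
  funext k
  simp [ac, Finset.sum_add_distrib]

theorem ac_sub (N : Matrix ι κ ℂ) (θ θ' : κ → H) : ac N (θ - θ') = ac N θ - ac N θ' := by
  funext k
  simp [ac, smul_sub, Finset.sum_sub_distrib]

theorem ac_smul (N : Matrix ι κ ℂ) (c : ℂ) (θ : κ → H) : ac N (c • θ) = c • ac N θ := by
  funext k
  simp [ac, Finset.smul_sum, smul_smul, mul_comm]

theorem add_ac (N N' : Matrix ι κ ℂ) (θ : κ → H) : ac (N + N') θ = ac N θ + ac N' θ := by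
  funext k
  simp [ac, add_smul, Finset.sum_add_distrib]

theorem sub_ac (N N' : Matrix ι κ ℂ) (θ : κ → H) : ac (N - N') θ = ac N θ - ac N' θ := by
  funext k
  simp [ac, sub_smul, Finset.sum_sub_distrib]

theorem smul_ac (c : ℂ) (N : Matrix ι κ ℂ) (θ : κ → H) : ac (c • N) θ = c • ac N θ := by
  funext k
  simp [ac, Finset.smul_sum, smul_smul]

theorem ac_clm {H' : Type*} [NormedAddCommGroup H'] [InnerProductSpace ℂ H'] (L : H →L[ℂ] H')
    (N : Matrix ι κ ℂ) (θ : κ → H) (k : ι) : L (ac N θ k) = ac N (fun p => L (θ p)) k := by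
  simp [ac, map_sum]

theorem dt_ac (N : Matrix ι κ ℂ) (B : ι → H) (A : κ → H) : dt B (ac N A) = dt (ac Nᴴ B) A := by
  simp only [dt, ac, inner_sum, sum_inner, inner_smul_left, inner_smul_right,
    Matrix.conjTranspose_apply, RCLike.star_def, Complex.conj_conj]
  exact Finset.sum_comm

theorem ip_conj (N : Matrix κ ι ℂ) (Y : Matrix κ κ ℂ) (B A : ι → H) :
    ip (Nᴴ * Y * N) B A = ip Y (ac N B) (ac N A) := by
  unfold ip
  rw [Matrix.mul_assoc, ac_mul, dt_ac, Matrix.conjTranspose_conjTranspose, ac_mul]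

theorem en_conj (N : Matrix κ ι ℂ) (Y : Matrix κ κ ℂ) (θ : ι → H) :
    en (Nᴴ * Y * N) θ = en Y (ac N θ) := by
  unfold en; rw [ip_conj]

theorem ip_eq (X : Matrix ι ι ℂ) (B A : ι → H) :
    ip X B A = ∑ r, ∑ p, X r p * ⟪B r, A p⟫_ℂ := by
  simp only [ip, dt, ac, inner_sum, inner_smul_right]

theorem ip_diag [DecidableEq ι] (w : ι → ℂ) (B A : ι → H) :
    ip (diagonal w) B A = ∑ k, w k * ⟪B k, A k⟫_ℂ := by
  simp only [ip, dt, ac_diag, inner_smul_right]

theorem inner_self_c (x : H) : ⟪x, x⟫_ℂ = ((‖x‖ ^ 2 : ℝ) : ℂ) := by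
  rw [inner_self_eq_norm_sq_to_K]; norm_cast

theorem ip_diag_self [DecidableEq ι] (w : ι → ℝ) (θ : ι → H) :
    ip (diagonal fun k => (w k : ℂ)) θ θ = ((∑ k, w k * ‖θ k‖ ^ 2 : ℝ) : ℂ) := by
  rw [ip_diag]
  simp only [inner_self_c]
  norm_cast

theorem en_diag [DecidableEq ι] (w : ι → ℝ) (θ : ι → H) :
    en (diagonal fun k => (w k : ℂ)) θ = ∑ k, w k * ‖θ k‖ ^ 2 := by
  unfold en; rw [ip_diag_self, Complex.ofReal_re]

theorem dt_self (θ : ι → H) : dt θ θ = (sq θ : ℂ) := by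
  simp only [dt, sq, inner_self_c]; norm_cast

theorem en_one [DecidableEq ι] (θ : ι → H) : en (1 : Matrix ι ι ℂ) θ = sq θ := by
  unfold en ip; rw [ac_one, dt_self, Complex.ofReal_re]

theorem en_gram [DecidableEq κ] (N : Matrix κ ι ℂ) (θ : ι → H) : en (Nᴴ * N) θ = sq (ac N θ) := by
  rw [← en_one, ← en_conj, Matrix.mul_one]

theorem ip_smul (c : ℂ) (X : Matrix ι ι ℂ) (B A : ι → H) : ip (c • X) B A = c * ip X B A := by
  simp only [ip_eq, Matrix.smul_apply, smul_eq_mul, Finset.mul_sum, mul_assoc]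

theorem ip_add (X Y : Matrix ι ι ℂ) (B A : ι → H) : ip (X + Y) B A = ip X B A + ip Y B A := by
  simp only [ip_eq, Matrix.add_apply, add_mul, Finset.sum_add_distrib]

theorem ip_sub (X Y : Matrix ι ι ℂ) (B A : ι → H) : ip (X - Y) B A = ip X B A - ip Y B A := by
  simp only [ip_eq, Matrix.sub_apply, sub_mul, Finset.sum_sub_distrib]

theorem ip_sum {τ : Type*} (s : Finset τ) (X : τ → Matrix ι ι ℂ) (B A : ι → H) :
    ip (∑ t ∈ s, X t) B A = ∑ t ∈ s, ip (X t) B A := by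
  classical
  induction s using Finset.induction_on with
  | empty => simp [ip_eq]
  | insert a s ha ih => rw [Finset.sum_insert ha, Finset.sum_insert ha, ip_add, ih]

theorem ip_add_left (X : Matrix ι ι ℂ) (B B' A : ι → H) :
    ip X (B + B') A = ip X B A + ip X B' A := by
  simp only [ip_eq, Pi.add_apply, inner_add_left, mul_add, Finset.sum_add_distrib]

theorem ip_add_right (X : Matrix ι ι ℂ) (B A A' : ι → H) :
    ip X B (A + A') = ip X B A + ip X B A' := by
  simp only [ip_eq, Pi.add_apply, inner_add_right, mul_add, Finset.sum_add_distrib]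

theorem ip_sub_left (X : Matrix ι ι ℂ) (B B' A : ι → H) :
    ip X (B - B') A = ip X B A - ip X B' A := by
  simp only [ip_eq, Pi.sub_apply, inner_sub_left, mul_sub, Finset.sum_sub_distrib]

theorem ip_sub_right (X : Matrix ι ι ℂ) (B A A' : ι → H) :
    ip X B (A - A') = ip X B A - ip X B A' := by
  simp only [ip_eq, Pi.sub_apply, inner_sub_right, mul_sub, Finset.sum_sub_distrib]

theorem ip_smul_left (X : Matrix ι ι ℂ) (c : ℂ) (B A : ι → H) :
    ip X (c • B) A = conj c * ip X B A := by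
  simp only [ip_eq, Pi.smul_apply, inner_smul_left, Finset.mul_sum]
  exact Finset.sum_congr rfl fun _ _ => Finset.sum_congr rfl fun _ _ => by ring

theorem ip_smul_right (X : Matrix ι ι ℂ) (c : ℂ) (B A : ι → H) :
    ip X B (c • A) = c * ip X B A := by
  simp only [ip_eq, Pi.smul_apply, inner_smul_right, Finset.mul_sum]
  exact Finset.sum_congr rfl fun _ _ => Finset.sum_congr rfl fun _ _ => by ring

theorem conj_ip (X : Matrix ι ι ℂ) (B A : ι → H) : conj (ip X B A) = ip Xᴴ A B := by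
  simp only [ip_eq, map_sum, map_mul, inner_conj_symm, Matrix.conjTranspose_apply, RCLike.star_def]
  exact Finset.sum_comm

theorem ip_iso {H' : Type*} [NormedAddCommGroup H'] [InnerProductSpace ℂ H'] (L : H →ₗᵢ[ℂ] H')
    (X : Matrix ι ι ℂ) (B A : ι → H) :
    ip X (fun p => L (B p)) (fun p => L (A p)) = ip X B A := by
  simp only [ip_eq, LinearIsometry.inner_map_map]

theorem en_smul (c : ℝ) (X : Matrix ι ι ℂ) (θ : ι → H) : en ((c : ℂ) • X) θ = c * en X θ := by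
  unfold en; rw [ip_smul, Complex.re_ofReal_mul]

theorem ip_real {X : Matrix ι ι ℂ} (hX : X.IsHermitian) (θ : ι → H) :
    ip X θ θ = (en X θ : ℂ) := by
  have h := conj_ip X θ θ
  rw [hX.eq] at h
  exact (Complex.conj_eq_iff_re.1 h).symm

theorem re_ip_comm {X : Matrix ι ι ℂ} (hX : X.IsHermitian) (B A : ι → H) :
    (ip X B A).re = (ip X A B).re := by
  have h := conj_ip X B A
  rw [hX.eq] at h
  rw [← h, Complex.conj_re]

theorem en_nonneg [DecidableEq ι] {X : Matrix ι ι ℂ} (hX : X.PosSemidef) (θ : ι → H) :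
    0 ≤ en X θ := by
  obtain ⟨B, rfl⟩ := CStarAlgebra.nonneg_iff_eq_star_mul_self.mp hX.nonneg
  rw [star_eq_conjTranspose, en_gram]
  exact sq_nonneg' _

theorem en_add_smul {X : Matrix ι ι ℂ} (hX : X.IsHermitian) (B A : ι → H) (t : ℝ) :
    en X (B + (t : ℂ) • A) = en X B + 2 * t * (ip X A B).re + t ^ 2 * en X A := by
  unfold en
  rw [ip_add_left, ip_add_right, ip_add_right, ip_smul_left, ip_smul_right, ip_smul_left,
    ip_smul_right, Complex.conj_ofReal]
  simp only [Complex.add_re, Complex.re_ofReal_mul]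
  rw [re_ip_comm hX B A]
  ring

theorem norm_dt_le (B A : ι → H) (t : ℝ) (ht : 0 < t) :
    ‖dt B A‖ ≤ t / 2 * sq B + 1 / (2 * t) * sq A := by
  unfold dt sq
  rw [Finset.mul_sum, Finset.mul_sum, ← Finset.sum_add_distrib]
  refine (norm_sum_le _ _).trans (Finset.sum_le_sum fun r _ => ?_)
  refine (norm_inner_le_norm _ _).trans ?_
  have h : 0 ≤ (t * ‖B r‖ - ‖A r‖) ^ 2 / (2 * t) := by positivity
  have e : (t * ‖B r‖ - ‖A r‖) ^ 2 / (2 * t) =
      t / 2 * ‖B r‖ ^ 2 + 1 / (2 * t) * ‖A r‖ ^ 2 - ‖B r‖ * ‖A r‖ := by field_simp; ring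
  linarith

/-- Cauchy-Schwarz for a positive matrix, in the additive form -/
theorem norm_ip_le [DecidableEq ι] {X : Matrix ι ι ℂ} (hX : X.PosSemidef) (B A : ι → H) (t : ℝ)
    (ht : 0 < t) : ‖ip X B A‖ ≤ t / 2 * en X B + 1 / (2 * t) * en X A := by
  obtain ⟨R, rfl⟩ := CStarAlgebra.nonneg_iff_eq_star_mul_self.mp hX.nonneg
  rw [star_eq_conjTranspose, en_gram, en_gram]
  have : ip (Rᴴ * R) B A = dt (ac R B) (ac R A) := by
    unfold ip; rw [ac_mul, dt_ac, Matrix.conjTranspose_conjTranspose]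
  rw [this]
  exact norm_dt_le _ _ t ht

theorem norm_ac_sq_le (N : Matrix ι κ ℂ) (θ : κ → H) (k : ι) :
    ‖ac N θ k‖ ^ 2 ≤ ((N * Nᴴ) k k).re * sq θ := by
  have h1 : ‖ac N θ k‖ ≤ ∑ p, ‖N k p‖ * ‖θ p‖ :=
    (norm_sum_le _ _).trans (le_of_eq (Finset.sum_congr rfl fun p _ => norm_smul _ _))
  have h2 : ((N * Nᴴ) k k).re = ∑ p, ‖N k p‖ ^ 2 := by
    simp only [Matrix.mul_apply, Matrix.conjTranspose_apply, RCLike.star_def, Complex.mul_conj',
      Complex.re_sum]
    exact Finset.sum_congr rfl fun p _ => by norm_cast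
  rw [h2]
  exact (pow_le_pow_left₀ (norm_nonneg _) h1 2).trans (Finset.sum_mul_sq_le_sq_mul_sq _ _ _)

/-- crude bound of a form by its entries -/
theorem norm_ip_le_ent {X : Matrix ι ι ℂ} {z : ℝ} (hz : ∀ r p, ‖X r p‖ ≤ z) (θ : ι → H) :
    ‖ip X θ θ‖ ≤ z * Fintype.card ι * sq θ := by
  rw [ip_eq]
  have h1 : ‖∑ r, ∑ p, X r p * ⟪θ r, θ p⟫_ℂ‖ ≤ ∑ r, ∑ p, z * (‖θ r‖ ^ 2 / 2 + ‖θ p‖ ^ 2 / 2) := by
    refine (norm_sum_le _ _).trans (Finset.sum_le_sum fun r _ => ?_)
    refine (norm_sum_le _ _).trans (Finset.sum_le_sum fun p _ => ?_)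
    rw [norm_mul]
    refine mul_le_mul (hz r p) ((norm_inner_le_norm _ _).trans ?_) (norm_nonneg _)
      ((norm_nonneg _).trans (hz r p))
    nlinarith [sq_nonneg (‖θ r‖ - ‖θ p‖)]
  refine h1.trans (le_of_eq ?_)
  simp only [← Finset.mul_sum, Finset.sum_add_distrib, Finset.sum_const, Finset.card_univ,
    nsmul_eq_mul, sq, ← Finset.sum_div]
  ring

end gen

/-- a conjugation of a complex Hilbert space -/
structure Cj (H : Type*) [NormedAddCommGroup H] [InnerProductSpace ℂ H] where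
  J : H →L[ℝ] H
  JJ : ∀ x, J (J x) = x
  smul : ∀ (c : ℂ) x, J (c • x) = conj c • J x
  inner : ∀ x y, ⟪J x, J y⟫_ℂ = ⟪y, x⟫_ℂ

theorem Cj.norm (c : Cj H) (x : H) : ‖c.J x‖ = ‖x‖ := by
  have h := c.inner x x
  rw [inner_self_c, inner_self_c] at h
  have h2 : ‖c.J x‖ ^ 2 = ‖x‖ ^ 2 := by exact_mod_cast h
  exact (pow_left_inj₀ (norm_nonneg _) (norm_nonneg _) two_ne_zero).1 h2

theorem Cj.ac (c : Cj H) {ι κ : Type*} [Fintype κ] (N : Matrix ι κ ℂ) (θ : κ → H) (k : ι) :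
    c.J (ac N θ k) = Fam.ac (N.map conj) (fun p => c.J (θ p)) k := by
  simp [Fam.ac, map_sum, c.smul]

/-! ### the tensors -/

variable {n q : ℕ}

/-- square matrices -/
abbrev Mt (n : ℕ) : Type := Matrix (Fin n) (Fin n) ℂ

/-- rectangular matrices -/
abbrev Mr (n q : ℕ) : Type := Matrix (Fin n) (Fin q) ℂ

/-- the metric `G + ε⁻¹ C Cᴴ` -/
def gE (G : Mt n) (C : Mr n q) (ε : ℝ) : Mt n := G + ((ε⁻¹ : ℝ) : ℂ) • (C * Cᴴ)

/-- the matrix of the normalised energy density -/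
def Qe (G : Mt n) (C : Mr n q) (ε : ℝ) : Mt n := ((ε ^ q : ℝ) : ℂ) • (gE G C ε).adjugate

/-- the normalised energy density -/
def ee (G : Mt n) (C : Mr n q) (ε : ℝ) (θ : Fin n → H) : ℝ := en (Qe G C ε) θ

/-- the wedge of the columns of `C` -/
def tau (C : Mr n q) : FI n → ℂ := GamR C *ᵥ Pi.single Finset.univ 1

/-- the matrix of `θ ↦ θ ∧ τ` -/
def vI (C : Mr n q) : Matrix (FI n) (Fin n) ℂ := Matrix.of fun I a => (eW (ep a) *ᵥ tau C) I

/-- the matrix of the vertical energy density -/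
def Q0 (G : Mt n) (C : Mr n q) : Mt n := G.det • ((vI C)ᴴ * Gam G⁻¹ * vI C)

/-- the vertical energy density -/
def e0 (G : Mt n) (C : Mr n q) (θ : Fin n → H) : ℝ := en (Q0 G C) θ

/-- `Y ↦ W(X, Y)` -/
def Wm (g X : Mt n) : Mt n := g.det • ((g⁻¹ * X).trace • g⁻¹ - g⁻¹ * X * g⁻¹)

/-- the tensor of `ω^{n-2}` -/
def W4 (g : Mt n) : Matrix (Fin n × Fin n) (Fin n × Fin n) ℂ := Matrix.of fun r p =>
  g.det * (g⁻¹ p.2 p.1 * g⁻¹ r.1 r.2 - g⁻¹ r.1 p.1 * g⁻¹ p.2 r.2)

/-- the metric on `(1,1)`-tensors -/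
def K4 (g : Mt n) : Matrix (Fin n × Fin n) (Fin n × Fin n) ℂ := g⁻¹ ⊗ₖ (g⁻¹)ᵀ

/-- the trace of a `(1,1)`-tensor against `X` -/
def trH (X : Mt n) (A : Fin n × Fin n → H) : H := ∑ p, X p.2 p.1 • A p

/-- the tensor `θ ⊗ conj y` -/
def tn (θ : Fin n → H) (y : Fin n → ℂ) : Fin n × Fin n → H := fun r => conj (y r.2) • θ r.1

/-- action on `(1,1)`-tensors -/
def N2 (N : Mt n) : Matrix (Fin n × Fin n) (Fin n × Fin n) ℂ := N ⊗ₖ N.map conj

theorem ip_W4 {g : Mt n} (hg : g.IsHermitian) (B A : Fin n × Fin n → H) :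
    ip (W4 g) B A = g.det * (⟪trH g⁻¹ B, trH g⁻¹ A⟫_ℂ - ip (K4 g) B A) := by
  have h1 : ∀ a b, conj (g⁻¹ a b) = g⁻¹ b a := fun a b => hg.inv.apply b a
  simp only [ip_eq, W4, K4, trH, Matrix.of_apply, kroneckerMap_apply, Matrix.transpose_apply,
    sum_inner, inner_sum, inner_smul_left, inner_smul_right, h1, ← Finset.sum_sub_distrib,
    Finset.mul_sum]
  simp only [mul_sub, sub_mul, Finset.sum_sub_distrib]
  congr 1
  · rw [Finset.sum_comm]
    exact Finset.sum_congr rfl fun r _ => Finset.sum_congr rfl fun p _ => by ring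
  · exact Finset.sum_congr rfl fun r _ => Finset.sum_congr rfl fun p _ => by ring

theorem Wm_apply (g X : Mt n) (d c : Fin n) :
    Wm g X d c = ∑ p : Fin n × Fin n, W4 g (d, c) p * X p.1 p.2 := by
  simp only [Wm, W4, Matrix.smul_apply, Matrix.sub_apply, Matrix.of_apply, smul_eq_mul,
    Matrix.trace, Matrix.diag, Matrix.mul_apply, Fintype.sum_prod_type, Finset.sum_mul]
  rw [Finset.sum_comm, Finset.sum_comm (f := fun x y => g⁻¹ d y * X y x * g⁻¹ x c),
    ← Finset.sum_sub_distrib, Finset.mul_sum]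
  refine Finset.sum_congr rfl fun a _ => ?_
  rw [← Finset.sum_sub_distrib, Finset.mul_sum]
  exact Finset.sum_congr rfl fun b _ => by ring

theorem Wm_add (g X Y : Mt n) : Wm g (X + Y) = Wm g X + Wm g Y := by
  ext d c
  simp only [Wm_apply, Matrix.add_apply, mul_add, Finset.sum_add_distrib]

theorem Wm_zero (g : Mt n) : Wm g 0 = 0 := by
  ext d c
  simp [Wm_apply]

theorem Wm_sum {τ : Type*} (g : Mt n) (s : Finset τ) (X : τ → Mt n) :
    Wm g (∑ t ∈ s, X t) = ∑ t ∈ s, Wm g (X t) := by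
  classical
  induction s using Finset.induction_on with
  | empty => simp [Wm_zero]
  | insert a s ha ih => rw [Finset.sum_insert ha, Finset.sum_insert ha, Wm_add, ih]

theorem ac_N2_tn (N : Mt n) (θ : Fin n → H) (y : Fin n → ℂ) :
    ac (N2 N) (tn θ y) = tn (ac N θ) (N *ᵥ y) := by
  funext r
  simp only [ac, N2, tn, kroneckerMap_apply, Matrix.map_apply, Fintype.sum_prod_type, smul_smul,
    Matrix.mulVec, dotProduct, map_sum, map_mul, Finset.smul_sum, Finset.sum_mul, Finset.sum_smul]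
  exact Finset.sum_congr rfl fun a _ => Finset.sum_congr rfl fun b _ => by congr 1; ring

theorem trH_conj (N Y : Mt n) (A : Fin n × Fin n → H) :
    trH (Nᴴ * Y * N) A = trH Y (ac (N2 N) A) := by
  simp only [trH, ac, N2, kroneckerMap_apply, Matrix.map_apply, Finset.smul_sum, smul_smul]
  rw [Finset.sum_comm]
  refine Finset.sum_congr rfl fun p _ => ?_
  rw [← Finset.sum_smul]
  congr 1
  simp only [Matrix.mul_apply, Matrix.conjTranspose_apply, RCLike.star_def, Finset.sum_mul,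
    Fintype.sum_prod_type]
  exact Finset.sum_congr rfl fun a _ => Finset.sum_congr rfl fun b _ => by ring

theorem trH_diag (w : Fin n → ℂ) (A : Fin n × Fin n → H) :
    trH (diagonal w) A = ∑ k, w k • A (k, k) := by
  simp only [trH, Fintype.sum_prod_type, Matrix.diagonal_apply, ite_smul, zero_smul]
  refine Finset.sum_congr rfl fun a _ => ?_
  rw [Finset.sum_ite_eq' Finset.univ a]
  simp

theorem kron_conj (N Y : Mt n) :
    (Nᴴ * Y * N) ⊗ₖ (Nᴴ * Y * N)ᵀ = (N2 N)ᴴ * (Y ⊗ₖ Yᵀ) * N2 N := by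
  unfold N2
  rw [Matrix.conjTranspose_kronecker, ← Matrix.mul_kronecker_mul, ← Matrix.mul_kronecker_mul]
  congr 1
  rw [Matrix.transpose_mul, Matrix.transpose_mul, ← Matrix.mul_assoc]
  congr 2
  ext a b
  simp

/-! ### transformation laws -/

theorem tau_mul (N : Mt n) (C : Mr n q) : tau (N * C) = Gam N *ᵥ tau C := by
  unfold tau
  rw [GamR_mul, Matrix.mulVec_mulVec, GamR_eq_Gam]

theorem vI_mulVec (C : Mr n q) (y : Fin n → ℂ) : vI C *ᵥ y = eW y *ᵥ tau C := by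
  funext I
  rw [eW_eq_sum y, Matrix.sum_mulVec]
  simp only [vI, Matrix.mulVec, dotProduct, Matrix.of_apply, Finset.sum_apply, Matrix.smul_apply,
    smul_eq_mul, Finset.sum_mul]
  exact Finset.sum_congr rfl fun a _ => Finset.sum_congr rfl fun b _ => by ring

theorem vI_mul (N : Mt n) (C : Mr n q) : vI (N * C) * N = Gam N * vI C := by
  refine Matrix.ext_iff_mulVec.2 fun y => ?_
  rw [← Matrix.mulVec_mulVec, ← Matrix.mulVec_mulVec, vI_mulVec, vI_mulVec, tau_mul,
    Matrix.mulVec_mulVec, Matrix.mulVec_mulVec, Gam_eW]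

theorem Gam_ct (N : Mt n) : (Gam N)ᴴ = Gam Nᴴ := by
  have h := Gam_map (starRingEnd ℂ) Nᵀ
  rw [← Gam_transpose] at h
  exact h

theorem GamR_ct (C : Mr n q) : (GamR C)ᴴ = GamR Cᴴ := by
  have h := GamR_map (starRingEnd ℂ) Cᵀ
  rw [← GamR_transpose] at h
  exact h

theorem Gam_univ (L : Mt q) :
    Gam L *ᵥ Pi.single Finset.univ 1 = L.det • (Pi.single Finset.univ 1 : FI q → ℂ) := by
  funext S
  rw [Matrix.mulVec_single_one]
  by_cases hS : S = Finset.univ
  · subst hS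
    have h : (Finset.univ : FI q).card = q := by simp
    have h2 : ((Finset.univ : FI q).orderEmbOfFin h : Fin q → Fin q) = id := by
      symm
      exact Finset.orderEmbOfFin_unique h (fun _ => Finset.mem_univ _) strictMono_id
    simp [Matrix.col, Gam_eq L h h, h2]
  · have h : S.card ≠ (Finset.univ : FI q).card := fun h => hS (Finset.eq_univ_of_card S (by simpa using h))
    simp [Matrix.col, Gam_of_ne L h, hS]

theorem tau_mul_right (C : Mr n q) (L : Mt q) : tau (C * L) = L.det • tau C := by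
  unfold tau
  rw [GamR_mul, ← Matrix.mulVec_mulVec, GamR_eq_Gam, Gam_univ, Matrix.mulVec_smul]

theorem vI_mul_right (C : Mr n q) (L : Mt q) : vI (C * L) = L.det • vI C := by
  ext I a
  simp [vI, tau_mul_right, Matrix.mulVec_smul]

theorem Q0_mul_right (G : Mt n) (C : Mr n q) (L : Mt q) :
    Q0 G (C * L) = ((‖L.det‖ ^ 2 : ℝ) : ℂ) • Q0 G C := by
  unfold Q0
  rw [vI_mul_right, Matrix.conjTranspose_smul, Matrix.smul_mul, Matrix.smul_mul, Matrix.mul_smul,
    smul_smul, smul_smul, smul_smul]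
  congr 1
  rw [Complex.ofReal_pow, ← Complex.conj_mul']
  simp only [RCLike.star_def]
  ring

/-- the columns of `C` are killed -/
theorem vI_mul_self (C : Mr n q) : vI C * C = 0 := by
  refine Matrix.ext_iff_mulVec.2 fun y => ?_
  rw [← Matrix.mulVec_mulVec, vI_mulVec, Matrix.zero_mulVec]
  unfold tau
  rw [Matrix.mulVec_mulVec, ← GamR_eW, ← Matrix.mulVec_mulVec]
  have : eW y *ᵥ (Pi.single Finset.univ 1 : FI q → ℂ) = 0 := by
    funext S
    rw [Matrix.mulVec_single_one]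
    simp only [Matrix.col, Matrix.transpose_apply, eW, Crest.Agent.R275.Kos798.K, Pi.zero_apply]
    refine Finset.sum_eq_zero fun j _ => ?_
    by_cases h : Crest.Agent.R275.Kos798.tog S j = Finset.univ
    · have hj : j ∉ S := (Crest.Agent.R275.Kos798.mem_tog_self S j).1 (h ▸ Finset.mem_univ j)
      simp [Crest.Agent.R275.Kos798.cf, hj]
    · simp [h]
  rw [this, Matrix.mulVec_zero]

theorem det_conj (N G : Mt n) : (N * G * Nᴴ).det = ((‖N.det‖ ^ 2 : ℝ) : ℂ) * G.det := by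
  rw [Matrix.det_mul, Matrix.det_mul, Matrix.det_conjTranspose, Complex.ofReal_pow,
    ← Complex.mul_conj']
  simp only [RCLike.star_def]
  ring

theorem inv_conj {N : Mt n} (hN : N.det ≠ 0) (G : Mt n) : Nᴴ * (N * G * Nᴴ)⁻¹ * N = G⁻¹ := by
  have h1 : IsUnit N.det := hN.isUnit
  have h2 : IsUnit Nᴴ.det := by rw [Matrix.det_conjTranspose]; exact h1.star
  rw [Matrix.mul_inv_rev, Matrix.mul_inv_rev, ← Matrix.mul_assoc, Matrix.mul_nonsing_inv _ h2,
    Matrix.one_mul, Matrix.mul_assoc, Matrix.nonsing_inv_mul _ h1, Matrix.mul_one]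

theorem gE_conj (N G : Mt n) (C : Mr n q) (ε : ℝ) :
    gE (N * G * Nᴴ) (N * C) ε = N * gE G C ε * Nᴴ := by
  unfold gE
  rw [Matrix.mul_add, Matrix.add_mul, Matrix.mul_smul, Matrix.smul_mul, Matrix.conjTranspose_mul]
  simp only [Matrix.mul_assoc]

theorem adj_conj (N g : Mt n) :
    Nᴴ * (N * g * Nᴴ).adjugate * N = ((‖N.det‖ ^ 2 : ℝ) : ℂ) • g.adjugate := by
  rw [Matrix.adjugate_mul_distrib, Matrix.adjugate_mul_distrib, ← Matrix.mul_assoc,
    Matrix.mul_adjugate, Matrix.mul_assoc, Matrix.mul_assoc, Matrix.adjugate_mul,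
    Matrix.det_conjTranspose, Matrix.smul_mul, Matrix.mul_smul, Matrix.mul_smul, Matrix.one_mul,
    Matrix.mul_one, smul_smul, Complex.ofReal_pow, ← Complex.conj_mul']
  rfl

theorem Qe_conj (N G : Mt n) (C : Mr n q) (ε : ℝ) :
    Nᴴ * Qe (N * G * Nᴴ) (N * C) ε * N = ((‖N.det‖ ^ 2 : ℝ) : ℂ) • Qe G C ε := by
  unfold Qe
  rw [gE_conj, Matrix.mul_smul, Matrix.smul_mul, adj_conj, smul_comm]

theorem Q0_conj {N : Mt n} (hN : N.det ≠ 0) (G : Mt n) (C : Mr n q) :
    Nᴴ * Q0 (N * G * Nᴴ) (N * C) * N = ((‖N.det‖ ^ 2 : ℝ) : ℂ) • Q0 G C := by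
  unfold Q0
  rw [Matrix.mul_smul, Matrix.smul_mul, det_conj, mul_smul]
  congr 2
  calc Nᴴ * ((vI (N * C))ᴴ * Gam (N * G * Nᴴ)⁻¹ * vI (N * C)) * N
      = (vI (N * C) * N)ᴴ * Gam (N * G * Nᴴ)⁻¹ * (vI (N * C) * N) := by
        rw [Matrix.conjTranspose_mul]; simp only [Matrix.mul_assoc]
    _ = (vI C)ᴴ * (Gam Nᴴ * Gam (N * G * Nᴴ)⁻¹ * Gam N) * vI C := by
        rw [vI_mul, Matrix.conjTranspose_mul, Gam_ct]; simp only [Matrix.mul_assoc]
    _ = _ := by rw [← Gam_mul, ← Gam_mul, inv_conj hN]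

theorem Wm_conj {N : Mt n} (hN : N.det ≠ 0) (g X : Mt n) :
    Nᴴ * Wm (N * g * Nᴴ) (N * X * Nᴴ) * N = ((‖N.det‖ ^ 2 : ℝ) : ℂ) • Wm g X := by
  unfold Wm
  rw [Matrix.mul_smul, Matrix.smul_mul, det_conj, mul_smul]
  congr 2
  have h1 : ((N * g * Nᴴ)⁻¹ * (N * X * Nᴴ)).trace = (g⁻¹ * X).trace := by
    rw [← inv_conj hN g, ← Matrix.mul_assoc, Matrix.trace_mul_comm]
    simp only [Matrix.mul_assoc]
  rw [h1, Matrix.mul_sub, Matrix.sub_mul, Matrix.mul_smul, Matrix.smul_mul, inv_conj hN]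
  congr 1
  conv_rhs => rw [← inv_conj hN g]
  simp only [Matrix.mul_assoc]

end

end Crest.Agent.X261.Fam
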