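import Crest.Agent.X261.Fam.St
import Crest.Agent.T223.HmFrA_7

/-!
# Row 261, package FAM (helper65), part MolA: mollification of Banach valued maps

* `CS f` : smooth with compact support; `int_wd`;
* `rx hr x` : the kernel `y ↦ ρ (x - y)`; `mo_eq`, `contDiff_mo`, `wd_mo`;
* `weak` : the weak form of the tension; `J_wd`, `J_trH`;
* `l2_bound` : Young's inequality on compact sets.
-/

set_option autoImplicit false
set_option linter.unusedSectionVars false

open Set Filter Topology MeasureTheory Matrix Metric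
open scoped ComplexConjugate InnerProductSpace ContDiff NNReal ENNReal Convolution

namespace Crest.Agent.X261.Fam.Mol

open Crest.Agent.R275.Geo Crest.Agent.R275.EDR890 Crest.Agent.R273.Hess_333
open Crest.Agent.R271.H88 Crest.Agent.T223.Hm.Fr7

noncomputable section

variable {n : ℕ}

section W

variable {W : Type*} [NormedAddCommGroup W] [NormedSpace ℂ W] {f g : Cn n → W}

/-- smooth with compact support -/
structure CS (f : Cn n → W) : Prop where
  sm : ContDiff ℝ ∞ f
  cs : HasCompactSupport f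

theorem contDiff_wd (hf : ContDiff ℝ ∞ f) (s : WI n) : ContDiff ℝ ∞ (wd s f) :=
  contDiff_iff_contDiffAt.2 fun _ => contDiffAt_wd hf.contDiffAt s

theorem CS.wd (h : CS f) (s : WI n) : CS (wd s f) :=
  ⟨contDiff_wd h.sm s, (h.cs.fderiv ℝ).comp_left (g := wdL s) (wdL_zero s)⟩

theorem CS.int (h : CS f) : Integrable f := h.sm.continuous.integrable_of_hasCompactSupport h.cs

theorem CS.smul {c : Cn n → ℂ} (h : CS c) (hg : ContDiff ℝ ∞ g) : CS fun z => c z • g z :=
  ⟨h.sm.smul hg, h.cs.smul_right⟩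

theorem CS.int_smul {c : Cn n → ℂ} (h : CS c) (hg : Continuous g) :
    Integrable fun z => c z • g z :=
  (h.sm.continuous.smul hg).integrable_of_hasCompactSupport h.cs.smul_right

theorem dAt (hf : ContDiff ℝ ∞ f) (z : Cn n) : DifferentiableAt ℝ f z :=
  hf.differentiable (by simp) z

theorem int_wd (h : CS f) (s : WI n) : ∫ z, wd s f z = 0 := by
  have h1 : ∀ v : Cn n, Integrable fun z => fderiv ℝ f z v := fun v =>
    ((h.sm.continuous_fderiv (by simp)).clm_apply continuous_const).integrable_of_hasCompactSupport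
      (h.cs.fderiv_apply ℝ v)
  have h2 : ∀ v : Cn n, ∫ z, fderiv ℝ f z v = 0 := fun v => by
    have h3 := integral_bilinear_hasFDerivAt_right_eq_neg_left_of_integrable (μ := volume)
      (f := fun _ : Cn n => (1 : ℝ)) (f' := fun _ => 0) (g := f) (g' := fderiv ℝ f) (v := v)
      (B := ContinuousLinearMap.lsmul ℝ ℝ) (by simp) (by simpa using h1 v) (by simpa using h.int)
      (fun x _ => hasFDerivAt_const _ _) fun x _ => (dAt h.sm x).hasFDerivAt
    simpa using h3
  simp only [wd, wdL]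
  rw [integral_smul, integral_add (h1 _) ((h1 _).fun_smul _), integral_smul, h2, h2]
  simp

theorem norm_wdL_le (s : WI n) (G : Cn n →L[ℝ] W) : ‖wdL s G‖ ≤ ‖G‖ := by
  have h1 : ∀ c : ℂ, ‖c‖ = 1 → ‖G (EuclideanSpace.single s.2 c)‖ ≤ ‖G‖ := fun c hc => by
    simpa [hc] using G.le_opNorm (EuclideanSpace.single s.2 c)
  have h2 : ‖cI s.1‖ = 1 := by cases s.1 <;> simp
  have h3 := norm_add_le (G (EuclideanSpace.single s.2 1))
    (cI s.1 • G (EuclideanSpace.single s.2 Complex.I))
  rw [norm_smul, h2, one_mul] at h3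
  rw [wdL, norm_smul]
  have h4 : ‖(1 / 2 : ℂ)‖ = 1 / 2 := by simp
  rw [h4]
  linarith [h1 1 (by simp), h1 Complex.I (by simp)]

theorem wd_zero {z : Cn n} (hz : z ∉ tsupport f) (s : WI n) : wd s f z = 0 := by
  rw [wd_congr (notMem_tsupport_iff_eventuallyEq.1 hz)]
  exact wd_const 0 z s

/-! ### the mollifier -/

variable {r : ℝ} (hr : 0 < r)

/-- the kernel -/
def rx (x : Cn n) : Cn n → ℂ := cu fun y => rho volume hr (x - y)

theorem sm_rho (x : Cn n) : ContDiff ℝ ∞ fun y : Cn n => rho volume hr (x - y) :=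
  (rho_contDiff volume hr).comp (contDiff_const.sub contDiff_id)

theorem rx_ne {x y : Cn n} (h : rx hr x y ≠ 0) : ‖x - y‖ < r := by
  by_contra h1
  exact h (by simp [rx, cu, rho_zero volume hr (not_lt.1 h1)])

theorem tsupport_rx (x : Cn n) : tsupport (rx hr x) ⊆ closedBall x r :=
  closure_minimal (fun _ h => mem_closedBall'.2 (by rw [dist_eq_norm]; exact (rx_ne hr h).le))
    isClosed_closedBall

theorem cs_rx (x : Cn n) : CS (rx hr x) :=
  ⟨contDiff_iff_contDiffAt.2 fun _ => contDiffAt_cu (sm_rho hr x).contDiffAt,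
    (isCompact_closedBall x r).of_isClosed_subset (isClosed_tsupport _) (tsupport_rx hr x)⟩

theorem norm_rx (x y : Cn n) : ‖rx hr x y‖ = rho volume hr (x - y) := by
  simp [rx, cu, abs_of_nonneg (rho_nonneg volume hr _)]

theorem int_rho (x : Cn n) : ∫ y, rho volume hr (x - y) = 1 := by
  rw [integral_sub_left_eq_self (rho volume hr) volume x, rho_integral]

theorem norm_wd_rx (s : WI n) (x y : Cn n) :
    ‖wd s (rx hr x) y‖ ≤ ‖fderiv ℝ (rho volume hr) (x - y)‖ := by
  have h5 : HasFDerivAt (fun t : Cn n => x - t) (-(ContinuousLinearMap.id ℝ (Cn n))) y := by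
    simpa using (hasFDerivAt_id (𝕜 := ℝ) y).const_sub x
  have h6 := Complex.ofRealCLM.hasFDerivAt.comp y
    (((rho_contDiff volume hr).differentiable (by simp) (x - y)).hasFDerivAt.comp y h5)
  refine (norm_wdL_le s _).trans ?_
  rw [show fderiv ℝ (rx hr x) y = _ from h6.fderiv]
  refine ContinuousLinearMap.opNorm_le_bound _ (norm_nonneg _) fun v => ?_
  simpa using (fderiv ℝ (rho volume hr) (x - y)).le_opNorm v

theorem mo_eq (g : Cn n → W) (x : Cn n) : mo volume hr g x = ∫ y, rx hr x y • g y := by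
  unfold mo
  rw [convolution_eq_swap]
  exact integral_congr_ae (Eventually.of_forall fun y => (Complex.coe_smul _ _).symm)

theorem contDiff_mo (h : CS g) : ContDiff ℝ ∞ (mo volume hr g) :=
  h.cs.contDiff_convolution_right (n := ⊤) _ (rho_integrable volume hr).locallyIntegrable h.sm

theorem wd_mo [CompleteSpace W] (h : CS g) (s : WI n) (x : Cn n) :
    wd s (mo volume hr g) x = mo volume hr (wd s g) x := by
  have h1 := (h.cs.hasFDerivAt_convolution_right (ContinuousLinearMap.lsmul ℝ ℝ)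
    (rho_integrable volume hr).locallyIntegrable (h.sm.of_le (by simp)) x).fderiv
  have h2 : Integrable fun t => rho volume hr t • fderiv ℝ g (x - t) :=
    ((rho_contDiff volume hr).continuous.smul ((h.sm.continuous_fderiv (by simp)).comp
      (continuous_const.sub continuous_id))).integrable_of_hasCompactSupport
      (rho_cs volume hr).smul_right
  have h3 : fderiv ℝ (mo volume hr g) x = ∫ t, rho volume hr t • fderiv ℝ g (x - t) := by
    refine h1.trans (integral_congr_ae (Eventually.of_forall fun t => ?_))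
    ext e
    simp [ContinuousLinearMap.precompR_apply]
  rw [wd, h3, ← wdLc_apply, ← (wdLc s).integral_comp_comm h2]
  exact integral_congr_ae (Eventually.of_forall fun t => map_smul (wdLc s) _ _)

/-- the mollification only sees a neighbourhood -/
theorem norm_mo_le {K' : Set (Cn n)} (hK' : IsCompact K') {x : Cn n} (hx : closedBall x r ⊆ K')
    {F : Cn n → W} {k g : Cn n → ℝ} (hk : Continuous k) (hg : Continuous g)
    (h0 : ∀ y, r < ‖x - y‖ → F y = 0) (h : ∀ y, ‖x - y‖ ≤ r → ‖F y‖ ≤ k (x - y) * g y)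
    (hk0 : ∀ y, 0 ≤ k y) (hg0 : ∀ y, 0 ≤ g y) : ‖∫ y, F y‖ ≤ ∫ y in K', k (x - y) * g y := by
  rw [← setIntegral_eq_integral_of_forall_compl_eq_zero (s := K') fun y hy => h0 y (by
    by_contra h1
    exact hy (hx (mem_closedBall'.2 (by rw [dist_eq_norm]; exact not_lt.1 h1))))]
  refine norm_integral_le_of_norm_le (((hk.comp (continuous_const.sub continuous_id)).mul
    hg).continuousOn.integrableOn_compact hK') (Eventually.of_forall fun y => ?_)
  by_cases h1 : r < ‖x - y‖
  · rw [h0 y h1, norm_zero]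
    exact mul_nonneg (hk0 _) (hg0 _)
  · exact h y (not_lt.1 h1)

theorem norm_int_rx {x : Cn n} {c : ℝ} (h : ∀ y, ‖x - y‖ < r → ‖g y‖ ≤ c) :
    ‖∫ y, rx hr x y • g y‖ ≤ c := by
  have h1 : Integrable fun y => rho volume hr (x - y) * c :=
    ((rho_integrable volume hr).comp_sub_left x).mul_const c
  refine (norm_integral_le_of_norm_le h1 (Eventually.of_forall fun y => ?_)).trans_eq ?_
  · by_cases h2 : rx hr x y = 0
    · rw [← norm_rx, h2]
      simp
    · rw [norm_smul, norm_rx]
      exact mul_le_mul_of_nonneg_left (h y (rx_ne hr h2)) (rho_nonneg volume hr _)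
  · rw [integral_mul_const, int_rho, one_mul]

end W

/-! ### Young's inequality -/

theorem young {K K' : Set (Cn n)} (hK : IsCompact K) (hK' : IsCompact K') {k g : Cn n → ℝ}
    (hk : Continuous k) (hki : Integrable k) (hg : Continuous g) (hk0 : ∀ y, 0 ≤ k y)
    (hg0 : ∀ y, 0 ≤ g y) :
    ∫ x in K, (∫ y in K', k (x - y) * g y) ^ 2 ≤ (∫ y, k y) ^ 2 * ∫ y in K', g y ^ 2 := by
  have hc : Continuous fun x => ∫ y in K', k (x - y) * g y :=
    continuous_parametric_integral_of_continuous
      ((hk.comp (continuous_fst.sub continuous_snd)).mul (hg.comp continuous_snd)) hK'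
  have h1 := young_lintegral (volume : Measure (Cn n)) (k := fun y => ENNReal.ofReal (k y))
    (g := K'.indicator fun y => ENNReal.ofReal (g y)) hk.measurable.ennreal_ofReal
    (hg.measurable.ennreal_ofReal.indicator hK'.measurableSet).aemeasurable
  have h2 : ∀ x, ∫⁻ y, ENNReal.ofReal (k (x - y)) *
      K'.indicator (fun y => ENNReal.ofReal (g y)) y =
      ENNReal.ofReal (∫ y in K', k (x - y) * g y) := fun x => by
    rw [ofReal_integral_eq_lintegral_ofReal ((by fun_prop : Continuous fun y =>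
      k (x - y) * g y).continuousOn.integrableOn_compact hK') (Eventually.of_forall fun y =>
      mul_nonneg (hk0 _) (hg0 _)), ← lintegral_indicator hK'.measurableSet]
    refine lintegral_congr fun y => ?_
    by_cases hy : y ∈ K'
    · simp [hy, ENNReal.ofReal_mul (hk0 _)]
    · simp [hy]
  have h3 : ∫⁻ y, K'.indicator (fun y => ENNReal.ofReal (g y)) y ^ 2 =
      ENNReal.ofReal (∫ y in K', g y ^ 2) := by
    rw [ofReal_integral_eq_lintegral_ofReal ((hg.fun_pow 2).continuousOn.integrableOn_compact hK')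
      (Eventually.of_forall fun y => sq_nonneg _), ← lintegral_indicator hK'.measurableSet]
    refine lintegral_congr fun y => ?_
    by_cases hy : y ∈ K'
    · simp [hy, ENNReal.ofReal_pow (hg0 _)]
    · simp [hy]
  simp only [h2, h3] at h1
  rw [← ofReal_integral_eq_lintegral_ofReal hki (Eventually.of_forall hk0),
    ← ENNReal.ofReal_pow (integral_nonneg hk0), ← ENNReal.ofReal_mul (sq_nonneg _)] at h1
  refine (ENNReal.ofReal_le_ofReal_iff (mul_nonneg (sq_nonneg _)
    (integral_nonneg fun _ => sq_nonneg _))).1 (le_trans ?_ h1)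
  rw [ofReal_integral_eq_lintegral_ofReal ((hc.fun_pow 2).continuousOn.integrableOn_compact hK)
    (Eventually.of_forall fun y => sq_nonneg _)]
  refine (setLIntegral_le_lintegral _ _).trans_eq (lintegral_congr fun x => ?_)
  exact ENNReal.ofReal_pow (integral_nonneg fun y => mul_nonneg (hk0 _) (hg0 _)) 2

theorem l2_bound {K K' : Set (Cn n)} (hK : IsCompact K) (hK' : IsCompact K') (hKK : K ⊆ K')
    {k g S : Cn n → ℝ} {m c : ℝ} (hk : Continuous k) (hki : Integrable k) (hg : Continuous g)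
    (hk0 : ∀ y, 0 ≤ k y) (hg0 : ∀ y, 0 ≤ g y) (hm : 0 ≤ m) (hS : ∀ x, 0 ≤ S x)
    (h : ∀ x ∈ K, S x ≤ m * ((∫ y in K', k (x - y) * g y) + g x + c) ^ 2) :
    ∫ x in K, S x ≤ 3 * m * ((∫ y, k y) ^ 2 + 1) * (∫ y in K', g y ^ 2) +
      3 * m * volume.real K * c ^ 2 := by
  have hc : Continuous fun x => ∫ y in K', k (x - y) * g y :=
    continuous_parametric_integral_of_continuous
      ((hk.comp (continuous_fst.sub continuous_snd)).mul (hg.comp continuous_snd)) hK'
  have i1 := (hc.fun_pow 2).continuousOn.integrableOn_compact (μ := volume) hK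
  have i2 := (hg.fun_pow 2).continuousOn.integrableOn_compact (μ := volume) hK
  have i3 := (continuous_const (y := c ^ 2)).continuousOn.integrableOn_compact (μ := volume) hK
  have h1 : ∫ x in K, S x ≤
      ∫ x in K, 3 * m * ((∫ y in K', k (x - y) * g y) ^ 2 + g x ^ 2 + c ^ 2) := by
    refine integral_mono_of_nonneg (Eventually.of_forall hS) (((i1.add i2).add i3).const_mul _)
      ((ae_restrict_iff' hK.measurableSet).2 (Eventually.of_forall fun x hx => (h x hx).trans ?_))
    have h2 : ∀ a b : ℝ, (a + b + c) ^ 2 ≤ 3 * (a ^ 2 + b ^ 2 + c ^ 2) := fun a b => by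
      nlinarith [sq_nonneg (a - b), sq_nonneg (a - c), sq_nonneg (b - c)]
    exact (mul_le_mul_of_nonneg_left (h2 _ _) hm).trans_eq (by ring)
  rw [integral_const_mul, integral_add (Integrable.fun_add i1 i2) i3, integral_add i1 i2, setIntegral_const,
    smul_eq_mul] at h1
  have h3 := young hK hK' hk hki hg hk0 hg0
  have h4 : ∫ y in K, g y ^ 2 ≤ ∫ y in K', g y ^ 2 :=
    setIntegral_mono_set ((hg.pow 2).continuousOn.integrableOn_compact hK')
      (Eventually.of_forall fun y => sq_nonneg _) hKK.eventuallyLE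
  refine h1.trans ((mul_le_mul_of_nonneg_left (add_le_add (add_le_add h3 h4) le_rfl)
    (by positivity)).trans_eq (by ring))

/-! ### the tension -/

variable {H : Type*} [NormedAddCommGroup H] [InnerProductSpace ℂ H] {Q : Cn n → Mt n}
  {G : Cn n → H}

theorem sm_ac (hQ : ∀ a b, ContDiff ℝ ∞ fun z => Q z a b) (hG : ContDiff ℝ ∞ G) (r : Fin n) :
    ContDiff ℝ ∞ fun y => ac (Q y) (th G y) r :=
  ContDiff.sum fun p _ => (hQ r p).smul (contDiff_wd hG _)

theorem sm_trH (hQ : ∀ a b, ContDiff ℝ ∞ fun z => Q z a b) (hG : ContDiff ℝ ∞ G) :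
    ContDiff ℝ ∞ fun y => trH (Q y) (Am G y) :=
  ContDiff.sum fun p _ => (hQ p.2 p.1).smul (contDiff_wd (contDiff_wd hG _) _)

/-- the weak form of the tension -/
theorem weak (hQ : ∀ a b, ContDiff ℝ ∞ fun z => Q z a b) (hG : ContDiff ℝ ∞ G) {f : Cn n → ℂ}
    (hf : CS f) (hd : ∀ y, f y ≠ 0 → ∀ p, ∑ r, wd (true, r) (fun w => Q w r p) y = 0) :
    ∫ y, f y • trH (Q y) (Am G y) = -∫ y, ∑ r, wd (true, r) f y • ac (Q y) (th G y) r := by
  have h1 : ∀ y, ∑ r, wd (true, r) (fun y => f y • ac (Q y) (th G y) r) y =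
      f y • trH (Q y) (Am G y) + ∑ r, wd (true, r) f y • ac (Q y) (th G y) r := fun y => by
    have h2 : ∀ r, wd (true, r) (fun y => ac (Q y) (th G y) r) y =
        ∑ p, (wd (true, r) (fun w => Q w r p) y • th G y p + Q y r p • Am G y (p, r)) := fun r => by
      refine (wd_sum Finset.univ (f := fun p y => Q y r p • th G y p)
        (fun p _ => dAt ((hQ r p).smul (contDiff_wd hG _)) y) _).trans
        (Finset.sum_congr rfl fun p _ => ?_)
      refine (wd_smul (dAt (hQ r p) y) (dAt (contDiff_wd hG (false, p)) y) _).trans ?_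
      rw [wd_comm hG.contDiffAt]
      rfl
    simp only [wd_smul (dAt hf.sm y) (dAt (sm_ac hQ hG _) y), h2, Finset.sum_add_distrib]
    rw [add_comm, ← Finset.smul_sum, Finset.sum_add_distrib, Finset.sum_comm]
    congr 1
    by_cases h3 : f y = 0
    · simp [h3]
    · simp only [← Finset.sum_smul, hd y h3, zero_smul, Finset.sum_const_zero, zero_add]
      rw [trH, Fintype.sum_prod_type_right]
  have h4 : ∫ y, ∑ r, wd (true, r) (fun y => f y • ac (Q y) (th G y) r) y = 0 := by
    rw [integral_finsetSum _ fun r _ => ((hf.smul (sm_ac hQ hG r)).wd _).int]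
    exact Finset.sum_eq_zero fun r _ => int_wd (hf.smul (sm_ac hQ hG r)) _
  simp only [h1] at h4
  rw [integral_add (hf.int_smul (sm_trH hQ hG).continuous) (integrable_finsetSum _ fun r _ =>
    (hf.wd _).int_smul (sm_ac hQ hG r).continuous)] at h4
  exact eq_neg_of_add_eq_zero_left h4

theorem J_wd (cj : Cj H) {G' : Cn n → H} (hG : ContDiff ℝ ∞ G) (h : ∀ z, cj.J (G z) = G' z)
    (s : WI n) (z : Cn n) : cj.J (wd s G z) = wd (!s.1, s.2) G' z := by
  have h1 : fderiv ℝ G' z = cj.J.comp (fderiv ℝ G z) := by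
    rw [← show (cj.J ∘ G) = G' from funext h]
    exact (cj.J.hasFDerivAt.comp z (dAt hG z).hasFDerivAt).fderiv
  obtain ⟨b, a⟩ := s
  rw [wd, wd, h1]
  cases b <;> simp [wdL, cj.smul, map_ofNat (starRingEnd ℂ) 2]

theorem J_trH (cj : Cj H) (hG : ContDiff ℝ ∞ G) (h : ∀ z, cj.J (G z) = G z) {X : Mt n}
    (hX : X.IsHermitian) (z : Cn n) : cj.J (trH X (Am G z)) = trH X (Am G z) := by
  simp only [trH, map_sum, cj.smul, Am]
  refine Fintype.sum_equiv (Equiv.prodComm _ _) _ _ fun p => ?_
  rw [J_wd cj (contDiff_wd hG _) (J_wd cj hG h _), wd_comm hG.contDiffAt]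
  exact congrArg (· • _) (hX.apply p.1 p.2)

theorem norm_le_sqrt {ι : Type*} [Fintype ι] (θ : ι → H) (p : ι) : ‖θ p‖ ≤ √(sq θ) :=
  Real.le_sqrt_of_sq_le (Finset.single_le_sum (f := fun r => ‖θ r‖ ^ 2)
    (fun _ _ => sq_nonneg _) (Finset.mem_univ p))

theorem sq_le_of {θ : Fin n → H} {c : ℝ} (h : ∀ p, ‖θ p‖ ≤ c) : sq θ ≤ n * c ^ 2 := by
  refine (Finset.sum_le_card_nsmul _ _ (c ^ 2) fun p _ =>
    pow_le_pow_left₀ (norm_nonneg _) (h p) 2).trans_eq ?_
  simp

theorem norm_ac_le {X : Mt n} {θ : Fin n → H} {a c : ℝ} (hX : ∀ r p, ‖X r p‖ ≤ a)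
    (h : ∀ p, ‖θ p‖ ≤ c) (r : Fin n) : ‖ac X θ r‖ ≤ n * (a * c) := by
  refine (norm_sum_le _ _).trans ((Finset.sum_le_card_nsmul _ _ (a * c) fun p _ => ?_).trans_eq
    (by simp))
  rw [norm_smul]
  exact mul_le_mul (hX r p) (h p) (norm_nonneg _) ((norm_nonneg _).trans (hX r p))

theorem norm_trH_le {X : Mt n} {A : Fin n × Fin n → H} {a c : ℝ} (hX : ∀ r p, ‖X r p‖ ≤ a)
    (h : ∀ p, ‖A p‖ ≤ c) : ‖trH X A‖ ≤ n * n * (a * c) := by
  refine (norm_sum_le _ _).trans ((Finset.sum_le_card_nsmul _ _ (a * c) fun p _ => ?_).trans_eq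
    (by simp))
  rw [norm_smul]
  exact mul_le_mul (hX _ _) (h p) (norm_nonneg _) ((norm_nonneg _).trans (hX p.1 p.2))

end

end Crest.Agent.X261.Fam.Mol
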