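import Crest.Agent.X261.Fam.Lin

/-!
# Row 261, package FAM (helper12), part NF: normal form of a pair `(G, C)`
-/

set_option autoImplicit false
set_option linter.unusedSectionVars false

open Matrix Finset Filter Topology
open scoped ComplexConjugate ComplexOrder MatrixOrder InnerProductSpace Kronecker

namespace Crest.Agent.X261.Fam

open Crest.Agent.R273.Fock_243 Crest.Agent.R273.GamR_155

noncomputable section

variable {H : Type*} [NormedAddCommGroup H] [InnerProductSpace ℂ H] {n q : ℕ}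

/-! ### the determinant `det (ε + P)` -/

/-- `det (ε + P)` -/
def Dp (P : Mt q) (ε : ℝ) : ℝ := (((ε : ℂ) • (1 : Mt q) + P).det).re

theorem continuous_Dp (P : Mt q) : Continuous (Dp P) := by
  unfold Dp
  exact Complex.continuous_re.comp (Continuous.matrix_det (by fun_prop))

theorem exists_spec {P : Mt q} (hP : P.PosSemidef) : ∃ (U : Mt q) (ν : Fin q → ℝ), (∀ j, 0 ≤ ν j) ∧
    Uᴴ * U = 1 ∧ U * Uᴴ = 1 ∧ P = U * diagonal (fun j => (ν j : ℂ)) * Uᴴ := by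
  refine ⟨hP.1.eigenvectorUnitary, hP.1.eigenvalues, hP.eigenvalues_nonneg, ?_, ?_, ?_⟩
  · rw [← star_eq_conjTranspose]; exact Unitary.coe_star_mul_self _
  · rw [← star_eq_conjTranspose]; exact Unitary.coe_mul_star_self _
  · have h := hP.1.spectral_theorem
    rw [Unitary.conjStarAlgAut_apply] at h
    exact h

theorem prod_step {ν : Fin q → ℝ} (hν : ∀ j, 0 ≤ ν j) {ε : ℝ} (hε : 0 < ε) (j : Fin q) :
    (∏ i, ν i) * (ε / (ε + ν j)) ≤ ∏ i, (ε + ν i) - ∏ i, ν i := by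
  rw [← Finset.mul_prod_erase _ _ (Finset.mem_univ j),
    ← Finset.mul_prod_erase _ (fun i => ε + ν i) (Finset.mem_univ j)]
  have h0 : 0 ≤ ∏ i ∈ univ.erase j, ν i := Finset.prod_nonneg fun i _ => hν i
  have h1 : ∏ i ∈ univ.erase j, ν i ≤ ∏ i ∈ univ.erase j, (ε + ν i) :=
    Finset.prod_le_prod (fun i _ => hν i) fun i _ => by linarith
  have h2 : 0 < ε + ν j := by linarith [hν j]
  have h3 : ν j * (ε / (ε + ν j)) ≤ ε := by
    rw [mul_div_assoc', div_le_iff₀ h2]; nlinarith [hν j]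
  nlinarith [mul_le_mul_of_nonneg_left h3 h0, mul_le_mul_of_nonneg_left h1 h2.le]

/-- the facts on `det (ε + P)` and on the resolvent -/
theorem Dp_facts {P : Mt q} (hP : P.PosSemidef) :
    (∀ ε : ℝ, ((ε : ℂ) • (1 : Mt q) + P).det = (Dp P ε : ℂ)) ∧ 0 ≤ Dp P 0 ∧
    (∀ ε ε' : ℝ, 0 ≤ ε → ε ≤ ε' → Dp P ε ≤ Dp P ε') ∧ ∀ ε : ℝ, 0 < ε → 0 < Dp P ε ∧
      ∀ h k, ‖((ε : ℂ) • ((ε : ℂ) • (1 : Mt q) + P)⁻¹) h k‖ ≤ q ∧
        Dp P 0 * ‖((ε : ℂ) • ((ε : ℂ) • (1 : Mt q) + P)⁻¹) h k‖ ≤ q * (Dp P ε - Dp P 0) := by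
  obtain ⟨U, ν, hν, h1, h2, h3⟩ := exists_spec hP
  have e1 : ∀ ε : ℝ, (ε : ℂ) • (1 : Mt q) + P =
      U * diagonal (fun j => ((ε + ν j : ℝ) : ℂ)) * Uᴴ := fun ε => by
    have : diagonal (fun j => ((ε + ν j : ℝ) : ℂ)) =
        (ε : ℂ) • (1 : Mt q) + diagonal fun j => (ν j : ℂ) := by
      ext a b
      by_cases h : a = b <;> simp [h]
    rw [this, Matrix.mul_add, Matrix.add_mul, Matrix.mul_smul, Matrix.mul_one, Matrix.smul_mul, h2,
      ← h3]
  have e2 : ∀ ε : ℝ, ((ε : ℂ) • (1 : Mt q) + P).det = ((∏ j, (ε + ν j) : ℝ) : ℂ) := fun ε => by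
    rw [e1, Matrix.det_mul, Matrix.det_mul, mul_right_comm, ← Matrix.det_mul, h2, Matrix.det_one,
      one_mul, Matrix.det_diagonal]
    norm_cast
  have e3 : ∀ ε : ℝ, Dp P ε = ∏ j, (ε + ν j) := fun ε => by
    unfold Dp; rw [e2, Complex.ofReal_re]
  have hU : ∀ a j, ‖U a j‖ ≤ 1 := fun a j => by
    have h4 : ((U * Uᴴ) a a).re = ∑ p, ‖U a p‖ ^ 2 := by
      simp only [Matrix.mul_apply, Matrix.conjTranspose_apply, RCLike.star_def, Complex.mul_conj',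
        Complex.re_sum]
      exact Finset.sum_congr rfl fun p _ => by norm_cast
    rw [h2, Matrix.one_apply_eq, Complex.one_re] at h4
    have h5 : ‖U a j‖ ^ 2 ≤ ∑ p, ‖U a p‖ ^ 2 :=
      Finset.single_le_sum (f := fun p => ‖U a p‖ ^ 2) (fun _ _ => by positivity) (mem_univ j)
    nlinarith [norm_nonneg (U a j)]
  refine ⟨fun ε => by rw [e2, e3], ?_, fun ε ε' h0 h => ?_, fun ε hε => ⟨?_, fun h k => ?_⟩⟩
  · rw [e3]; exact Finset.prod_nonneg fun j _ => by linarith [hν j]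
  · rw [e3, e3]
    exact Finset.prod_le_prod (fun j _ => by linarith [hν j]) fun j _ => by linarith
  · rw [e3]; exact Finset.prod_pos fun j _ => by linarith [hν j]
  have hp : ∀ j, 0 < ε + ν j := fun j => by linarith [hν j]
  have e4 : ((ε : ℂ) • (1 : Mt q) + P)⁻¹ =
      U * diagonal (fun j => (((ε + ν j)⁻¹ : ℝ) : ℂ)) * Uᴴ := by
    apply Matrix.inv_eq_right_inv
    rw [e1]
    calc U * diagonal (fun j => ((ε + ν j : ℝ) : ℂ)) * Uᴴ *
          (U * diagonal (fun j => (((ε + ν j)⁻¹ : ℝ) : ℂ)) * Uᴴ)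
        = U * (diagonal (fun j => ((ε + ν j : ℝ) : ℂ)) * (Uᴴ * U) *
          diagonal (fun j => (((ε + ν j)⁻¹ : ℝ) : ℂ))) * Uᴴ := by simp only [Matrix.mul_assoc]
      _ = 1 := by
        rw [h1, Matrix.mul_one, Matrix.diagonal_mul_diagonal]
        have : (fun j => ((ε + ν j : ℝ) : ℂ) * (((ε + ν j)⁻¹ : ℝ) : ℂ)) = fun _ => 1 := by
          funext j
          rw [← Complex.ofReal_mul, mul_inv_cancel₀ (hp j).ne', Complex.ofReal_one]
        rw [this, Matrix.diagonal_one, Matrix.mul_one, h2]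
  have e5 : ‖((ε : ℂ) • ((ε : ℂ) • (1 : Mt q) + P)⁻¹) h k‖ ≤ ∑ j, ε / (ε + ν j) := by
    rw [e4, Matrix.smul_apply, Matrix.mul_apply, smul_eq_mul, Finset.mul_sum]
    refine (norm_sum_le _ _).trans (Finset.sum_le_sum fun j _ => ?_)
    rw [Matrix.mul_diagonal, Matrix.conjTranspose_apply, norm_mul, norm_mul, norm_mul, norm_star,
      Complex.norm_real, Complex.norm_real, Real.norm_of_nonneg hε.le,
      Real.norm_of_nonneg (inv_pos.2 (hp j)).le, div_eq_mul_inv]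
    have h6 := inv_pos.2 (hp j)
    refine mul_le_mul_of_nonneg_left ?_ hε.le
    calc ‖U h j‖ * (ε + ν j)⁻¹ * ‖U k j‖ ≤ 1 * (ε + ν j)⁻¹ * 1 := by
          gcongr <;> exact hU _ _
      _ = _ := by ring
  constructor
  · refine e5.trans ?_
    calc ∑ j, ε / (ε + ν j) ≤ ∑ _j : Fin q, (1 : ℝ) :=
          Finset.sum_le_sum fun j _ => (div_le_one (hp j)).2 (by linarith [hν j])
      _ = q := by simp
  · have h0 : 0 ≤ Dp P 0 := by rw [e3]; exact Finset.prod_nonneg fun j _ => by linarith [hν j]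
    refine (mul_le_mul_of_nonneg_left e5 h0).trans ?_
    rw [Finset.mul_sum, e3, e3]
    simp only [zero_add]
    calc ∑ j, (∏ i, ν i) * (ε / (ε + ν j)) ≤ ∑ _j : Fin q, (∏ i, (ε + ν i) - ∏ i, ν i) :=
          Finset.sum_le_sum fun j _ => prod_step hν hε j
      _ = _ := by simp [mul_sub]

/-! ### normal form -/

/-- the horizontal Gram matrix -/
def Hm (G : Mt n) (C : Mr n q) : Mt q := Cᴴ * G⁻¹ * C

theorem Hm_psd {G : Mt n} (hG : G.PosDef) (C : Mr n q) : (Hm G C).PosSemidef :=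
  hG.inv.posSemidef.conjTranspose_mul_mul_same C

/-- `det (ε + Cᴴ G⁻¹ C)` -/
def Dm (G : Mt n) (C : Mr n q) (ε : ℝ) : ℝ := Dp (Hm G C) ε

/-- simultaneous diagonalisation of `G` and `C Cᴴ` -/
structure NF (G : Mt n) (C : Mr n q) (N : Mt n) (μ : Fin n → ℝ) : Prop where
  one : N * G * Nᴴ = 1
  inv : Nᴴ * N = G⁻¹
  dg : N * C * (N * C)ᴴ = diagonal fun k => (μ k : ℂ)
  nn : ∀ k, 0 ≤ μ k

theorem exists_NF {G : Mt n} (hG : G.PosDef) (C : Mr n q) : ∃ N μ, NF G C N μ := by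
  have hgi : (G⁻¹).PosDef := hG.inv
  set S : Mt n := CFC.sqrt G⁻¹ with hS
  have hSS : S * S = G⁻¹ := CFC.sqrt_mul_sqrt_self _ hgi.posSemidef.nonneg
  have hSh : Sᴴ = S := (CFC.sqrt_nonneg G⁻¹).posSemidef.1
  have hu : IsUnit G.det := (isUnit_iff_isUnit_det G).1 hG.isUnit
  have hSgS : S * G * S = 1 := by
    have h1 : S * (S * G) = 1 := by rw [← mul_assoc, hSS, nonsing_inv_mul _ hu]
    exact mul_eq_one_comm.1 h1
  have hB : (S * C * (S * C)ᴴ).PosSemidef := posSemidef_self_mul_conjTranspose _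
  obtain ⟨U, ν, hν, h1, h2, h3⟩ := exists_spec hB
  refine ⟨Uᴴ * S, ν, ?_, ?_, ?_, hν⟩
  · rw [conjTranspose_mul, hSh, conjTranspose_conjTranspose]
    calc Uᴴ * S * G * (S * U) = Uᴴ * (S * G * S) * U := by simp only [mul_assoc]
      _ = 1 := by rw [hSgS, mul_one, h1]
  · rw [conjTranspose_mul, hSh, conjTranspose_conjTranspose]
    calc S * U * (Uᴴ * S) = S * (U * Uᴴ) * S := by simp only [mul_assoc]
      _ = G⁻¹ := by rw [h2, mul_one, hSS]
  · calc Uᴴ * S * C * (Uᴴ * S * C)ᴴ = Uᴴ * (S * C * (S * C)ᴴ) * U := by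
          simp only [conjTranspose_mul, conjTranspose_conjTranspose, Matrix.mul_assoc]
      _ = (Uᴴ * U) * diagonal (fun j => (ν j : ℂ)) * (Uᴴ * U) := by
          rw [h3]; simp only [Matrix.mul_assoc]
      _ = _ := by rw [h1, Matrix.one_mul, Matrix.mul_one]

theorem det_re_pos {G : Mt n} (hG : G.PosDef) : 0 < G.det.re := (Complex.pos_iff.1 hG.det_pos).1

theorem det_ofReal {G : Mt n} (hG : G.PosDef) : G.det = (G.det.re : ℂ) :=
  Complex.ext rfl (by simpa using (Complex.pos_iff.1 hG.det_pos).2.symm)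

theorem gE_posDef {G : Mt n} (hG : G.PosDef) (C : Mr n q) {ε : ℝ} (hε : 0 < ε) :
    (gE G C ε).PosDef :=
  hG.add_posSemidef ((posSemidef_self_mul_conjTranspose C).smul
    (Complex.zero_le_real.2 (inv_pos.2 hε).le))

theorem det_gE {G : Mt n} (hG : G.PosDef) (C : Mr n q) {ε : ℝ} (hε : 0 < ε) :
    ((ε ^ q : ℝ) : ℂ) * (gE G C ε).det = ((G.det.re * Dm G C ε : ℝ) : ℂ) := by
  have hu : IsUnit G.det := (isUnit_iff_isUnit_det G).1 hG.isUnit
  have h1 : gE G C ε = G * (1 + (((ε⁻¹ : ℝ) : ℂ) • (G⁻¹ * C)) * Cᴴ) := by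
    unfold gE
    rw [Matrix.mul_add, Matrix.mul_one, Matrix.smul_mul, Matrix.mul_smul, Matrix.mul_assoc,
      ← Matrix.mul_assoc G, Matrix.mul_nonsing_inv _ hu, Matrix.one_mul]
  have h2 : (ε : ℂ) • (1 + Cᴴ * (((ε⁻¹ : ℝ) : ℂ) • (G⁻¹ * C))) =
      (ε : ℂ) • (1 : Mt q) + Hm G C := by
    rw [smul_add, Matrix.mul_smul, smul_smul, ← Complex.ofReal_mul, mul_inv_cancel₀ hε.ne',
      Complex.ofReal_one, one_smul, Hm, Matrix.mul_assoc]
  have h3 := (Dp_facts (Hm_psd hG C)).1 ε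
  rw [← h2, Matrix.det_smul, Fintype.card_fin] at h3
  rw [h1, Matrix.det_mul, Matrix.det_one_add_mul_comm, Complex.ofReal_mul, ← det_ofReal hG, Dm,
    ← h3]
  push_cast
  ring

theorem adj_eq {g : Mt n} (hg : g.PosDef) : g.adjugate = g.det • g⁻¹ := by
  have hu : IsUnit g.det := (isUnit_iff_isUnit_det g).1 hg.isUnit
  rw [Matrix.nonsing_inv_apply _ hu, smul_smul]
  simp [mul_inv_cancel₀ hu.ne_zero]

theorem Qe_eq {G : Mt n} (hG : G.PosDef) (C : Mr n q) {ε : ℝ} (hε : 0 < ε) :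
    Qe G C ε = ((G.det.re * Dm G C ε : ℝ) : ℂ) • (gE G C ε)⁻¹ := by
  unfold Qe
  rw [adj_eq (gE_posDef hG C hε), smul_smul, det_gE hG C hε]

theorem Qe_posDef {G : Mt n} (hG : G.PosDef) (C : Mr n q) {ε : ℝ} (hε : 0 < ε) :
    (Qe G C ε).PosDef := by
  rw [Qe_eq hG C hε]
  exact (gE_posDef hG C hε).inv.smul (Complex.zero_lt_real.2
    (mul_pos (det_re_pos hG) ((Dp_facts (Hm_psd hG C)).2.2.2 ε hε).1))

theorem res_eq {G : Mt n} (hG : G.PosDef) (C : Mr n q) {ε : ℝ} (hε : 0 < ε) :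
    ((ε⁻¹ : ℝ) : ℂ) • (Cᴴ * (gE G C ε)⁻¹ * C) =
      1 - (ε : ℂ) • ((ε : ℂ) • (1 : Mt q) + Hm G C)⁻¹ := by
  have hu : IsUnit G.det := (isUnit_iff_isUnit_det G).1 hG.isUnit
  have hu' : IsUnit (gE G C ε).det :=
    (isUnit_iff_isUnit_det _).1 (gE_posDef hG C hε).isUnit
  have hD : IsUnit ((ε : ℂ) • (1 : Mt q) + Hm G C).det := by
    rw [(Dp_facts (Hm_psd hG C)).1]
    exact (Complex.ofReal_ne_zero.2 ((Dp_facts (Hm_psd hG C)).2.2.2 ε hε).1.ne').isUnit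
  have hε' : (ε : ℂ) ≠ 0 := Complex.ofReal_ne_zero.2 hε.ne'
  have h1 : G⁻¹ = (gE G C ε)⁻¹ + ((ε⁻¹ : ℝ) : ℂ) • ((gE G C ε)⁻¹ * (C * Cᴴ) * G⁻¹) := by
    calc G⁻¹ = (gE G C ε)⁻¹ * gE G C ε * G⁻¹ := by
          rw [Matrix.nonsing_inv_mul _ hu', Matrix.one_mul]
      _ = _ := by
          conv_lhs => enter [1, 2]; unfold gE
          rw [Matrix.mul_add, Matrix.add_mul, Matrix.mul_assoc _ G, Matrix.mul_nonsing_inv _ hu,
            Matrix.mul_one, Matrix.mul_smul, Matrix.smul_mul]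
  have h2 : (((ε⁻¹ : ℝ) : ℂ) • (Cᴴ * (gE G C ε)⁻¹ * C)) * ((ε : ℂ) • (1 : Mt q) + Hm G C) =
      Hm G C := by
    conv_rhs => rw [Hm, h1]
    rw [Matrix.mul_add, Matrix.mul_smul, Matrix.mul_one, smul_smul, ← Complex.ofReal_mul,
      mul_inv_cancel₀ hε.ne', Complex.ofReal_one, one_smul, Matrix.mul_add, Matrix.add_mul,
      Matrix.smul_mul, Matrix.mul_smul, Matrix.smul_mul, Hm]
    simp only [Matrix.mul_assoc]
  calc _ = (((ε⁻¹ : ℝ) : ℂ) • (Cᴴ * (gE G C ε)⁻¹ * C)) * ((ε : ℂ) • (1 : Mt q) + Hm G C) *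
        ((ε : ℂ) • (1 : Mt q) + Hm G C)⁻¹ := by
        rw [Matrix.mul_assoc _ _ (_ : Mt q)⁻¹, Matrix.mul_nonsing_inv _ hD, Matrix.mul_one]
    _ = ((ε : ℂ) • (1 : Mt q) + Hm G C - (ε : ℂ) • (1 : Mt q)) *
        ((ε : ℂ) • (1 : Mt q) + Hm G C)⁻¹ := by rw [h2, add_sub_cancel_left]
    _ = _ := by rw [Matrix.sub_mul, Matrix.mul_nonsing_inv _ hD, Matrix.smul_mul, Matrix.one_mul]

theorem eW_ct (v : Fin n → ℂ) : (eW v)ᴴ = iW (star v) := by
  rw [← eW_transpose]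
  ext T S
  simp only [Matrix.conjTranspose_apply, Matrix.transpose_apply, eW, Crest.Agent.R275.Kos798.K,
    star_sum]
  refine Finset.sum_congr rfl fun j _ => ?_
  split_ifs
  · simp only [Crest.Agent.R275.Kos798.sgn, Crest.Agent.R275.Kos798.cf, star_mul', star_pow,
      star_neg, star_one]
    split_ifs <;> simp
  · simp

theorem tau_sq (C : Mr n q) : star (tau C) ⬝ᵥ tau C = (Cᴴ * C).det := by
  unfold tau
  rw [Matrix.star_mulVec, ← Matrix.dotProduct_mulVec, Matrix.mulVec_mulVec, GamR_ct, ← GamR_mul,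
    GamR_eq_Gam, Gam_univ]
  simp

/-- indicator of the vertical directions -/
def vt (μ : Fin n → ℝ) (k : Fin n) : ℝ := if μ k = 0 then 1 else 0

/-- the eigenvalues of `(gE G C ε)⁻¹` -/
def wt (μ : Fin n → ℝ) (ε : ℝ) (k : Fin n) : ℝ := ε / (ε + μ k)

namespace NF

variable {G : Mt n} {C : Mr n q} {N : Mt n} {μ : Fin n → ℝ} (h : NF G C N μ)
include h

theorem det_ne : N.det ≠ 0 := fun h0 => by
  have := congrArg Matrix.det h.one
  rw [Matrix.det_mul, Matrix.det_mul, h0, Matrix.det_one] at this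
  simp at this

theorem det_sq : ((‖N.det‖ ^ 2 : ℝ) : ℂ) * G.det = 1 := by
  rw [← det_conj, h.one, Matrix.det_one]

theorem row_zero {k : Fin n} (hk : μ k = 0) (j : Fin q) : (N * C) k j = 0 := by
  have h1 := congrFun (congrFun h.dg k) k
  rw [Matrix.diagonal_apply_eq, hk, Matrix.mul_apply] at h1
  simp only [Matrix.conjTranspose_apply, RCLike.star_def, Complex.mul_conj'] at h1
  have h2 : ∑ p, ‖(N * C) k p‖ ^ 2 = 0 := by exact_mod_cast h1
  have h3 := (Finset.sum_eq_zero_iff_of_nonneg fun _ _ => by positivity).1 h2 j (mem_univ j)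
  simpa using h3

theorem gram : (N * C)ᴴ * (N * C) = Hm G C := by
  rw [Matrix.conjTranspose_mul, Hm, ← h.inv]; simp only [Matrix.mul_assoc]

theorem wt_pos {ε : ℝ} (hε : 0 < ε) (k : Fin n) : 0 < wt μ ε k :=
  div_pos hε (by linarith [h.nn k])

theorem wt_le {ε : ℝ} (hε : 0 < ε) (k : Fin n) : wt μ ε k ≤ 1 :=
  (div_le_one (by linarith [h.nn k])).2 (by linarith [h.nn k])

theorem vt_le {ε : ℝ} (hε : 0 < ε) (k : Fin n) : vt μ k ≤ wt μ ε k := by
  unfold vt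
  split_ifs with hk
  · unfold wt; rw [hk, add_zero, div_self hε.ne']
  · exact (h.wt_pos hε k).le

theorem wt_mu {ε : ℝ} (hε : 0 < ε) (k : Fin n) : wt μ ε k * μ k ≤ ε := by
  unfold wt
  rw [div_mul_eq_mul_div, div_le_iff₀ (by linarith [h.nn k])]
  nlinarith [h.nn k]

theorem ginv {ε : ℝ} (hε : 0 < ε) :
    (gE G C ε)⁻¹ = Nᴴ * diagonal (fun k => (wt μ ε k : ℂ)) * N := by
  have h1 : N * gE G C ε * Nᴴ = diagonal fun k => (((wt μ ε k)⁻¹ : ℝ) : ℂ) := by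
    rw [← gE_conj, h.one, gE, h.dg]
    ext a b
    by_cases hab : a = b
    · subst hab
      simp only [Matrix.add_apply, Matrix.one_apply_eq, Matrix.smul_apply, Matrix.diagonal_apply_eq,
        smul_eq_mul, wt]
      norm_cast
      field_simp
    · simp [hab]
  rw [← inv_conj h.det_ne, h1]
  congr 2
  apply Matrix.inv_eq_right_inv
  rw [Matrix.diagonal_mul_diagonal, ← Matrix.diagonal_one]
  congr 1
  funext k
  rw [← Complex.ofReal_mul, inv_mul_cancel₀ (h.wt_pos hε k).ne', Complex.ofReal_one]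

theorem en_ginv {ε : ℝ} (hε : 0 < ε) (θ : Fin n → H) :
    en (gE G C ε)⁻¹ θ = ∑ k, wt μ ε k * ‖ac N θ k‖ ^ 2 := by
  rw [h.ginv hε, en_conj, en_diag]

theorem ee_eq (hG : G.PosDef) {ε : ℝ} (hε : 0 < ε) (θ : Fin n → H) :
    ee G C ε θ = G.det.re * Dm G C ε * ∑ k, wt μ ε k * ‖ac N θ k‖ ^ 2 := by
  rw [ee, Qe_eq hG C hε, en_smul, h.en_ginv hε]

theorem Q0_one (hG : G.PosDef) :
    Q0 1 (N * C) = (Dm G C 0 : ℂ) • diagonal fun k => (vt μ k : ℂ) := by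
  have e1 : Q0 1 (N * C) = (vI (N * C))ᴴ * vI (N * C) := by
    rw [Q0, Matrix.det_one, one_smul, inv_one, Gam_one, Matrix.mul_one]
  have e2 : star (tau (N * C)) ⬝ᵥ tau (N * C) = (Dm G C 0 : ℂ) := by
    rw [tau_sq, h.gram, Dm, ← (Dp_facts (Hm_psd hG C)).1 0]
    simp
  rw [e1]
  ext l k
  by_cases hk : μ k = 0
  · have h1 : iW (ep k) *ᵥ tau (N * C) = 0 := by
      unfold tau
      rw [Matrix.mulVec_mulVec, iW_GamR]
      have : (N * C)ᵀ *ᵥ (ep k : Fin n → ℂ) = 0 := by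
        funext j
        rw [Matrix.mulVec_single_one]
        exact h.row_zero hk j
      rw [this, show iW (0 : Fin q → ℂ) = 0 by simp, Matrix.mul_zero, Matrix.zero_mulVec]
    have h2 : ((vI (N * C))ᴴ * vI (N * C)) k l =
        star (eW (ep k) *ᵥ tau (N * C)) ⬝ᵥ (eW (ep l) *ᵥ tau (N * C)) := rfl
    have h3 : star (ep k : Fin n → ℂ) = ep k := by
      funext j; by_cases hj : j = k <;> simp [hj]
    rw [Matrix.star_mulVec, ← Matrix.dotProduct_mulVec, Matrix.mulVec_mulVec, eW_ct, h3,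
      eq_sub_of_add_eq (iW_eW (R := ℂ) (ep k) (ep l)), Matrix.sub_mulVec, ← Matrix.mulVec_mulVec, h1,
      Matrix.mulVec_zero, sub_zero, Matrix.smul_mulVec, Matrix.one_mulVec, dotProduct_smul,
      e2] at h2
    have h4 := (isHermitian_conjTranspose_mul_self (vI (N * C))).apply l k
    rw [← h4, h2]
    by_cases hl : l = k
    · subst hl
      simp [vt, hk, Pi.single_apply]
    · simp [hl, Pi.single_apply, Ne.symm hl]
  · have h1 : (vI (N * C))ᴴ * vI (N * C) * (N * C * (N * C)ᴴ) = 0 := by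
      rw [← Matrix.mul_assoc, Matrix.mul_assoc _ (vI _), vI_mul_self, Matrix.mul_zero,
        Matrix.zero_mul]
    rw [h.dg] at h1
    have h2 := congrFun (congrFun h1 l) k
    rw [Matrix.mul_diagonal, Matrix.zero_apply, mul_eq_zero] at h2
    rw [h2.resolve_right (Complex.ofReal_ne_zero.2 hk)]
    by_cases hl : l = k
    · subst hl
      simp [vt, hk]
    · simp [hl]

theorem Q0_eq (hG : G.PosDef) : Q0 G C = ((G.det.re * Dm G C 0 : ℝ) : ℂ) •
    (Nᴴ * diagonal (fun k => (vt μ k : ℂ)) * N) := by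
  have h1 := Q0_conj h.det_ne G C
  rw [h.one, h.Q0_one hG, Matrix.mul_smul, Matrix.smul_mul] at h1
  rw [Complex.ofReal_mul, ← det_ofReal hG, mul_smul, h1, smul_smul, mul_comm, h.det_sq, one_smul]

theorem e0_eq (hG : G.PosDef) (θ : Fin n → H) :
    e0 G C θ = G.det.re * Dm G C 0 * ∑ k, vt μ k * ‖ac N θ k‖ ^ 2 := by
  rw [e0, h.Q0_eq hG, en_smul, en_conj, en_diag]

theorem K4_eq {ε : ℝ} (hε : 0 < ε) : K4 (gE G C ε) = (N2 N)ᴴ *
    diagonal (fun p : Fin n × Fin n => ((wt μ ε p.1 * wt μ ε p.2 : ℝ) : ℂ)) * N2 N := by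
  rw [K4, h.ginv hε, kron_conj, Matrix.diagonal_transpose, Matrix.diagonal_kronecker_diagonal]
  congr 3
  funext p
  push_cast
  rfl

theorem trH_eq {ε : ℝ} (hε : 0 < ε) (A : Fin n × Fin n → H) :
    trH (gE G C ε)⁻¹ A = ∑ k, (wt μ ε k : ℂ) • ac (N2 N) A (k, k) := by
  rw [h.ginv hε, trH_conj, trH_diag]

theorem mu_le (k : Fin n) : μ k ≤ (Hm G C).trace.re := by
  rw [← h.gram, Matrix.trace_mul_comm, h.dg, Matrix.trace_diagonal, Complex.re_sum]
  simp only [Complex.ofReal_re]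
  exact Finset.single_le_sum (fun j _ => h.nn j) (mem_univ k)

theorem inv_mul_ct : N⁻¹ * (N⁻¹)ᴴ = G := by
  have h1 : IsUnit N.det := h.det_ne.isUnit
  have h2 : IsUnit Nᴴ.det := by rw [Matrix.det_conjTranspose]; exact h1.star
  calc N⁻¹ * (N⁻¹)ᴴ = N⁻¹ * (N * G * Nᴴ) * (Nᴴ)⁻¹ := by
        rw [h.one, Matrix.mul_one, Matrix.conjTranspose_nonsing_inv]
    _ = G := by
        rw [Matrix.mul_assoc, Matrix.mul_assoc, Matrix.mul_nonsing_inv _ h2, Matrix.mul_one,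
          ← Matrix.mul_assoc, Matrix.nonsing_inv_mul _ h1, Matrix.one_mul]

/-- the key bound `Cᴴ g⁻¹ C ≤ ε` -/
theorem hor_vec {ε : ℝ} (hε : 0 < ε) {c : Fin q → ℂ} (hc : ∑ j, ‖c j‖ ^ 2 ≤ 1) :
    ∑ k, wt μ ε k * ‖((N * C) *ᵥ c) k‖ ^ 2 ≤ ε := by
  set y := (N * C) *ᵥ c with hy
  set z : Fin n → ℂ := fun k => (wt μ ε k : ℂ) * y k with hz
  have h1 : dt z y = ((∑ k, wt μ ε k * ‖y k‖ ^ 2 : ℝ) : ℂ) := by
    simp only [dt, hz, RCLike.inner_apply', map_mul, Complex.conj_ofReal, mul_assoc,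
      Complex.conj_mul']
    norm_cast
  have h2 : y = ac (N * C) c := rfl
  have h3 : sq (ac (N * C)ᴴ z) ≤ ε * ∑ k, wt μ ε k * ‖y k‖ ^ 2 := by
    rw [← en_gram, Matrix.conjTranspose_conjTranspose, h.dg, en_diag, Finset.mul_sum]
    refine Finset.sum_le_sum fun k _ => ?_
    rw [hz]
    simp only [norm_mul, Complex.norm_real, Real.norm_of_nonneg (h.wt_pos hε k).le]
    have := mul_le_mul_of_nonneg_right (h.wt_mu hε k)
      (mul_nonneg (h.wt_pos hε k).le (sq_nonneg ‖y k‖))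
    nlinarith
  have h4 := norm_dt_le (ac (N * C)ᴴ z) c ε⁻¹ (inv_pos.2 hε)
  rw [← dt_ac, ← h2, h1, Complex.norm_real] at h4
  have h5 : ε⁻¹ / 2 * sq (ac (N * C)ᴴ z) ≤ (∑ k, wt μ ε k * ‖y k‖ ^ 2) / 2 := by
    refine (mul_le_mul_of_nonneg_left h3 (by positivity)).trans (le_of_eq ?_)
    field_simp
  have h6 : 1 / (2 * ε⁻¹) * sq c ≤ ε / 2 := by
    refine (mul_le_mul_of_nonneg_left (show sq c ≤ 1 from hc) (by positivity)).trans (le_of_eq ?_)
    field_simp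
  have h7 := le_abs_self (∑ k, wt μ ε k * ‖y k‖ ^ 2)
  rw [Real.norm_eq_abs] at h4
  linarith

end NF

end

end Crest.Agent.X261.Fam
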