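import Crest.Agent.X261.Fam.NF

/-!
# Row 261, package FAM (helper12), part PW: the pointwise inequalities
-/

set_option autoImplicit false
set_option linter.unusedSectionVars false

open Matrix Finset Filter Topology
open scoped ComplexConjugate ComplexOrder MatrixOrder InnerProductSpace Kronecker

namespace Crest.Agent.X261.Fam

open Crest.Agent.R273.Fock_243 Crest.Agent.R273.GamR_155

noncomputable section

variable {H : Type*} [NormedAddCommGroup H] [InnerProductSpace ℂ H] {n q : ℕ}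
  {G : Mt n} {C : Mr n q} {ε : ℝ}

theorem Dm_zero_nonneg (hG : G.PosDef) (C : Mr n q) : 0 ≤ Dm G C 0 := (Dp_facts (Hm_psd hG C)).2.1

theorem Dm_mono (hG : G.PosDef) (C : Mr n q) {ε ε' : ℝ} (h0 : 0 ≤ ε) (h : ε ≤ ε') :
    Dm G C ε ≤ Dm G C ε' := (Dp_facts (Hm_psd hG C)).2.2.1 ε ε' h0 h

theorem Dm_pos (hG : G.PosDef) (C : Mr n q) (hε : 0 < ε) : 0 < Dm G C ε :=
  ((Dp_facts (Hm_psd hG C)).2.2.2 ε hε).1

theorem vt_nonneg (μ : Fin n → ℝ) (k : Fin n) : 0 ≤ vt μ k := by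
  unfold vt; split_ifs <;> norm_num

theorem vt_le_one (μ : Fin n → ℝ) (k : Fin n) : vt μ k ≤ 1 := by
  unfold vt; split_ifs <;> norm_num

theorem Q0_psd (hG : G.PosDef) (C : Mr n q) : (Q0 G C).PosSemidef := by
  obtain ⟨N, μ, h⟩ := exists_NF hG C
  rw [h.Q0_eq hG]
  refine PosSemidef.smul (PosSemidef.conjTranspose_mul_mul_same ?_ N)
    (Complex.zero_le_real.2 (mul_nonneg (det_re_pos hG).le (Dm_zero_nonneg hG C)))
  exact posSemidef_diagonal_iff.2 fun k => Complex.zero_le_real.2 (vt_nonneg μ k)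

theorem e0_nonneg (hG : G.PosDef) (C : Mr n q) (θ : Fin n → H) : 0 ≤ e0 G C θ :=
  en_nonneg (Q0_psd hG C) θ

theorem Q0_mul_self (G : Mt n) (C : Mr n q) : Q0 G C * C = 0 := by
  unfold Q0
  rw [Matrix.smul_mul, Matrix.mul_assoc, vI_mul_self, Matrix.mul_zero, smul_zero]

theorem e0_eq_vI (hG : G.PosDef) (C : Mr n q) (θ : Fin n → H) :
    e0 G C θ = G.det.re * en (Gam G⁻¹) (ac (vI C) θ) := by
  rw [e0, Q0, det_ofReal hG, en_smul, en_conj, Complex.ofReal_re]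

namespace NF

variable {N : Mt n} {μ : Fin n → ℝ} (h : NF G C N μ)
include h

/-- the excess splits into a vertical and a horizontal part -/
theorem exc_eq (hG : G.PosDef) (hε : 0 < ε) (θ : Fin n → H) : ee G C ε θ - e0 G C θ =
    G.det.re * (Dm G C ε - Dm G C 0) * ∑ k, vt μ k * ‖ac N θ k‖ ^ 2 +
      G.det.re * Dm G C ε * ∑ k, (wt μ ε k - vt μ k) * ‖ac N θ k‖ ^ 2 := by
  rw [h.ee_eq hG hε, h.e0_eq hG]
  simp only [sub_mul, Finset.sum_sub_distrib]
  ring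

theorem sv_nonneg (θ : Fin n → H) : 0 ≤ ∑ k, vt μ k * ‖ac N θ k‖ ^ 2 :=
  Finset.sum_nonneg fun k _ => mul_nonneg (vt_nonneg μ k) (sq_nonneg _)

theorem sh_nonneg (hε : 0 < ε) (θ : Fin n → H) :
    0 ≤ ∑ k, (wt μ ε k - vt μ k) * ‖ac N θ k‖ ^ 2 :=
  Finset.sum_nonneg fun k _ => mul_nonneg (sub_nonneg.2 (h.vt_le hε k)) (sq_nonneg _)

theorem ver_le (hG : G.PosDef) (hε : 0 < ε) (θ : Fin n → H) :
    G.det.re * (Dm G C ε - Dm G C 0) * ∑ k, vt μ k * ‖ac N θ k‖ ^ 2 ≤ ee G C ε θ - e0 G C θ := by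
  rw [h.exc_eq hG hε]
  exact le_add_of_nonneg_right
    (mul_nonneg (mul_pos (det_re_pos hG) (Dm_pos hG C hε)).le (h.sh_nonneg hε θ))

theorem hor_le (hG : G.PosDef) (hε : 0 < ε) (θ : Fin n → H) :
    G.det.re * Dm G C ε * ∑ k, (wt μ ε k - vt μ k) * ‖ac N θ k‖ ^ 2 ≤ ee G C ε θ - e0 G C θ := by
  rw [h.exc_eq hG hε]
  exact le_add_of_nonneg_left (mul_nonneg (mul_nonneg (det_re_pos hG).le
    (sub_nonneg.2 (Dm_mono hG C le_rfl hε.le))) (h.sv_nonneg θ))

theorem wt_sub (hε : 0 < ε) (k : Fin n) :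
    wt μ ε k - vt μ k = if μ k = 0 then 0 else wt μ ε k := by
  unfold vt
  split_ifs with hk
  · unfold wt; rw [hk, add_zero, div_self hε.ne', sub_self]
  · rw [sub_zero]

end NF

theorem e0_le_ee (hG : G.PosDef) (C : Mr n q) (hε : 0 < ε) (θ : Fin n → H) :
    e0 G C θ ≤ ee G C ε θ := by
  obtain ⟨N, μ, h⟩ := exists_NF hG C
  have h1 := h.hor_le hG hε θ
  have h2 := mul_nonneg (mul_pos (det_re_pos hG) (Dm_pos hG C hε)).le (h.sh_nonneg hε θ)
  linarith

theorem ee_nonneg (hG : G.PosDef) (C : Mr n q) (hε : 0 < ε) (θ : Fin n → H) : 0 ≤ ee G C ε θ :=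
  (e0_nonneg hG C θ).trans (e0_le_ee hG C hε θ)

theorem ee_le (hG : G.PosDef) (C : Mr n q) (hε : 0 < ε) (h1 : ε ≤ 1) (θ : Fin n → H) :
    ee G C ε θ ≤ Dm G C 1 * en G.adjugate θ := by
  obtain ⟨N, μ, h⟩ := exists_NF hG C
  rw [h.ee_eq hG hε, adj_eq hG, det_ofReal hG, en_smul, ← h.inv, en_gram, Complex.ofReal_re]
  have h2 : ∑ k, wt μ ε k * ‖ac N θ k‖ ^ 2 ≤ sq (ac N θ) :=
    Finset.sum_le_sum fun k _ => mul_le_of_le_one_left (sq_nonneg _) (h.wt_le hε k)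
  have h3 := Dm_mono hG C hε.le h1
  have h4 := det_re_pos hG
  have h5 := Dm_pos hG C hε
  have h6 := sq_nonneg' (ac N θ)
  calc G.det.re * Dm G C ε * ∑ k, wt μ ε k * ‖ac N θ k‖ ^ 2
      ≤ G.det.re * Dm G C ε * sq (ac N θ) := by gcongr
    _ ≤ G.det.re * Dm G C 1 * sq (ac N θ) := by gcongr
    _ = _ := by ring

theorem tendsto_ee (hG : G.PosDef) (C : Mr n q) (θ : Fin n → H) :
    Tendsto (fun ε => ee G C ε θ) (𝓝[>] 0) (𝓝 (e0 G C θ)) := by
  obtain ⟨N, μ, h⟩ := exists_NF hG C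
  rw [h.e0_eq hG]
  refine Tendsto.congr' (f₁ := fun ε => G.det.re * Dm G C ε * ∑ k, wt μ ε k * ‖ac N θ k‖ ^ 2) ?_ ?_
  · filter_upwards [self_mem_nhdsWithin] with ε hε
    exact (h.ee_eq hG hε θ).symm
  refine Tendsto.mul (Tendsto.const_mul _
    (((continuous_Dp _).tendsto 0).mono_left nhdsWithin_le_nhds)) ?_
  refine tendsto_finsetSum _ fun k _ => Tendsto.mul_const _ ?_
  unfold vt
  split_ifs with hk
  · refine Tendsto.congr' (f₁ := fun _ => 1) ?_ tendsto_const_nhds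
    filter_upwards [self_mem_nhdsWithin] with ε hε
    unfold wt; rw [hk, add_zero, div_self (ne_of_gt hε)]
  · have h1 : ContinuousAt (fun ε : ℝ => ε / (ε + μ k)) 0 :=
      continuousAt_id.div (by fun_prop) (by simpa using hk)
    have h2 := h1.tendsto.mono_left (nhdsWithin_le_nhds (s := Set.Ioi 0))
    simpa [wt] using h2

theorem norm_trace_le {Z Y : Mt q} {z y : ℝ} (hz : ∀ a b, ‖Z a b‖ ≤ z) (hy : ∀ a b, ‖Y a b‖ ≤ y) :
    ‖(Z * Y).trace‖ ≤ q ^ 2 * (z * y) := by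
  simp only [Matrix.trace, Matrix.diag, Matrix.mul_apply]
  calc ‖∑ a, ∑ b, Z a b * Y b a‖ ≤ ∑ _a : Fin q, ∑ _b : Fin q, z * y := by
        refine (norm_sum_le _ _).trans (Finset.sum_le_sum fun a _ => ?_)
        refine (norm_sum_le _ _).trans (Finset.sum_le_sum fun b _ => ?_)
        rw [norm_mul]
        exact mul_le_mul (hz a b) (hy b a) (norm_nonneg _) ((norm_nonneg _).trans (hz a b))
    _ = _ := by simp; ring

/-- the constant of `pw1` -/
def c1 (q : ℕ) : ℝ := q ^ 2 * (1 + q) + q ^ 3 + q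

/-- **PW1**: horizontal test forms see the vertical energy -/
theorem pw1 (hG : G.PosDef) (C : Mr n q) (hε : 0 < ε) {Z : Mt q} {z : ℝ} (hz0 : 0 ≤ z)
    (hz : ∀ a b, ‖Z a b‖ ≤ z) (θ : Fin n → H) :
    ‖((ε ^ q / ε : ℝ) : ℂ) * ip (Wm (gE G C ε) (C * Z * Cᴴ)) θ θ - Z.trace * e0 G C θ‖ ≤
      c1 q * z * (ee G C ε θ - e0 G C θ) := by
  obtain ⟨N, μ, h⟩ := exists_NF hG C
  set g := gE G C ε with hg
  have hgp : g.PosDef := gE_posDef hG C hε
  set Y : Mt q := (ε : ℂ) • ((ε : ℂ) • (1 : Mt q) + Hm G C)⁻¹ with hY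
  have hYb := ((Dp_facts (Hm_psd hG C)).2.2.2 ε hε).2
  set V : ℝ := G.det.re * Dm G C ε with hV
  have hV0 : 0 < V := mul_pos (det_re_pos hG) (Dm_pos hG C hε)
  have hε' : (ε : ℂ) ≠ 0 := Complex.ofReal_ne_zero.2 hε.ne'
  set y : Fin q → H := ac (Cᴴ * g⁻¹) θ with hy
  have e1 : ((ε⁻¹ : ℝ) : ℂ) * (g⁻¹ * (C * Z * Cᴴ)).trace = (Z * (1 - Y)).trace := by
    rw [hY, ← res_eq hG C hε, Matrix.mul_smul, Matrix.trace_smul, smul_eq_mul, ← hg]
    congr 1
    rw [← Matrix.mul_assoc, ← Matrix.mul_assoc, Matrix.mul_assoc (g⁻¹ * C), Matrix.trace_mul_comm]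
    simp only [Matrix.mul_assoc]
  have e2 : ip (g⁻¹ * (C * Z * Cᴴ) * g⁻¹) θ θ = ip Z y y := by
    rw [hy, ← ip_conj, Matrix.conjTranspose_mul, Matrix.conjTranspose_conjTranspose, hgp.inv.1.eq]
    simp only [Matrix.mul_assoc]
  have e3 : (V : ℂ) * ip g⁻¹ θ θ = ee G C ε θ := by
    rw [ee, ← ip_real (Qe_posDef hG C hε).1, Qe_eq hG C hε, ip_smul]
  have e4 : ((ε ^ q / ε : ℝ) : ℂ) * ip (Wm g (C * Z * Cᴴ)) θ θ - Z.trace * e0 G C θ =
      (Z * (1 - Y)).trace * ((ee G C ε θ - e0 G C θ : ℝ) : ℂ) - (Z * Y).trace * e0 G C θ -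
        ((V / ε : ℝ) : ℂ) * ip Z y y := by
    have e5 : Z.trace = (Z * (1 - Y)).trace + (Z * Y).trace := by
      rw [← Matrix.trace_add, ← Matrix.mul_add, sub_add_cancel, Matrix.mul_one]
    have e6 := det_gE hG C hε
    rw [← hg, ← hV] at e6
    rw [Wm, ip_smul, ip_sub, ip_smul, e2, e5, Complex.ofReal_sub, ← e3, ← e1]
    push_cast at e6 ⊢
    rw [← e6]
    field_simp
    ring
  have hδ : 0 ≤ ee G C ε θ - e0 G C θ := sub_nonneg.2 (e0_le_ee hG C hε θ)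
  have b1 : ‖(Z * (1 - Y)).trace‖ ≤ q ^ 2 * (z * (1 + q)) := by
    refine norm_trace_le hz fun a b => ?_
    rw [Matrix.sub_apply]
    refine (norm_sub_le _ _).trans (add_le_add ?_ (hYb a b).1)
    rw [Matrix.one_apply]; split_ifs <;> simp
  have b2 : ‖(Z * Y).trace‖ * e0 G C θ ≤ q ^ 3 * z * (ee G C ε θ - e0 G C θ) := by
    have h1 : ‖(Z * ((Dm G C 0 : ℂ) • Y)).trace‖ ≤ q ^ 2 * (z * (q * (Dm G C ε - Dm G C 0))) := by
      refine norm_trace_le hz fun a b => ?_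
      rw [Matrix.smul_apply, norm_smul, Complex.norm_real,
        Real.norm_of_nonneg (Dm_zero_nonneg hG C)]
      exact (hYb a b).2
    rw [Matrix.mul_smul, Matrix.trace_smul, norm_smul, Complex.norm_real,
      Real.norm_of_nonneg (Dm_zero_nonneg hG C)] at h1
    have h2 := h.ver_le hG hε θ
    have h3 := h.sv_nonneg θ
    have h4 := (det_re_pos hG).le
    rw [h.e0_eq hG]
    rw [h.e0_eq hG] at h2
    set S := ∑ k, vt μ k * ‖ac N θ k‖ ^ 2
    calc ‖(Z * Y).trace‖ * (G.det.re * Dm G C 0 * S)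
        = Dm G C 0 * ‖(Z * Y).trace‖ * (G.det.re * S) := by ring
      _ ≤ q ^ 2 * (z * (q * (Dm G C ε - Dm G C 0))) * (G.det.re * S) := by gcongr
      _ = q ^ 3 * z * (G.det.re * (Dm G C ε - Dm G C 0) * S) := by ring
      _ ≤ _ := by gcongr
  have b3 : V / ε * ‖ip Z y y‖ ≤ q * z * (ee G C ε θ - e0 G C θ) := by
    have h1 := norm_ip_le_ent hz y
    rw [Fintype.card_fin] at h1
    have h2 : sq y ≤ ε * ∑ k, (wt μ ε k - vt μ k) * ‖ac N θ k‖ ^ 2 := by
      have h3 : (Cᴴ * g⁻¹)ᴴ * (Cᴴ * g⁻¹) =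
          Nᴴ * diagonal (fun k => ((wt μ ε k * μ k * wt μ ε k : ℝ) : ℂ)) * N := by
        rw [Matrix.conjTranspose_mul, Matrix.conjTranspose_conjTranspose, hgp.inv.1.eq, hg,
          h.ginv hε]
        calc _ = Nᴴ * (diagonal (fun k => (wt μ ε k : ℂ)) * (N * C * (N * C)ᴴ) *
              diagonal (fun k => (wt μ ε k : ℂ))) * N := by
              simp only [Matrix.conjTranspose_mul, Matrix.mul_assoc]
          _ = _ := by
              rw [h.dg, Matrix.diagonal_mul_diagonal, Matrix.diagonal_mul_diagonal]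
              push_cast
              rfl
      rw [hy, ← en_gram, h3, en_conj, en_diag, Finset.mul_sum]
      refine Finset.sum_le_sum fun k _ => ?_
      rw [← mul_assoc, h.wt_sub hε]
      refine mul_le_mul_of_nonneg_right ?_ (sq_nonneg _)
      split_ifs with hk
      · simp [hk]
      · exact mul_le_mul_of_nonneg_right (h.wt_mu hε k) (h.wt_pos hε k).le
    have h4 := h.hor_le hG hε θ
    rw [← hV] at h4
    set S := ∑ k, (wt μ ε k - vt μ k) * ‖ac N θ k‖ ^ 2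
    calc V / ε * ‖ip Z y y‖ ≤ V / ε * (z * q * (ε * S)) := by
          gcongr
          exact h1.trans (by gcongr)
      _ = q * z * (V * S) := by field_simp
      _ ≤ _ := by gcongr
  rw [e4]
  refine (norm_sub_le _ _).trans ((add_le_add (norm_sub_le _ _) le_rfl).trans ?_)
  rw [norm_mul, norm_mul, norm_mul, Complex.norm_real, Complex.norm_real, Complex.norm_real,
    Real.norm_of_nonneg hδ, Real.norm_of_nonneg (e0_nonneg hG C θ),
    Real.norm_of_nonneg (div_pos hV0 hε).le, c1]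
  nlinarith [mul_le_mul_of_nonneg_right b1 hδ]

/-- the normalised square norm of a `(1,1)`-tensor -/
def na (G : Mt n) (C : Mr n q) (ε : ℝ) (A : Fin n × Fin n → H) : ℝ :=
  G.det.re * Dm G C ε / ε * en (K4 (gE G C ε)) A

theorem NF.na_eq {N : Mt n} {μ : Fin n → ℝ} (h : NF G C N μ) (hε : 0 < ε)
    (A : Fin n × Fin n → H) : na G C ε A = G.det.re * Dm G C ε / ε *
      ∑ k, ∑ l, wt μ ε k * wt μ ε l * ‖ac (N2 N) A (k, l)‖ ^ 2 := by
  rw [na, h.K4_eq hε, en_conj, en_diag, Fintype.sum_prod_type]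

theorem na_nonneg (hG : G.PosDef) (C : Mr n q) (hε : 0 < ε) (A : Fin n × Fin n → H) :
    0 ≤ na G C ε A := by
  obtain ⟨N, μ, h⟩ := exists_NF hG C
  rw [h.na_eq hε]
  exact mul_nonneg (div_pos (mul_pos (det_re_pos hG) (Dm_pos hG C hε)) hε).le
    (Finset.sum_nonneg fun k _ => Finset.sum_nonneg fun l _ =>
      mul_nonneg (mul_pos (h.wt_pos hε k) (h.wt_pos hε l)).le (sq_nonneg _))

/-- the algebraic side of the Siu-Sampson identity -/
theorem na_eq_W4 (hG : G.PosDef) (C : Mr n q) (hε : 0 < ε) (A : Fin n × Fin n → H) :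
    na G C ε A = ‖trH (Qe G C ε) A‖ ^ 2 / (ε * (G.det.re * Dm G C ε)) -
      ε ^ q / ε * (ip (W4 (gE G C ε)) A A).re := by
  have hV : 0 < G.det.re * Dm G C ε := mul_pos (det_re_pos hG) (Dm_pos hG C hε)
  have h1 : trH (Qe G C ε) A = ((G.det.re * Dm G C ε : ℝ) : ℂ) • trH (gE G C ε)⁻¹ A := by
    rw [Qe_eq hG C hε]
    simp only [trH, Matrix.smul_apply, smul_eq_mul, Finset.smul_sum, smul_smul]
  have h2 : ε ^ q * (ip (W4 (gE G C ε)) A A).re = G.det.re * Dm G C ε *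
      (‖trH (gE G C ε)⁻¹ A‖ ^ 2 - en (K4 (gE G C ε)) A) := by
    rw [← Complex.re_ofReal_mul, ip_W4 (gE_posDef hG C hε).1, ← mul_assoc, det_gE hG C hε,
      Complex.re_ofReal_mul, Complex.sub_re, inner_self_c, Complex.ofReal_re, en]
  rw [h1, norm_smul, Complex.norm_real, Real.norm_of_nonneg hV.le, na, div_mul_eq_mul_div (ε ^ q),
    h2]
  field_simp
  ring

theorem amgm (a b s : ℝ) (hs : 0 < s) : a * b ≤ s / 2 * a ^ 2 + 1 / (2 * s) * b ^ 2 := by
  have h : 0 ≤ (s * a - b) ^ 2 / (2 * s) := by positivity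
  have e : (s * a - b) ^ 2 / (2 * s) = s / 2 * a ^ 2 + 1 / (2 * s) * b ^ 2 - a * b := by
    field_simp; ring
  linarith

/-- **PW2**: the Stokes term; the factor `1/4` uses that `A` is Hermitian -/
theorem pw2 (hG : G.PosDef) (C : Mr n q) (hε : 0 < ε) (cj : Cj H) {A : Fin n × Fin n → H}
    (hA : ∀ a b, cj.J (A (a, b)) = A (b, a)) {c : Fin q → ℂ} (hc : ∑ j, ‖c j‖ ^ 2 ≤ 1)
    (θ : Fin n → H) {t κ : ℝ} (ht : 0 < t) (hκ : 0 < κ) :
    ε ^ q / ε * ‖ip (W4 (gE G C ε)) (tn θ (C *ᵥ c)) A‖ ≤ t / 2 * ee G C ε θ +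
      (1 / (4 * t) + κ) * na G C ε A + (n + 2) / (2 * κ) * (ee G C ε θ - e0 G C θ) := by
  obtain ⟨N, μ, h⟩ := exists_NF hG C
  set V : ℝ := G.det.re * Dm G C ε with hV
  have hV0 : 0 < V := mul_pos (det_re_pos hG) (Dm_pos hG C hε)
  set y := (N * C) *ᵥ c with hy
  set θ' := ac N θ with hθ'
  set A' := ac (N2 N) A with hA'
  set w := wt μ ε with hw
  have hw0 : ∀ k, 0 < w k := h.wt_pos hε
  have hs : ∑ k, w k * ‖y k‖ ^ 2 ≤ ε := h.hor_vec hε hc
  have hy0 : ∀ l, μ l = 0 → y l = 0 := fun l hl => by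
    simp [hy, Matrix.mulVec, dotProduct, h.row_zero hl]
  have hsym : ∀ k l, ‖A' (k, l)‖ = ‖A' (l, k)‖ := fun k l => by
    rw [← cj.norm (A' (k, l)), hA', cj.ac]
    congr 1
    simp only [ac, N2, Matrix.map_apply, kroneckerMap_apply, Fintype.sum_prod_type, hA, map_mul,
      Complex.conj_conj]
    rw [Finset.sum_comm]
    exact Finset.sum_congr rfl fun a _ => Finset.sum_congr rfl fun b _ => by rw [mul_comm]
  set NA := ∑ k, ∑ l, w k * w l * ‖A' (k, l)‖ ^ 2 with hNA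
  set Hs := ∑ k, (w k - vt μ k) * ‖θ' k‖ ^ 2 with hHs
  set Es := ∑ k, w k * ‖θ' k‖ ^ 2 with hEs
  have hHs0 : 0 ≤ Hs := h.sh_nonneg hε θ
  have hEs0 : 0 ≤ Es := Finset.sum_nonneg fun k _ => mul_nonneg (hw0 k).le (sq_nonneg _)
  have hB : ac (N2 N) (tn θ (C *ᵥ c)) = tn θ' y := by rw [ac_N2_tn, Matrix.mulVec_mulVec]
  -- first term
  have t1 : ‖⟪trH (gE G C ε)⁻¹ (tn θ (C *ᵥ c)), trH (gE G C ε)⁻¹ A⟫_ℂ‖ ≤
      (n + 1) / (2 * κ) * (ε * Hs) + κ / 2 * NA := by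
    rw [h.trH_eq hε, h.trH_eq hε, hB]
    refine (norm_inner_le_norm _ _).trans ((amgm _ _ ((n + 1) / κ) (by positivity)).trans ?_)
    have u1 : ‖∑ k, (wt μ ε k : ℂ) • tn θ' y (k, k)‖ ^ 2 ≤ ε * Hs := by
      have u2 : ‖∑ k, (wt μ ε k : ℂ) • tn θ' y (k, k)‖ ≤
          ∑ k, (√(w k) * ‖y k‖) * (√(w k - vt μ k) * ‖θ' k‖) := by
        refine (norm_sum_le _ _).trans (Finset.sum_le_sum fun k _ => ?_)
        rw [norm_smul, tn, norm_smul, Complex.norm_real, Real.norm_of_nonneg (hw0 k).le,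
          RCLike.norm_conj]
        by_cases hk : μ k = 0
        · simp [hy0 k hk]
        · have : vt μ k = 0 := if_neg hk
          rw [this, sub_zero, mul_mul_mul_comm, Real.mul_self_sqrt (hw0 k).le]
      refine (pow_le_pow_left₀ (norm_nonneg _) u2 2).trans
        ((Finset.sum_mul_sq_le_sq_mul_sq _ _ _).trans ?_)
      have hv : ∀ k, 0 ≤ w k - vt μ k := fun k => sub_nonneg.2 (h.vt_le hε k)
      simp only [mul_pow, Real.sq_sqrt (hw0 _).le, Real.sq_sqrt (hv _)]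
      exact mul_le_mul_of_nonneg_right hs hHs0
    have u3 : ‖∑ k, (wt μ ε k : ℂ) • ac (N2 N) A (k, k)‖ ^ 2 ≤ n * NA := by
      have u2 : ‖∑ k, (wt μ ε k : ℂ) • ac (N2 N) A (k, k)‖ ≤ ∑ k, 1 * (w k * ‖A' (k, k)‖) := by
        refine (norm_sum_le _ _).trans (Finset.sum_le_sum fun k _ => ?_)
        rw [norm_smul, Complex.norm_real, Real.norm_of_nonneg (hw0 k).le, one_mul]
      refine (pow_le_pow_left₀ (norm_nonneg _) u2 2).trans
        ((Finset.sum_mul_sq_le_sq_mul_sq _ _ _).trans ?_)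
      simp only [one_pow, Finset.sum_const, Finset.card_univ, Fintype.card_fin, nsmul_eq_mul,
        mul_one]
      refine mul_le_mul_of_nonneg_left (Finset.sum_le_sum fun k _ => ?_) (Nat.cast_nonneg n)
      refine le_trans (le_of_eq (by ring)) (Finset.single_le_sum
        (f := fun l => w k * w l * ‖A' (k, l)‖ ^ 2)
        (fun l _ => mul_nonneg (mul_pos (hw0 k) (hw0 l)).le (sq_nonneg _)) (mem_univ k))
    have hNA0 : 0 ≤ NA := Finset.sum_nonneg fun k _ => Finset.sum_nonneg fun l _ =>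
      mul_nonneg (mul_pos (hw0 k) (hw0 l)).le (sq_nonneg _)
    refine add_le_add ?_ ?_
    · refine (mul_le_mul_of_nonneg_left u1 (by positivity)).trans (le_of_eq ?_)
      field_simp
    · refine (mul_le_mul_of_nonneg_left u3 (by positivity)).trans ?_
      have : 1 / (2 * ((n + 1) / κ)) * (n * NA) = κ / 2 * NA * (n / (n + 1)) := by field_simp
      rw [this]
      exact mul_le_of_le_one_right (by positivity) ((div_le_one (by positivity)).2 (by linarith))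
  -- second term
  have t2 : ‖ip (K4 (gE G C ε)) (tn θ (C *ᵥ c)) A‖ ≤
      t / 2 * (ε * Es) + 1 / (4 * t) * NA + 1 / (2 * κ) * (ε * Hs) + κ / 2 * NA := by
    rw [h.K4_eq hε, ip_conj, hB, ip_diag, Fintype.sum_prod_type]
    have u1 : ∀ k l, ‖((wt μ ε k * wt μ ε l : ℝ) : ℂ) * ⟪tn θ' y (k, l), A' (k, l)⟫_ℂ‖ ≤
        (t / 2 * (w k * ‖θ' k‖ ^ 2) + 1 / (2 * κ) * ((w k - vt μ k) * ‖θ' k‖ ^ 2)) *
          (w l * ‖y l‖ ^ 2) + (1 / (2 * t) * (vt μ k * (1 - vt μ l) * (w k * w l * ‖A' (k, l)‖ ^ 2))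
            + κ / 2 * (w k * w l * ‖A' (k, l)‖ ^ 2)) := fun k l => by
      have hkl := mul_pos (hw0 k) (hw0 l)
      have u2 : ‖((wt μ ε k * wt μ ε l : ℝ) : ℂ) * ⟪tn θ' y (k, l), A' (k, l)⟫_ℂ‖ ≤
          w k * w l * ((‖y l‖ * ‖θ' k‖) * ‖A' (k, l)‖) := by
        rw [norm_mul, Complex.norm_real, Real.norm_of_nonneg hkl.le]
        refine mul_le_mul_of_nonneg_left ((norm_inner_le_norm _ _).trans (le_of_eq ?_)) hkl.le
        rw [tn, norm_smul, RCLike.norm_conj]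
      refine u2.trans ?_
      have p1 : 0 ≤ w k * w l * (‖y l‖ * ‖θ' k‖) ^ 2 := by positivity
      have p2 : 0 ≤ w k * w l * ‖A' (k, l)‖ ^ 2 := by positivity
      by_cases hl : μ l = 0
      · have : vt μ l = 1 := if_pos hl
        simp only [hy0 l hl, this, norm_zero, zero_mul, mul_zero, sub_self, ne_eq,
          OfNat.ofNat_ne_zero, not_false_eq_true, zero_pow, zero_add]
        positivity
      have hl' : vt μ l = 0 := if_neg hl
      by_cases hk : μ k = 0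
      · have hk' : vt μ k = 1 := if_pos hk
        have hk2 : w k - vt μ k = 0 := by rw [hw, h.wt_sub hε, if_pos hk]
        have u3 := mul_le_mul_of_nonneg_left (amgm (‖y l‖ * ‖θ' k‖) ‖A' (k, l)‖ t ht) hkl.le
        rw [hk2, hk', hl']
        have p3 : 0 ≤ κ / 2 * (w k * w l * ‖A' (k, l)‖ ^ 2) := by positivity
        nlinarith
      · have hk' : vt μ k = 0 := if_neg hk
        have u3 := mul_le_mul_of_nonneg_left
          (amgm (‖y l‖ * ‖θ' k‖) ‖A' (k, l)‖ κ⁻¹ (inv_pos.2 hκ)) hkl.le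
        have e1 : 1 / (2 * κ⁻¹) = κ / 2 := by field_simp
        have e2 : κ⁻¹ / 2 = 1 / (2 * κ) := by field_simp
        rw [e1, e2] at u3
        rw [hk']
        have p3 : 0 ≤ t / 2 * (w k * w l * (‖y l‖ * ‖θ' k‖) ^ 2) := by positivity
        nlinarith
    have u4 : ∑ k, ∑ l, vt μ k * (1 - vt μ l) * (w k * w l * ‖A' (k, l)‖ ^ 2) ≤ NA / 2 := by
      have u5 : ∑ k, ∑ l, vt μ k * (1 - vt μ l) * (w k * w l * ‖A' (k, l)‖ ^ 2) =
          ∑ k, ∑ l, vt μ l * (1 - vt μ k) * (w k * w l * ‖A' (k, l)‖ ^ 2) := by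
        rw [Finset.sum_comm]
        exact Finset.sum_congr rfl fun k _ => Finset.sum_congr rfl fun l _ => by
          rw [hsym l k]; ring
      have u6 : ∑ k, ∑ l, vt μ k * (1 - vt μ l) * (w k * w l * ‖A' (k, l)‖ ^ 2) +
          ∑ k, ∑ l, vt μ l * (1 - vt μ k) * (w k * w l * ‖A' (k, l)‖ ^ 2) ≤ NA := by
        rw [← Finset.sum_add_distrib]
        refine Finset.sum_le_sum fun k _ => ?_
        rw [← Finset.sum_add_distrib]
        refine Finset.sum_le_sum fun l _ => ?_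
        rw [← add_mul]
        refine mul_le_of_le_one_left (mul_nonneg (mul_pos (hw0 k) (hw0 l)).le (sq_nonneg _)) ?_
        unfold vt
        split_ifs <;> norm_num
      linarith
    refine (norm_sum_le _ _).trans ((Finset.sum_le_sum fun k _ => (norm_sum_le _ _).trans
      (Finset.sum_le_sum fun l _ => u1 k l)).trans ?_)
    simp only [Finset.sum_add_distrib, ← Finset.mul_sum, ← Finset.sum_mul]
    rw [← hNA, ← hHs, ← hEs]
    have u7 : (t / 2 * Es + 1 / (2 * κ) * Hs) * ∑ l, w l * ‖y l‖ ^ 2 ≤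
        (t / 2 * Es + 1 / (2 * κ) * Hs) * ε := mul_le_mul_of_nonneg_left hs (by positivity)
    have u8 := mul_le_mul_of_nonneg_left u4 (show 0 ≤ 1 / (2 * t) by positivity)
    have e1 : 1 / (2 * t) * (NA / 2) = 1 / (4 * t) * NA := by field_simp; ring
    nlinarith
  have e1 : ε ^ q / ε * ‖ip (W4 (gE G C ε)) (tn θ (C *ᵥ c)) A‖ = V / ε *
      ‖⟪trH (gE G C ε)⁻¹ (tn θ (C *ᵥ c)), trH (gE G C ε)⁻¹ A⟫_ℂ -
        ip (K4 (gE G C ε)) (tn θ (C *ᵥ c)) A‖ := by
    have e2 := congrArg norm (det_gE hG C hε)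
    rw [norm_mul, Complex.norm_real, Complex.norm_real, Real.norm_of_nonneg (by positivity),
      ← hV, Real.norm_of_nonneg hV0.le] at e2
    rw [ip_W4 (gE_posDef hG C hε).1, norm_mul, ← e2]
    ring
  have h4 := h.hor_le hG hε θ
  rw [← hV] at h4
  rw [e1, h.na_eq hε]
  conv_rhs => enter [1, 1, 2]; rw [h.ee_eq hG hε]
  change _ ≤ t / 2 * (V * Es) + (1 / (4 * t) + κ) * (V / ε * NA) + _
  refine (mul_le_mul_of_nonneg_left ((norm_sub_le _ _).trans (add_le_add t1 t2))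
    (div_pos hV0 hε).le).trans ?_
  have e3 : V / ε * ((n + 1) / (2 * κ) * (ε * Hs) + κ / 2 * NA +
      (t / 2 * (ε * Es) + 1 / (4 * t) * NA + 1 / (2 * κ) * (ε * Hs) + κ / 2 * NA)) =
      t / 2 * (V * Es) + (1 / (4 * t) + κ) * (V / ε * NA) + (n + 2) / (2 * κ) * (V * Hs) := by
    field_simp
    ring
  rw [e3]
  gcongr

theorem gam_psd (hG : G.PosDef) : (Gam G).PosSemidef := by
  obtain ⟨N, μ, h⟩ := exists_NF hG (0 : Mr n 0)
  rw [← h.inv_mul_ct, Gam_mul, ← Gam_ct]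
  exact posSemidef_self_mul_conjTranspose _

/-- **PW4**: the components of `θ ∧ τ` are bounded by the vertical energy -/
theorem pw4 (hG : G.PosDef) (C : Mr n q) (θ : Fin n → H) (I : FI n) :
    G.det.re * ‖ac (vI C) θ I‖ ^ 2 ≤ (Gam G I I).re * e0 G C θ := by
  obtain ⟨N, μ, h⟩ := exists_NF hG C
  have h1 : ac (vI C) θ = ac (Gam N⁻¹) (ac (Gam N) (ac (vI C) θ)) := by
    rw [← ac_mul, ← Gam_mul, Matrix.nonsing_inv_mul _ h.det_ne.isUnit, Gam_one, ac_one]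
  have h2 := norm_ac_sq_le (Gam N⁻¹) (ac (Gam N) (ac (vI C) θ)) I
  rw [← h1, Gam_ct, ← Gam_mul, h.inv_mul_ct, ← en_gram, Gam_ct, ← Gam_mul, h.inv] at h2
  rw [e0_eq_vI hG, mul_left_comm]
  exact mul_le_mul_of_nonneg_left h2 (det_re_pos hG).le

/-- **PW5**: the vertical part of a column of `A` -/
theorem pw5 (hG : G.PosDef) (C : Mr n q) (hε : 0 < ε) (h1 : ε ≤ 1) (A : Fin n × Fin n → H)
    (b : Fin n) :
    e0 G C (fun a => A (a, b)) ≤ (G b b).re * (1 + (Hm G C).trace.re) * na G C ε A := by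
  obtain ⟨N, μ, h⟩ := exists_NF hG C
  set A' := ac (N2 N) A with hA'
  have hu : IsUnit N.det := h.det_ne.isUnit
  have e1 : ∀ k, ac N (fun a => A (a, b)) k = ac (N⁻¹.map conj) (fun l => A' (k, l)) b := by
    intro k
    have e2 : ∀ c, ∑ l, conj (N⁻¹ b l) * conj (N l c) = if b = c then 1 else 0 := fun c => by
      have := congrFun (congrFun (Matrix.nonsing_inv_mul N hu) b) c
      rw [Matrix.mul_apply, Matrix.one_apply] at this
      simp only [← map_mul, ← map_sum, this]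
      split_ifs <;> simp
    simp only [hA', ac, N2, Matrix.map_apply, kroneckerMap_apply, Fintype.sum_prod_type,
      Finset.smul_sum, smul_smul]
    rw [Finset.sum_comm]
    refine Finset.sum_congr rfl fun a _ => ?_
    rw [Finset.sum_comm]
    simp only [← Finset.sum_smul, mul_left_comm _ (N k a), ← Finset.mul_sum, e2, mul_ite, mul_one,
      mul_zero, ite_smul, zero_smul, Finset.sum_ite_eq, Finset.mem_univ, if_true]
  have e3 : (((N⁻¹.map conj) * (N⁻¹.map conj)ᴴ) b b).re = (G b b).re := by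
    rw [← h.inv_mul_ct]
    simp only [Matrix.mul_apply, Matrix.conjTranspose_apply, Matrix.map_apply, RCLike.star_def,
      Complex.conj_conj, mul_comm]
  have hb : 0 ≤ (G b b).re := (Complex.nonneg_iff.1 (hG.posSemidef.diag_nonneg (i := b))).1
  have hT : ∀ k, μ k ≤ (Hm G C).trace.re := h.mu_le
  set T := (Hm G C).trace.re
  have hT0 : 0 ≤ T := (h.nn b).trans (hT b)
  have hd := det_re_pos hG
  have hD := Dm_pos hG C hε
  have hD0 := Dm_zero_nonneg hG C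
  have hDD := Dm_mono hG C le_rfl hε.le
  rw [h.e0_eq hG, h.na_eq hε, Finset.mul_sum, Finset.mul_sum, Finset.mul_sum]
  refine Finset.sum_le_sum fun k _ => ?_
  have e4 := norm_ac_sq_le (N⁻¹.map conj) (fun l => A' (k, l)) b
  rw [← e1, e3] at e4
  have e5 : vt μ k * ‖ac N (fun a => A (a, b)) k‖ ^ 2 ≤
      (G b b).re * ∑ l, wt μ ε k * ‖A' (k, l)‖ ^ 2 := by
    rw [← Finset.mul_sum, mul_left_comm]
    exact mul_le_mul (h.vt_le hε k) e4 (sq_nonneg _) (h.wt_pos hε k).le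
  refine (mul_le_mul_of_nonneg_left e5 (by positivity)).trans ?_
  simp only [Finset.mul_sum]
  refine Finset.sum_le_sum fun l _ => ?_
  have e6 : Dm G C 0 ≤ (1 + T) * (Dm G C ε / ε * wt μ ε l) := by
    have hp : 0 < ε + μ l := by linarith [h.nn l]
    have : Dm G C ε / ε * wt μ ε l = Dm G C ε / (ε + μ l) := by unfold wt; field_simp
    rw [this, mul_div_assoc', le_div_iff₀ hp]
    nlinarith [hT l, h.nn l]
  have e7 := mul_le_mul_of_nonneg_left e6 (show 0 ≤ G.det.re * (G b b).re *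
    (wt μ ε k * ‖A' (k, l)‖ ^ 2) from mul_nonneg (by positivity)
      (mul_nonneg (h.wt_pos hε k).le (sq_nonneg _)))
  refine le_trans (le_of_eq (by ring)) (e7.trans (le_of_eq (by ring)))

end

end Crest.Agent.X261.Fam
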